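import Vale.Agent.P028.Basic
import Vale.Agent.P003.Mertens

/-! P028 module ARITH: divisor bound, `n/phi(n)` facts, Mertens band, moments. -/

namespace Vale.Agent.P028

open Finset

/-- `ρ_N(b) = θ(N) Φ(b)/b`, a sub-probability (up to a constant) on the divisors of `N`. -/
noncomputable def rhoN (N b : ℕ) : ℝ := th N * Ph b / b

theorem card_divisors_le (θ : ℝ) (hθ : 0 < θ) :
    ∃ C : ℝ, ∀ n : ℕ, 0 < n → (n.divisors.card : ℝ) ≤ C * (n : ℝ) ^ θ := by
  set c : ℝ := 1 + 1 / (θ * Real.log 2) with hc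
  have hl2 : 0 < Real.log 2 := Real.log_pos one_lt_two
  have hc1 : 1 ≤ c := by
    have : 0 ≤ 1 / (θ * Real.log 2) := by positivity
    linarith
  set N0 : ℕ := ⌈(2 : ℝ) ^ (1 / θ)⌉₊ with hN0
  refine ⟨c ^ N0, fun n hn => ?_⟩
  rw [Nat.card_divisors hn.ne']
  push_cast
  have hnp : (n : ℝ) = ∏ p ∈ n.primeFactors, ((p : ℝ) ^ n.factorization p) := by
    conv_lhs => rw [← Nat.prod_factorization_pow_eq_self hn.ne']
    rw [Finsupp.prod, Nat.support_factorization]
    push_cast
    rfl
  have key : ∀ p ∈ n.primeFactors, (n.factorization p : ℝ) + 1 ≤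
      (if p < N0 then c else 1) * ((p : ℝ) ^ n.factorization p) ^ θ := by
    intro p hp
    have hpp := Nat.prime_of_mem_primeFactors hp
    have hp2 : (2 : ℝ) ≤ p := by exact_mod_cast hpp.two_le
    set e := n.factorization p
    rw [← Real.rpow_natCast, ← Real.rpow_mul (by linarith), mul_comm (e : ℝ) θ,
      Real.rpow_mul (by linarith), Real.rpow_natCast]
    split_ifs with h
    · have h1 : (1 + (e : ℝ) * (θ * Real.log 2)) ≤ ((p : ℝ) ^ θ) ^ e := by
        have : Real.exp ((e : ℝ) * (θ * Real.log 2)) ≤ ((p : ℝ) ^ θ) ^ e := by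
          rw [Real.exp_nat_mul]
          gcongr
          rw [mul_comm, ← Real.rpow_def_of_pos two_pos]
          exact Real.rpow_le_rpow two_pos.le hp2 hθ.le
        linarith [Real.add_one_le_exp ((e : ℝ) * (θ * Real.log 2))]
      calc (e : ℝ) + 1 ≤ c * (1 + (e : ℝ) * (θ * Real.log 2)) := by
            have hpos : 0 < θ * Real.log 2 := by positivity
            rw [hc]
            field_simp
            nlinarith [sq_nonneg (θ * Real.log 2), mul_pos hpos hpos,
              mul_nonneg (Nat.cast_nonneg e : (0 : ℝ) ≤ e) (sq_nonneg (θ * Real.log 2))]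
        _ ≤ _ := mul_le_mul_of_nonneg_left h1 (by linarith)
    · rw [one_mul]
      have h2 : (2 : ℝ) ≤ (p : ℝ) ^ θ := by
        have h3 : (2 : ℝ) ^ (1 / θ) ≤ p :=
          (Nat.le_ceil _).trans (by exact_mod_cast (not_lt.1 h))
        calc (2 : ℝ) = ((2 : ℝ) ^ (1 / θ)) ^ θ := by
              rw [← Real.rpow_mul two_pos.le, one_div, inv_mul_cancel₀ hθ.ne', Real.rpow_one]
          _ ≤ _ := Real.rpow_le_rpow (by positivity) h3 hθ.le
      calc (e : ℝ) + 1 ≤ (2 : ℝ) ^ e := by exact_mod_cast Nat.lt_two_pow_self (n := e)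
        _ ≤ _ := pow_le_pow_left₀ two_pos.le h2 e
  refine (Finset.prod_le_prod (fun p _ => by positivity) key).trans ?_
  rw [Finset.prod_mul_distrib, Real.finsetProd_rpow _ _ (fun p _ => by positivity), ← hnp]
  refine mul_le_mul_of_nonneg_right ?_ (by positivity)
  rw [Finset.prod_ite, Finset.prod_const_one, mul_one, Finset.prod_const]
  refine pow_le_pow_right₀ hc1 ?_
  calc _ ≤ (Finset.range N0).card := Finset.card_le_card (fun p hp => by simp_all)
    _ = N0 := Finset.card_range N0

theorem two_pow_omega_le_divisors (n : ℕ) (hn : 0 < n) :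
    2 ^ n.primeFactors.card ≤ n.divisors.card := by
  rw [Nat.card_divisors hn.ne', ← Finset.prod_const]
  refine Finset.prod_le_prod (fun _ _ => Nat.zero_le _) (fun p hp => ?_)
  have := (Nat.prime_of_mem_primeFactors hp).factorization_pos_of_dvd hn.ne'
    (Nat.dvd_of_mem_primeFactors hp)
  omega

theorem th_eq_prod (n : ℕ) (hn : 0 < n) : th n = ∏ p ∈ n.primeFactors, (1 - 1 / (p : ℝ)) := by
  have h := congrArg (fun x : ℚ => (x : ℝ)) (Nat.totient_eq_mul_prod_factors n)
  push_cast at h
  simp only [th, h, one_div]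
  field_simp

theorem Ph_eq_prod (n : ℕ) (hn : 0 < n) :
    Ph n = ∏ p ∈ n.primeFactors, (p : ℝ) / ((p : ℝ) - 1) := by
  have : Ph n = (th n)⁻¹ := by simp [Ph, th, inv_div]
  rw [this, th_eq_prod n hn, ← Finset.prod_inv_distrib]
  refine Finset.prod_congr rfl fun p hp => ?_
  have hp2 : (2 : ℝ) ≤ p := by exact_mod_cast (Nat.prime_of_mem_primeFactors hp).two_le
  have : (p : ℝ) ≠ 0 := by linarith
  rw [one_sub_div this, inv_div]

theorem Ph_mul_le (a b : ℕ) (ha : 0 < a) (hb : 0 < b) : Ph (a * b) ≤ Ph a * Ph b := by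
  unfold Ph
  have h1 : (0 : ℝ) < a.totient := by exact_mod_cast Nat.totient_pos.2 ha
  have h2 : (0 : ℝ) < b.totient := by exact_mod_cast Nat.totient_pos.2 hb
  rw [div_mul_div_comm, Nat.cast_mul]
  exact div_le_div_of_nonneg_left (by positivity) (by positivity)
    (by exact_mod_cast Nat.totient_super_multiplicative a b)

theorem Ph_nonneg (n : ℕ) : 0 ≤ Ph n := by unfold Ph; positivity

theorem th_nonneg (n : ℕ) : 0 ≤ th n := by unfold th; positivity

theorem rhoN_nonneg (N b : ℕ) : 0 ≤ rhoN N b := by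
  unfold rhoN
  have := Ph_nonneg b
  have := th_nonneg N
  positivity

theorem prod_ratio_le_card (s : Finset ℕ) (hs : ∀ p ∈ s, 2 ≤ p) :
    ∏ p ∈ s, (p : ℝ) / ((p : ℝ) - 1) ≤ (s.card : ℝ) + 1 := by
  induction s using Finset.induction_on_max with
  | empty => simp
  | insert a s hlt ih =>
    have hna : a ∉ s := fun h => lt_irrefl a (hlt a h)
    have hcard : s.card + 2 ≤ a := by
      have h1 : s ⊆ Finset.Ico 2 a := fun p hp =>
        Finset.mem_Ico.2 ⟨hs p (Finset.mem_insert_of_mem hp), hlt p hp⟩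
      have h2 := Finset.card_le_card h1
      rw [Nat.card_Ico] at h2
      have := hs a (Finset.mem_insert_self a s)
      omega
    have hcard' : (s.card : ℝ) + 2 ≤ a := by exact_mod_cast hcard
    have ha1 : (0 : ℝ) < (a : ℝ) - 1 := by
      have : (0 : ℝ) ≤ s.card := by positivity
      linarith
    rw [Finset.prod_insert hna, Finset.card_insert_of_notMem hna]
    push_cast
    calc (a : ℝ) / ((a : ℝ) - 1) * ∏ p ∈ s, (p : ℝ) / ((p : ℝ) - 1)
        ≤ (a : ℝ) / ((a : ℝ) - 1) * ((s.card : ℝ) + 1) :=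
          mul_le_mul_of_nonneg_left (ih fun p hp => hs p (Finset.mem_insert_of_mem hp))
            (div_nonneg (Nat.cast_nonneg a) ha1.le)
      _ ≤ _ := by
          rw [div_mul_eq_mul_div, div_le_iff₀ ha1]
          nlinarith

theorem Ph_le_omega (n : ℕ) (hn : 0 < n) : Ph n ≤ (n.primeFactors.card : ℝ) + 1 := by
  rw [Ph_eq_prod n hn]
  exact prod_ratio_le_card _ fun p hp => (Nat.prime_of_mem_primeFactors hp).two_le

theorem Ph_le_card_divisors (n : ℕ) (hn : 0 < n) : Ph n ≤ (n.divisors.card : ℝ) := by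
  refine (Ph_le_omega n hn).trans ?_
  have h := (Nat.lt_two_pow_self (n := n.primeFactors.card)).trans_le
    (two_pow_omega_le_divisors n hn)
  exact_mod_cast h

theorem Ph_pow_le_rpow (k : ℕ) (θ : ℝ) (hθ : 0 < θ) :
    ∃ C : ℝ, ∀ n : ℕ, 0 < n → Ph n ^ k ≤ C * (n : ℝ) ^ θ := by
  obtain ⟨C, hC⟩ := card_divisors_le (θ / (k + 1)) (by positivity)
  have hC0 : 0 ≤ C := by
    have := hC 1 one_pos
    simp at this
    linarith
  refine ⟨C ^ k, fun n hn => ?_⟩
  calc Ph n ^ k ≤ (C * (n : ℝ) ^ (θ / (k + 1))) ^ k :=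
        pow_le_pow_left₀ (Ph_nonneg n) ((Ph_le_card_divisors n hn).trans (hC n hn)) k
    _ = C ^ k * (n : ℝ) ^ (θ / (k + 1) * k) := by
        rw [mul_pow, ← Real.rpow_natCast ((n : ℝ) ^ _), ← Real.rpow_mul (by positivity)]
    _ ≤ _ := by
        refine mul_le_mul_of_nonneg_left (Real.rpow_le_rpow_of_exponent_le
          (by exact_mod_cast hn) ?_) (by positivity)
        rw [div_mul_eq_mul_div, div_le_iff₀ (by positivity)]
        nlinarith

/-- `∑ n^{-3/2}`. -/
noncomputable def sumThreeHalf : ℝ := ∑' n : ℕ, 1 / (n : ℝ) ^ (3 / 2 : ℝ)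

theorem sumThreeHalf_nonneg : 0 ≤ sumThreeHalf := tsum_nonneg fun n => by positivity

theorem sum_threeHalf_le (s : Finset ℕ) : ∑ p ∈ s, 1 / (p : ℝ) ^ (3 / 2 : ℝ) ≤ sumThreeHalf :=
  (Real.summable_one_div_nat_rpow.2 (by norm_num)).sum_le_tsum s fun n _ => by positivity

theorem inv_pred_le (p : ℕ) (hp : 2 ≤ p) :
    1 / ((p : ℝ) - 1) ≤ 1 / (p : ℝ) + 2 * (1 / (p : ℝ) ^ (3 / 2 : ℝ)) := by
  have hp2 : (2 : ℝ) ≤ p := by exact_mod_cast hp
  have h0 : (0 : ℝ) < p := by linarith
  have h1 : (0 : ℝ) < (p : ℝ) - 1 := by linarith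
  have e : 1 / ((p : ℝ) - 1) - 1 / (p : ℝ) = 1 / ((p : ℝ) * ((p : ℝ) - 1)) := by
    field_simp
    ring
  have h2 : (p : ℝ) ^ (3 / 2 : ℝ) ≤ (p : ℝ) ^ (2 : ℝ) :=
    Real.rpow_le_rpow_of_exponent_le (by linarith) (by norm_num)
  rw [Real.rpow_two] at h2
  have h3 : 1 / ((p : ℝ) * ((p : ℝ) - 1)) ≤ 2 * (1 / (p : ℝ) ^ (3 / 2 : ℝ)) := by
    rw [mul_one_div, div_le_div_iff₀ (by positivity) (by positivity)]
    nlinarith
  linarith

theorem prod_ratio_le_exp (s : Finset ℕ) (hs : ∀ p ∈ s, 2 ≤ p) :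
    ∏ p ∈ s, (p : ℝ) / ((p : ℝ) - 1)
      ≤ Real.exp ((∑ p ∈ s, 1 / (p : ℝ)) + 2 * sumThreeHalf) := by
  calc ∏ p ∈ s, (p : ℝ) / ((p : ℝ) - 1)
      ≤ ∏ p ∈ s, Real.exp (1 / (p : ℝ) + 2 * (1 / (p : ℝ) ^ (3 / 2 : ℝ))) := by
        refine Finset.prod_le_prod (fun p hp => ?_) (fun p hp => ?_)
        · have : (2 : ℝ) ≤ p := by exact_mod_cast hs p hp
          exact div_nonneg (by linarith) (by linarith)
        · have : (2 : ℝ) ≤ p := by exact_mod_cast hs p hp
          have h1 := inv_pred_le p (hs p hp)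
          have h2 := Real.add_one_le_exp (1 / (p : ℝ) + 2 * (1 / (p : ℝ) ^ (3 / 2 : ℝ)))
          have h3 : (p : ℝ) / ((p : ℝ) - 1) = 1 / ((p : ℝ) - 1) + 1 := by
            have : (p : ℝ) - 1 ≠ 0 := by linarith
            field_simp
            ring
          linarith
    _ ≤ _ := by
        rw [← Real.exp_sum, Finset.sum_add_distrib, ← Finset.mul_sum]
        refine Real.exp_le_exp.2 ?_
        linarith [sum_threeHalf_le s]

/-- Primes in a band `(z, z^k]` contribute a bounded product. -/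
theorem mertens_band (k : ℝ) (hk : 1 ≤ k) :
    ∃ C : ℝ, ∀ z : ℝ, 2 ≤ z → ∀ s : Finset ℕ,
      (∀ p ∈ s, p.Prime ∧ z < (p : ℝ) ∧ (p : ℝ) ≤ z ^ k) →
        ∏ p ∈ s, (p : ℝ) / ((p : ℝ) - 1) ≤ C := by
  obtain ⟨K, _, hM⟩ := P003.mertens_interval
  refine ⟨Real.exp (Real.log k + K + 2 * sumThreeHalf), fun z hz s hs => ?_⟩
  refine (prod_ratio_le_exp s fun p hp => (hs p hp).1.two_le).trans (Real.exp_le_exp.2 ?_)
  have hlz : 0 < Real.log z := Real.log_pos (by linarith)
  have h := (hM (Real.log z) (k * Real.log z) (Real.log_le_log two_pos hz)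
    (le_mul_of_one_le_left hlz.le hk)).1 s fun p hp => by
      obtain ⟨h1, h2, h3⟩ := hs p hp
      refine ⟨h1, Real.log_lt_log (by linarith) h2, ?_⟩
      rw [← Real.log_rpow (by linarith)]
      exact Real.log_le_log (by linarith) h3
  rw [mul_div_assoc, div_self hlz.ne', mul_one] at h
  linarith

/-- Primes up to `z` contribute `O(log z)`. -/
theorem mertens_upto :
    ∃ C : ℝ, ∀ z : ℝ, 2 ≤ z → ∀ s : Finset ℕ,
      (∀ p ∈ s, p.Prime ∧ (p : ℝ) ≤ z) →
        ∏ p ∈ s, (p : ℝ) / ((p : ℝ) - 1) ≤ C * Real.log z := by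
  obtain ⟨K, _, hM⟩ := P003.mertens_interval
  refine ⟨Real.exp (1 + K + 2 * sumThreeHalf) / Real.log 2, fun z hz s hs => ?_⟩
  refine (prod_ratio_le_exp s fun p hp => (hs p hp).1.two_le).trans ?_
  have hl2 : 0 < Real.log 2 := Real.log_pos one_lt_two
  have hlz : Real.log 2 ≤ Real.log z := Real.log_le_log two_pos hz
  have h := (hM (Real.log 2) (Real.log z) le_rfl hlz).1 (s.filter fun p => 2 < p) fun p hp => by
    obtain ⟨h1, h2⟩ := Finset.mem_filter.1 hp
    obtain ⟨h3, h4⟩ := hs p h1
    exact ⟨h3, Real.log_lt_log two_pos (by exact_mod_cast h2),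
      Real.log_le_log (by exact_mod_cast h3.pos) h4⟩
  have h2 : ∑ p ∈ s, 1 / (p : ℝ) ≤ 1 + (Real.log (Real.log z / Real.log 2) + K) := by
    rw [← Finset.sum_filter_add_sum_filter_not s (fun p => 2 < p)]
    have h5 : ∑ p ∈ s.filter (fun p => ¬ 2 < p), 1 / (p : ℝ) ≤ 1 := by
      calc _ ≤ ∑ p ∈ ({2} : Finset ℕ), 1 / (p : ℝ) := by
            refine Finset.sum_le_sum_of_subset_of_nonneg (fun p hp => ?_)
              (fun p _ _ => by positivity)
            obtain ⟨h1, h2⟩ := Finset.mem_filter.1 hp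
            have := (hs p h1).1.two_le
            exact Finset.mem_singleton.2 (by omega)
        _ ≤ 1 := by norm_num
    linarith
  calc _ ≤ Real.exp (1 + K + 2 * sumThreeHalf + Real.log (Real.log z / Real.log 2)) :=
        Real.exp_le_exp.2 (by linarith)
    _ = _ := by
        rw [Real.exp_add, Real.exp_log (div_pos (by linarith) hl2)]
        ring

theorem sum_prod_primeFactors_le (g : ℕ → ℝ) (hg : ∀ p, 0 ≤ g p) (n : ℕ) :
    ∑ a ∈ Finset.Icc 1 n, ∏ p ∈ a.primeFactors, (1 + g p)
      ≤ (n : ℝ) * Real.exp (∑ p ∈ (Finset.Icc 1 n).filter Nat.Prime, g p / p) := by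
  set P := (Finset.Icc 1 n).filter Nat.Prime
  have hexp : ∏ p ∈ P, (1 + g p / (p : ℝ)) ≤ Real.exp (∑ p ∈ P, g p / p) := by
    rw [Real.exp_sum]
    refine Finset.prod_le_prod (fun p _ => by have := hg p; positivity) (fun p _ => ?_)
    linarith [Real.add_one_le_exp (g p / p)]
  refine le_trans ?_ (mul_le_mul_of_nonneg_left hexp (Nat.cast_nonneg n))
  simp only [Finset.prod_one_add, Finset.mul_sum]
  have hsub : ∀ a ∈ Finset.Icc 1 n, a.primeFactors.powerset =
      P.powerset.filter (fun T => T ⊆ a.primeFactors) := by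
    intro a ha
    ext T
    simp only [Finset.mem_powerset, Finset.mem_filter]
    refine ⟨fun h => ⟨fun p hp => ?_, h⟩, fun h => h.2⟩
    have := Nat.le_of_mem_primeFactors (h hp)
    have := (Finset.mem_Icc.1 ha).2
    have := (Nat.prime_of_mem_primeFactors (h hp))
    simp only [P, Finset.mem_filter, Finset.mem_Icc]
    exact ⟨⟨this.one_le, by omega⟩, this⟩
  rw [Finset.sum_congr rfl (fun a ha => by rw [hsub a ha, Finset.sum_filter]), Finset.sum_comm]
  refine Finset.sum_le_sum fun T hT => ?_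
  rw [← Finset.sum_filter, Finset.sum_const, nsmul_eq_mul, Finset.prod_div_distrib]
  have hT' : ∀ p ∈ T, p.Prime := fun p hp =>
    (Finset.mem_filter.1 (Finset.mem_powerset.1 hT hp)).2
  have hcard : ((Finset.Icc 1 n).filter (fun a : ℕ => T ⊆ a.primeFactors)).card
      ≤ n / ∏ p ∈ T, p := by
    rw [← Nat.Ioc_filter_dvd_card_eq_div]
    refine Finset.card_le_card fun a ha => ?_
    obtain ⟨h1, h2⟩ := Finset.mem_filter.1 ha
    obtain ⟨h3, h4⟩ := Finset.mem_Icc.1 h1
    exact Finset.mem_filter.2 ⟨Finset.mem_Ioc.2 ⟨h3, h4⟩,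
      (Finset.prod_dvd_prod_of_subset _ _ _ h2).trans (Nat.prod_primeFactors_dvd a)⟩
  have hpos : (0 : ℝ) < ∏ p ∈ T, (p : ℝ) :=
    Finset.prod_pos fun p hp => by exact_mod_cast (hT' p hp).pos
  have hprod : 0 ≤ ∏ p ∈ T, g p := Finset.prod_nonneg fun p _ => hg p
  calc _ ≤ ((n : ℝ) / ∏ p ∈ T, (p : ℝ)) * ∏ p ∈ T, g p := by
        refine mul_le_mul_of_nonneg_right ?_ hprod
        refine le_trans (Nat.cast_le.2 hcard) (Nat.cast_div_le.trans ?_)
        push_cast
        exact le_rfl
    _ = _ := by ring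

/-- A function given by local data, summed over divisors. -/
theorem sum_divisors_prod (h : ℕ → ℕ → ℝ) (N : ℕ) (hN : 0 < N) :
    ∑ b ∈ N.divisors, ∏ p ∈ b.primeFactors, h p (b.factorization p)
      = ∏ p ∈ N.primeFactors, (1 + ∑ k ∈ Finset.Icc 1 (N.factorization p), h p k) := by
  let F : ArithmeticFunction ℝ :=
    ⟨fun b => if b = 0 then 0 else ∏ p ∈ b.primeFactors, h p (b.factorization p), by simp⟩
  have hF : ∀ b, b ≠ 0 → F b = ∏ p ∈ b.primeFactors, h p (b.factorization p) :=
    fun b hb => if_neg hb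
  have hmul : F.IsMultiplicative := by
    refine ArithmeticFunction.IsMultiplicative.iff_ne_zero.2 ⟨by simp [hF], fun {m n} hm hn hmn => ?_⟩
    rw [hF _ (mul_ne_zero hm hn), hF m hm, hF n hn, hmn.primeFactors_mul,
      Finset.prod_union hmn.disjoint_primeFactors]
    congr 1 <;> refine Finset.prod_congr rfl fun p hp => ?_
    · have hpn : p ∉ n.primeFactors := Finset.disjoint_left.1 hmn.disjoint_primeFactors hp
      have h0 : n.factorization p = 0 :=
        Finsupp.notMem_support_iff.1 (by rwa [Nat.support_factorization])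
      rw [Nat.factorization_mul hm hn, Finsupp.add_apply, h0, add_zero]
    · have hpn : p ∉ m.primeFactors := Finset.disjoint_right.1 hmn.disjoint_primeFactors hp
      have h0 : m.factorization p = 0 :=
        Finsupp.notMem_support_iff.1 (by rwa [Nat.support_factorization])
      rw [Nat.factorization_mul hm hn, Finsupp.add_apply, h0, zero_add]
  have hm2 := hmul.mul (ArithmeticFunction.isMultiplicative_zeta.natCast (R := ℝ))
  have := hm2.multiplicative_factorization _ hN.ne'
  rw [ArithmeticFunction.coe_mul_zeta_apply] at this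
  rw [Finset.sum_congr rfl (fun b hb => (hF b (Nat.pos_of_mem_divisors hb).ne').symm), this,
    Finsupp.prod, Nat.support_factorization]
  refine Finset.prod_congr rfl fun p hp => ?_
  have hpp := Nat.prime_of_mem_primeFactors hp
  rw [ArithmeticFunction.coe_mul_zeta_apply, Nat.sum_divisors_prime_pow hpp,
    Finset.range_eq_Ico, Finset.sum_eq_sum_Ico_succ_bot (Nat.succ_pos _), pow_zero,
    hmul.map_one]
  congr 1
  refine Finset.sum_congr (by ext k; simp) fun k hk => ?_
  have hk1 : k ≠ 0 := by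
    have := (Finset.mem_Icc.1 hk).1
    omega
  rw [hF _ (pow_ne_zero _ hpp.ne_zero), Nat.primeFactors_prime_pow hk1 hpp, Finset.prod_singleton,
    hpp.factorization_pow, Finsupp.single_eq_same]

/-- The exact Euler product of a weighted `ρ_N` sum. -/
theorem rho_sum_eq (G : ℕ → ℕ → ℝ) (N : ℕ) (hN : 0 < N) :
    ∑ b ∈ N.divisors, rhoN N b * ∏ p ∈ b.primeFactors, G p (b.factorization p)
      = ∏ p ∈ N.primeFactors,
          ((1 - 1 / (p : ℝ)) + ∑ k ∈ Finset.Icc 1 (N.factorization p), G p k / (p : ℝ) ^ k) := by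
  have key : ∀ b ∈ N.divisors, rhoN N b * ∏ p ∈ b.primeFactors, G p (b.factorization p) =
      th N * ∏ p ∈ b.primeFactors,
        ((p : ℝ) / ((p : ℝ) - 1) * (G p (b.factorization p) / (p : ℝ) ^ b.factorization p)) := by
    intro b hb
    have hb0 := Nat.pos_of_mem_divisors hb
    have hbp : (b : ℝ) = ∏ p ∈ b.primeFactors, ((p : ℝ) ^ b.factorization p) := by
      conv_lhs => rw [← Nat.prod_factorization_pow_eq_self hb0.ne']
      rw [Finsupp.prod, Nat.support_factorization]
      push_cast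
      rfl
    rw [Finset.prod_mul_distrib, Finset.prod_div_distrib (g := fun p : ℕ => (p : ℝ) ^ b.factorization p),
      ← hbp, ← Ph_eq_prod b hb0, rhoN]
    ring
  rw [Finset.sum_congr rfl key, ← Finset.mul_sum,
    sum_divisors_prod (fun p k => (p : ℝ) / ((p : ℝ) - 1) * (G p k / (p : ℝ) ^ k)) N hN,
    th_eq_prod N hN, ← Finset.prod_mul_distrib]
  refine Finset.prod_congr rfl fun p hp => ?_
  rw [← Finset.mul_sum, mul_add, mul_one, ← mul_assoc]
  have hp2 : (2 : ℝ) ≤ p := by exact_mod_cast (Nat.prime_of_mem_primeFactors hp).two_le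
  have : (1 - 1 / (p : ℝ)) * ((p : ℝ) / ((p : ℝ) - 1)) = 1 := by
    have h1 : (p : ℝ) ≠ 0 := by linarith
    have h2 : (p : ℝ) - 1 ≠ 0 := by linarith
    field_simp
  rw [this, one_mul]

theorem geom_Icc_le (x : ℝ) (hx0 : 0 ≤ x) (hx1 : x < 1) (j e : ℕ) :
    ∑ k ∈ Finset.Icc j e, x ^ k ≤ x ^ j / (1 - x) := by
  rw [← Finset.Ico_add_one_right_eq_Icc]
  exact geom_sum_Ico_le_of_lt_one hx0 hx1

theorem rho_prod_le :
    ∃ C : ℝ, ∀ (g : ℕ → ℝ) (N : ℕ), (∀ p, 0 ≤ g p) → 0 < N →
      ∑ b ∈ N.divisors, rhoN N b * ∏ p ∈ b.primeFactors, (1 + g p)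
        ≤ C * Real.exp (4 * ∑ p ∈ N.primeFactors, g p / p) := by
  refine ⟨Real.exp (2 * sumThreeHalf), fun g N hg hN => ?_⟩
  rw [rho_sum_eq (fun p _ => 1 + g p) N hN]
  have key : ∀ p ∈ N.primeFactors,
      (1 - 1 / (p : ℝ)) + ∑ k ∈ Finset.Icc 1 (N.factorization p), (1 + g p) / (p : ℝ) ^ k
        ≤ Real.exp (2 * (1 / (p : ℝ) ^ (3 / 2 : ℝ)) + 4 * (g p / p)) := by
    intro p hp
    have hp2 : (2 : ℝ) ≤ p := by exact_mod_cast (Nat.prime_of_mem_primeFactors hp).two_le
    have h0 : (0 : ℝ) < p := by linarith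
    have hg0 := hg p
    have h1 : ∑ k ∈ Finset.Icc 1 (N.factorization p), (1 + g p) / (p : ℝ) ^ k
        ≤ (1 + g p) * (1 / ((p : ℝ) - 1)) := by
      simp only [div_eq_mul_inv (1 + g p), ← inv_pow, ← Finset.mul_sum]
      refine mul_le_mul_of_nonneg_left ?_ (by linarith)
      refine (geom_Icc_le _ (by positivity) (inv_lt_one_of_one_lt₀ (by linarith)) 1 _).trans
        (le_of_eq ?_)
      have : (p : ℝ) - 1 ≠ 0 := by linarith
      field_simp
    have h2 := inv_pred_le p (Nat.prime_of_mem_primeFactors hp).two_le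
    have h3 : g p * (1 / ((p : ℝ) - 1)) ≤ 4 * (g p / p) := by
      rw [mul_one_div, mul_div_assoc', div_le_div_iff₀ (by linarith) h0]
      nlinarith
    have := Real.add_one_le_exp (2 * (1 / (p : ℝ) ^ (3 / 2 : ℝ)) + 4 * (g p / p))
    nlinarith
  calc _ ≤ ∏ p ∈ N.primeFactors, Real.exp (2 * (1 / (p : ℝ) ^ (3 / 2 : ℝ)) + 4 * (g p / p)) := by
        refine Finset.prod_le_prod (fun p hp => ?_) key
        have : (1 : ℝ) ≤ p := by exact_mod_cast (Nat.prime_of_mem_primeFactors hp).one_le
        have : 1 / (p : ℝ) ≤ 1 := by rw [div_le_one (by linarith)]; linarith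
        have : 0 ≤ ∑ k ∈ Finset.Icc 1 (N.factorization p), (1 + g p) / (p : ℝ) ^ k :=
          Finset.sum_nonneg fun k _ => by have := hg p; positivity
        linarith
    _ ≤ _ := by
        rw [← Real.exp_sum, Finset.sum_add_distrib, ← Finset.mul_sum, ← Finset.mul_sum,
          ← Real.exp_add]
        refine Real.exp_le_exp.2 ?_
        linarith [sum_threeHalf_le N.primeFactors]

theorem rho_dvd_le :
    ∃ C : ℝ, ∀ (N e : ℕ), 0 < N → 0 < e →
      ∑ b ∈ N.divisors.filter (fun b => e ∣ b), rhoN N b ≤ C * Ph e / e := by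
  obtain ⟨C, hC⟩ := rho_prod_le
  refine ⟨C, fun N e hN he => ?_⟩
  have h1 : ∑ c ∈ N.divisors, rhoN N c ≤ C := by
    simpa using hC 0 N (fun _ => le_rfl) hN
  calc ∑ b ∈ N.divisors.filter (fun b => e ∣ b), rhoN N b
      ≤ ∑ b ∈ N.divisors.filter (fun b => e ∣ b), Ph e / e * rhoN N (b / e) := by
        refine Finset.sum_le_sum fun b hb => ?_
        obtain ⟨hb1, c, rfl⟩ := Finset.mem_filter.1 hb
        have hc0 : 0 < c := Nat.pos_of_mul_pos_left (Nat.pos_of_mem_divisors hb1)
        rw [Nat.mul_div_cancel_left c he]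
        unfold rhoN
        push_cast
        calc th N * Ph (e * c) / ((e : ℝ) * c) ≤ th N * (Ph e * Ph c) / ((e : ℝ) * c) :=
              div_le_div_of_nonneg_right
                (mul_le_mul_of_nonneg_left (Ph_mul_le e c he hc0) (th_nonneg N)) (by positivity)
          _ = _ := by
              rw [div_mul_div_comm]
              ring
    _ = Ph e / e * ∑ c ∈ (N.divisors.filter (fun b => e ∣ b)).image (fun b => b / e),
          rhoN N c := by
        rw [Finset.sum_image, Finset.mul_sum]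
        intro x hx y hy hxy
        exact Nat.div_left_inj (Finset.mem_filter.1 hx).2 (Finset.mem_filter.1 hy).2 |>.1 hxy
    _ ≤ Ph e / e * ∑ c ∈ N.divisors, rhoN N c := by
        refine mul_le_mul_of_nonneg_left (Finset.sum_le_sum_of_subset_of_nonneg (fun c hc => ?_)
          (fun c _ _ => rhoN_nonneg N c)) (div_nonneg (Ph_nonneg e) (Nat.cast_nonneg e))
        obtain ⟨b, hb, rfl⟩ := Finset.mem_image.1 hc
        obtain ⟨hb1, hb2⟩ := Finset.mem_filter.1 hb
        exact Nat.mem_divisors.2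
          ⟨(Nat.div_dvd_of_dvd hb2).trans (Nat.dvd_of_mem_divisors hb1), hN.ne'⟩
    _ ≤ Ph e / e * C := mul_le_mul_of_nonneg_left h1 (div_nonneg (Ph_nonneg e) (Nat.cast_nonneg e))
    _ = _ := by ring

theorem rho_smooth_le :
    ∃ C c : ℝ, 0 < c ∧ ∀ (N : ℕ) (z X : ℝ), 0 < N → 2 ≤ z → 1 ≤ X →
      ∑ b ∈ N.divisors.filter
          (fun b : ℕ => X < (b : ℝ) ∧ ∀ p ∈ b.primeFactors, (p : ℝ) < z), rhoN N b
        ≤ C * Real.exp (-c * Real.log X / Real.log z) := by
  classical
  refine ⟨Real.exp (2 + 4 * sumThreeHalf), 1 / 6, by norm_num, fun N z X hN hz hX => ?_⟩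
  have hl2 := Real.log_two_gt_d9
  have hlz : Real.log 2 ≤ Real.log z := Real.log_le_log two_pos hz
  set σ : ℝ := 1 / (6 * Real.log z) with hσdef
  have hσ0 : 0 < σ := one_div_pos.2 (by linarith)
  have hσ : σ ≤ 1 / 4 := one_div_le_one_div_of_le (by norm_num) (by linarith)
  have hX0 : 0 < X := by linarith
  set G : ℕ → ℕ → ℝ := fun p k => if (p : ℝ) < z then ((p : ℝ) ^ k) ^ σ else 0 with hG
  have hGnn : ∀ p k, 0 ≤ G p k := fun p k => by
    simp only [hG]
    split_ifs <;> positivity
  have step1 : ∑ b ∈ N.divisors.filter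
          (fun b : ℕ => X < (b : ℝ) ∧ ∀ p ∈ b.primeFactors, (p : ℝ) < z), rhoN N b
      ≤ X ^ (-σ) * ∑ b ∈ N.divisors, rhoN N b * ∏ p ∈ b.primeFactors, G p (b.factorization p) := by
    rw [Finset.mul_sum, Finset.sum_filter]
    refine Finset.sum_le_sum fun b hb => ?_
    have hb0 := Nat.pos_of_mem_divisors hb
    split_ifs with h
    · have hp : ∏ p ∈ b.primeFactors, G p (b.factorization p) = (b : ℝ) ^ σ := by
        rw [Finset.prod_congr rfl (fun p hp => by simp only [hG, if_pos (h.2 p hp)]; rfl),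
          Real.finsetProd_rpow _ _ (fun p _ => by positivity)]
        congr 1
        conv_rhs => rw [← Nat.prod_factorization_pow_eq_self hb0.ne']
        rw [Finsupp.prod, Nat.support_factorization]
        push_cast
        rfl
      rw [hp, mul_left_comm]
      refine le_mul_of_one_le_right (rhoN_nonneg N b) ?_
      rw [Real.rpow_neg hX0.le, ← div_eq_inv_mul, one_le_div (by positivity)]
      exact Real.rpow_le_rpow hX0.le h.1.le hσ0.le
    · have := Finset.prod_nonneg (s := b.primeFactors) fun p _ => hGnn p (b.factorization p)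
      have := rhoN_nonneg N b
      positivity
  have key : ∀ p ∈ N.primeFactors,
      (1 - 1 / (p : ℝ)) + ∑ k ∈ Finset.Icc 1 (N.factorization p), G p k / (p : ℝ) ^ k
        ≤ Real.exp ((if (p : ℝ) < z then 2 * σ * (Real.log p / p) else 0)
            + 4 * (1 / (p : ℝ) ^ (3 / 2 : ℝ))) := by
    intro p hp
    have hp2 : (2 : ℝ) ≤ p := by exact_mod_cast (Nat.prime_of_mem_primeFactors hp).two_le
    have h0 : (0 : ℝ) < p := by linarith
    have hpp : 0 < 1 / (p : ℝ) ^ (3 / 2 : ℝ) := by positivity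
    refine le_trans ?_ (Real.add_one_le_exp _)
    simp only [hG]
    split_ifs with hpz
    · set x : ℝ := (p : ℝ) ^ (σ - 1) with hx
      have e : ∀ k : ℕ, ((p : ℝ) ^ k) ^ σ / (p : ℝ) ^ k = x ^ k := fun k => by
        rw [hx, ← Real.rpow_natCast, ← Real.rpow_natCast _ k, ← Real.rpow_mul h0.le,
          ← Real.rpow_sub h0, ← Real.rpow_mul h0.le]
        congr 1
        ring
      rw [Finset.sum_congr rfl (fun k _ => e k)]
      have hx0 : 0 ≤ x := by positivity
      have hx2 : x ^ 2 ≤ 1 / (p : ℝ) ^ (3 / 2 : ℝ) := by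
        rw [hx, one_div, ← Real.rpow_neg h0.le, ← Real.rpow_natCast _ 2, ← Real.rpow_mul h0.le]
        refine Real.rpow_le_rpow_of_exponent_le (by linarith) ?_
        push_cast
        linarith
      have hsmall : x ≤ 3 / 4 := by
        have h32 : 1 / (p : ℝ) ^ (3 / 2 : ℝ) ≤ 1 / 2 := by
          refine one_div_le_one_div_of_le two_pos ?_
          calc (2 : ℝ) ≤ p := hp2
            _ = (p : ℝ) ^ (1 : ℝ) := (Real.rpow_one _).symm
            _ ≤ _ := Real.rpow_le_rpow_of_exponent_le (by linarith) (by norm_num)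
        nlinarith
      have hs : ∑ k ∈ Finset.Icc 1 (N.factorization p), x ^ k ≤ x + 4 * x ^ 2 := by
        refine (geom_Icc_le x hx0 (by linarith) 1 _).trans ?_
        rw [pow_one, div_le_iff₀ (by linarith)]
        nlinarith
      have hu : σ * Real.log p ≤ 1 / 6 := by
        have h1 : Real.log p ≤ Real.log z := Real.log_le_log h0 hpz.le
        calc σ * Real.log p ≤ σ * Real.log z := mul_le_mul_of_nonneg_left h1 hσ0.le
          _ = 1 / 6 := by
              have : Real.log z ≠ 0 := by linarith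
              rw [hσdef]
              field_simp
      have hu0 : 0 ≤ σ * Real.log p := mul_nonneg hσ0.le (Real.log_nonneg (by linarith))
      have hpσ : (p : ℝ) ^ σ ≤ 1 + 2 * (σ * Real.log p) := by
        rw [Real.rpow_def_of_pos h0, mul_comm]
        have := Real.exp_bound_div_one_sub_of_interval hu0 (by linarith)
        refine this.trans ?_
        rw [div_le_iff₀ (by linarith)]
        nlinarith
      have hxle : x ≤ 1 / (p : ℝ) + 2 * σ * (Real.log p / p) := by
        rw [hx, Real.rpow_sub h0, Real.rpow_one]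
        calc (p : ℝ) ^ σ / p ≤ (1 + 2 * (σ * Real.log p)) / p :=
              div_le_div_of_nonneg_right hpσ h0.le
          _ = _ := by ring
      linarith
    · have : ∑ k ∈ Finset.Icc 1 (N.factorization p), (0 : ℝ) / (p : ℝ) ^ k = 0 := by simp
      rw [this]
      have : 0 ≤ 1 / (p : ℝ) := by positivity
      linarith
  have step2 : ∑ b ∈ N.divisors, rhoN N b * ∏ p ∈ b.primeFactors, G p (b.factorization p)
      ≤ Real.exp (2 + 4 * sumThreeHalf) := by
    rw [rho_sum_eq G N hN]
    refine (Finset.prod_le_prod (fun p hp => ?_) key).trans ?_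
    · have : (1 : ℝ) ≤ p := by exact_mod_cast (Nat.prime_of_mem_primeFactors hp).one_le
      have : 1 / (p : ℝ) ≤ 1 := by rw [div_le_one (by linarith)]; linarith
      have : 0 ≤ ∑ k ∈ Finset.Icc 1 (N.factorization p), G p k / (p : ℝ) ^ k :=
        Finset.sum_nonneg fun k _ => by have := hGnn p k; positivity
      linarith
    · rw [← Real.exp_sum, Finset.sum_add_distrib, ← Finset.sum_filter, ← Finset.mul_sum,
        ← Finset.mul_sum]
      refine Real.exp_le_exp.2 ?_
      have h1 := P003.sum_log_div_le (N.primeFactors.filter fun p : ℕ => (p : ℝ) < z)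
        (b := Real.log z) (by linarith) fun p hp => by
          obtain ⟨h1, h2⟩ := Finset.mem_filter.1 hp
          exact ⟨Nat.prime_of_mem_primeFactors h1, Real.log_le_log
            (by exact_mod_cast (Nat.prime_of_mem_primeFactors h1).pos) h2.le⟩
      have h2 := sum_threeHalf_le N.primeFactors
      have h3 : 2 * σ * (Real.log z + 2) ≤ 2 := by
        have : 2 * σ * Real.log z = 1 / 3 := by
          have : Real.log z ≠ 0 := by linarith
          rw [hσdef]
          field_simp
          ring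
        nlinarith
      have := mul_le_mul_of_nonneg_left h1 (show 0 ≤ 2 * σ by linarith)
      linarith
  refine step1.trans ?_
  calc X ^ (-σ) * _ ≤ X ^ (-σ) * Real.exp (2 + 4 * sumThreeHalf) :=
        mul_le_mul_of_nonneg_left step2 (by positivity)
    _ = _ := by
        rw [Real.rpow_def_of_pos hX0, hσdef]
        ring_nf

/-- A proper prime power above `X` divides a `ρ_N`-random divisor with small probability. -/
theorem rho_prime_pow_le :
    ∃ C : ℝ, ∀ (N : ℕ) (X : ℝ), 0 < N → 1 ≤ X →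
      ∑ b ∈ N.divisors.filter
          (fun b : ℕ => ∃ p ∈ b.primeFactors, 2 ≤ b.factorization p ∧
            X < ((p ^ b.factorization p : ℕ) : ℝ)), rhoN N b
        ≤ C * X ^ (-(1 / 3 : ℝ)) := by
  classical
  obtain ⟨C, hC⟩ := rho_dvd_le
  have hC0 : 0 ≤ C := by
    have := hC 1 1 one_pos one_pos
    simp [rhoN, th, Ph] at this
    linarith
  have hsummable := Real.summable_one_div_nat_rpow.2 (show (1 : ℝ) < 4 / 3 by norm_num)
  set T : ℝ := ∑' n : ℕ, 1 / (n : ℝ) ^ (4 / 3 : ℝ)
  refine ⟨6 * C * T, fun N X hN hX => ?_⟩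
  have hX0 : 0 < X := by linarith
  set K : ℕ → Finset ℕ := fun p =>
    (Finset.Icc 2 (N.factorization p)).filter (fun k => X < ((p : ℝ) ^ k))
  calc _ ≤ ∑ b ∈ N.divisors, rhoN N b *
          ∑ p ∈ N.primeFactors, ∑ k ∈ K p, (if p ^ k ∣ b then (1 : ℝ) else 0) := by
        rw [Finset.sum_filter]
        refine Finset.sum_le_sum fun b hb => ?_
        have hb0 := Nat.pos_of_mem_divisors hb
        have hnn : ∀ p ∈ N.primeFactors, 0 ≤ ∑ k ∈ K p, (if p ^ k ∣ b then (1 : ℝ) else 0) :=
          fun p _ => Finset.sum_nonneg fun k _ => by split_ifs <;> norm_num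
        split_ifs with h
        · obtain ⟨p, hp, he, hbig⟩ := h
          refine le_mul_of_one_le_right (rhoN_nonneg N b) ?_
          have hpN : p ∈ N.primeFactors :=
            Nat.primeFactors_mono (Nat.dvd_of_mem_divisors hb) hN.ne' hp
          refine le_trans ?_ (Finset.single_le_sum hnn hpN)
          have hk : b.factorization p ∈ K p := by
            refine Finset.mem_filter.2 ⟨Finset.mem_Icc.2 ⟨he, ?_⟩, by simpa using hbig⟩
            exact (Nat.factorization_le_iff_dvd hb0.ne' hN.ne').2 (Nat.dvd_of_mem_divisors hb) p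
          refine le_trans ?_ (Finset.single_le_sum (f := fun k => if p ^ k ∣ b then (1 : ℝ) else 0)
            (fun k _ => by split_ifs <;> norm_num) hk)
          simp [Nat.ordProj_dvd]
        · exact mul_nonneg (rhoN_nonneg N b) (Finset.sum_nonneg hnn)
    _ = ∑ p ∈ N.primeFactors, ∑ k ∈ K p, ∑ b ∈ N.divisors.filter (fun b => p ^ k ∣ b), rhoN N b := by
        simp only [Finset.mul_sum, mul_ite, mul_one, mul_zero]
        rw [Finset.sum_comm]
        refine Finset.sum_congr rfl fun p _ => ?_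
        rw [Finset.sum_comm]
        simp only [Finset.sum_filter]
    _ ≤ ∑ p ∈ N.primeFactors, 6 * C * X ^ (-(1 / 3 : ℝ)) * (1 / (p : ℝ) ^ (4 / 3 : ℝ)) := by
        refine Finset.sum_le_sum fun p hp => ?_
        have hpp := Nat.prime_of_mem_primeFactors hp
        have hp2 : (2 : ℝ) ≤ p := by exact_mod_cast hpp.two_le
        have h0 : (0 : ℝ) < p := by linarith
        set y : ℝ := (p : ℝ) ^ (-(2 / 3) : ℝ) with hy
        have hy0 : 0 ≤ y := by positivity
        have hy1 : y ≤ 2 / 3 := by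
          have h1 : y ≤ (2 : ℝ) ^ (-(2 / 3) : ℝ) :=
            Real.rpow_le_rpow_of_nonpos two_pos hp2 (by norm_num)
          have h2 : ((2 : ℝ) ^ (-(2 / 3) : ℝ)) ^ 3 = 1 / 4 := by
            rw [← Real.rpow_natCast _ 3, ← Real.rpow_mul two_pos.le]
            norm_num
          nlinarith [sq_nonneg ((2 : ℝ) ^ (-(2 / 3) : ℝ) - 2 / 3)]
        calc ∑ k ∈ K p, ∑ b ∈ N.divisors.filter (fun b => p ^ k ∣ b), rhoN N b
            ≤ ∑ k ∈ K p, 2 * C * X ^ (-(1 / 3 : ℝ)) * y ^ k := by
              refine Finset.sum_le_sum fun k hk => ?_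
              obtain ⟨hk1, hk2⟩ := Finset.mem_filter.1 hk
              have hk0 : k ≠ 0 := by
                have := (Finset.mem_Icc.1 hk1).1
                omega
              refine (hC N (p ^ k) hN (pow_pos hpp.pos k)).trans ?_
              have hPh : Ph (p ^ k) ≤ 2 := by
                rw [Ph_eq_prod _ (pow_pos hpp.pos k), Nat.primeFactors_prime_pow hk0 hpp,
                  Finset.prod_singleton, div_le_iff₀ (by linarith)]
                linarith
              push_cast
              set P : ℝ := (p : ℝ) ^ k with hP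
              have hP0 : 0 < P := by positivity
              have e : y ^ k = P ^ (-(2 / 3) : ℝ) := by
                rw [hy, hP, ← Real.rpow_natCast, ← Real.rpow_mul h0.le, ← Real.rpow_natCast _ k,
                  ← Real.rpow_mul h0.le]
                congr 1
                ring
              rw [e]
              calc C * Ph (p ^ k) / P ≤ C * 2 / P :=
                    div_le_div_of_nonneg_right (mul_le_mul_of_nonneg_left hPh hC0) hP0.le
                _ = 2 * C * (P ^ (-(1 / 3) : ℝ) * P ^ (-(2 / 3) : ℝ)) := by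
                    rw [← Real.rpow_add hP0]
                    norm_num [Real.rpow_neg_one]
                    ring
                _ ≤ _ := by
                    rw [mul_assoc (2 * C) (X ^ _)]
                    refine mul_le_mul_of_nonneg_left (mul_le_mul_of_nonneg_right
                      (Real.rpow_le_rpow_of_nonpos hX0 hk2.le (by norm_num)) (by positivity))
                      (by positivity)
          _ ≤ 2 * C * X ^ (-(1 / 3 : ℝ)) * (3 * y ^ 2) := by
              rw [← Finset.mul_sum]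
              refine mul_le_mul_of_nonneg_left ?_ (by positivity)
              refine (Finset.sum_le_sum_of_subset_of_nonneg (Finset.filter_subset _ _)
                (fun k _ _ => by positivity)).trans ?_
              refine (geom_Icc_le y hy0 (by linarith) 2 _).trans ?_
              rw [div_le_iff₀ (by linarith)]
              nlinarith [sq_nonneg y]
          _ = _ := by
              rw [hy, ← Real.rpow_natCast _ 2, ← Real.rpow_mul h0.le, one_div ((p : ℝ) ^ _),
                ← Real.rpow_neg h0.le]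
              norm_num
              ring
    _ ≤ _ := by
        rw [← Finset.mul_sum]
        calc 6 * C * X ^ (-(1 / 3 : ℝ)) * _ ≤ 6 * C * X ^ (-(1 / 3 : ℝ)) * T :=
              mul_le_mul_of_nonneg_left
                (hsummable.sum_le_tsum _ fun n _ => by positivity) (by positivity)
          _ = _ := by ring

end Vale.Agent.P028
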