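import Vale.Agent.P028.Basic

/-! P028 module SIEVE: Selberg upper bound for numbers free of small primes in a progression.
The `Λ²` identities are those of `Mathlib/NumberTheory/SelbergSieve.lean`; the weights chosen here
are the optimal ones at level `z`. -/

namespace Vale.Agent.P028

open Finset ArithmeticFunction BoundingSieve

/-- The sifting primes. -/
def sievePrimes (B z : ℕ) : Finset ℕ :=
  (Finset.range z).filter (fun p => p.Prime ∧ ¬ p ∣ B)

lemma sievePrimes_prime {B z p : ℕ} (hp : p ∈ sievePrimes B z) : p.Prime :=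
  (Finset.mem_filter.1 hp).2.1

/-- The sieve data with density `1/d`. -/
noncomputable def apSieve (B z : ℕ) : BoundingSieve where
  support := ∅
  prodPrimes := ∏ p ∈ sievePrimes B z, p
  prodPrimes_squarefree := by
    refine Finset.squarefree_prod_of_pairwise_isCoprime ?_ fun p hp => (sievePrimes_prime hp).squarefree
    intro p hp q hq hpq
    exact Nat.coprime_iff_isRelPrime.1 ((Nat.coprime_primes (sievePrimes_prime hp) (sievePrimes_prime hq)).2 hpq)
  weights := fun _ => 1
  weights_nonneg := fun _ => zero_le_one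
  totalMass := 1
  nu := ⟨fun d => (d : ℝ)⁻¹, by simp⟩
  nu_mult := ⟨by simp, fun {m n} _ => by simp [mul_comm]⟩
  nu_pos_of_prime := fun p hp _ => by
    have : (0 : ℝ) < p := by exact_mod_cast hp.pos
    simpa using this
  nu_lt_one_of_prime := fun p hp _ => by
    have : (1 : ℝ) < p := by exact_mod_cast hp.one_lt
    simpa using inv_lt_one_of_one_lt₀ this

lemma apSieve_nu (B z d : ℕ) : (apSieve B z).nu d = (d : ℝ)⁻¹ := rfl

lemma apSieve_primeFactors (B z : ℕ) :
    (apSieve B z).prodPrimes.primeFactors = sievePrimes B z :=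
  Nat.primeFactors_prod fun _ hp => sievePrimes_prime hp

lemma apSieve_coprime (B z : ℕ) : Nat.Coprime (apSieve B z).prodPrimes B :=
  Nat.Coprime.prod_left fun _ hp =>
    (Nat.Prime.coprime_iff_not_dvd (sievePrimes_prime hp)).2 (Finset.mem_filter.1 hp).2.2

/-- The normalising sum. -/
noncomputable def sieveG (B z : ℕ) : ℝ :=
  ∑ l ∈ (apSieve B z).prodPrimes.divisors.filter (fun l => l ≤ z), selbergTerms (s := apSieve B z) l

/-- The diagonal coordinates of the weights. -/
noncomputable def sieveY (B z l : ℕ) : ℝ :=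
  if l ≤ z then (moebius l : ℝ) * selbergTerms (s := apSieve B z) l / sieveG B z else 0

/-- The weights. -/
noncomputable def sieveW (B z d : ℕ) : ℝ :=
  (d : ℝ) * ∑ m ∈ (apSieve B z).prodPrimes.divisors.filter (fun m => d ∣ m),
    (moebius (m / d) : ℝ) * sieveY B z m

lemma one_le_sieveG (B z : ℕ) (hz : 1 ≤ z) : 1 ≤ sieveG B z := by
  unfold sieveG
  refine le_trans (le_of_eq ?_) (Finset.single_le_sum (fun l hl => ?_) (?_ : 1 ∈ _))
  · simp [selbergTerms_apply, apSieve_nu]
  · exact (selbergTerms_pos (Nat.dvd_of_mem_divisors (Finset.mem_filter.1 hl).1)).le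
  · exact Finset.mem_filter.2 ⟨Nat.one_mem_divisors.2 prodPrimes_ne_zero, hz⟩

lemma sum_moebius_div (n : ℕ) :
    ∑ e ∈ n.divisors, (moebius (n / e) : ℝ) = if n = 1 then 1 else 0 := by
  rw [Nat.sum_div_divisors n (fun e => (moebius e : ℝ))]
  have h := congrArg (fun f : ArithmeticFunction ℤ => f n) moebius_mul_coe_zeta
  simp only [coe_mul_zeta_apply, one_apply] at h
  rw [← Int.cast_sum, h]
  split <;> simp

lemma sieveW_invert (B z l : ℕ) (hl : l ∣ (apSieve B z).prodPrimes) :
    (∑ d ∈ (apSieve B z).prodPrimes.divisors,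
      if l ∣ d then (apSieve B z).nu d * sieveW B z d else 0) = sieveY B z l := by
  set P := (apSieve B z).prodPrimes with hP
  have hP0 : P ≠ 0 := prodPrimes_ne_zero
  have h1 : ∀ d ∈ P.divisors, (apSieve B z).nu d * sieveW B z d
      = ∑ m ∈ P.divisors.filter (fun m => d ∣ m), (moebius (m / d) : ℝ) * sieveY B z m := by
    intro d hd
    have : (d : ℝ) ≠ 0 := by exact_mod_cast (Nat.pos_of_mem_divisors hd).ne'
    rw [apSieve_nu, sieveW, inv_mul_cancel_left₀ this]
  calc (∑ d ∈ P.divisors, if l ∣ d then (apSieve B z).nu d * sieveW B z d else 0)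
      = ∑ d ∈ P.divisors.filter (fun d => l ∣ d), ∑ m ∈ P.divisors.filter (fun m => d ∣ m),
          (moebius (m / d) : ℝ) * sieveY B z m := by
        rw [Finset.sum_filter]
        exact Finset.sum_congr rfl fun d hd => by split <;> simp [h1 d hd]
    _ = ∑ m ∈ P.divisors, sieveY B z m *
          ∑ d ∈ P.divisors.filter (fun d => l ∣ d ∧ d ∣ m), (moebius (m / d) : ℝ) := by
        rw [Finset.sum_comm' (t' := P.divisors)
          (s' := fun m => P.divisors.filter (fun d => l ∣ d ∧ d ∣ m))]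
        · exact Finset.sum_congr rfl fun m _ => by
            rw [Finset.mul_sum]; exact Finset.sum_congr rfl fun d _ => by ring
        · intro d m
          simp only [Finset.mem_filter]
          tauto
    _ = ∑ m ∈ P.divisors, sieveY B z m * (if m = l then 1 else 0) := by
        refine Finset.sum_congr rfl fun m hm => congrArg _ ?_
        have hm0 : 0 < m := Nat.pos_of_mem_divisors hm
        have hmP : m ∣ P := Nat.dvd_of_mem_divisors hm
        by_cases hlm : l ∣ m
        · obtain ⟨c, rfl⟩ := hlm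
          have hl0 : 0 < l := Nat.pos_of_ne_zero fun h => by simp [h] at hm0
          have hc0 : 0 < c := Nat.pos_of_ne_zero fun h => by simp [h] at hm0
          have himg : P.divisors.filter (fun d => l ∣ d ∧ d ∣ l * c)
              = c.divisors.image (fun e => l * e) := by
            ext d
            simp only [Finset.mem_filter, Nat.mem_divisors, Finset.mem_image]
            constructor
            · rintro ⟨-, ⟨e, rfl⟩, hd⟩
              exact ⟨e, ⟨(Nat.mul_dvd_mul_iff_left hl0).1 hd, hc0.ne'⟩, rfl⟩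
            · rintro ⟨e, ⟨he, -⟩, rfl⟩
              exact ⟨⟨(Nat.mul_dvd_mul_left l he).trans hmP, hP0⟩, Dvd.intro _ rfl,
                Nat.mul_dvd_mul_left l he⟩
          rw [himg, Finset.sum_image fun a _ b _ h => Nat.eq_of_mul_eq_mul_left hl0 h]
          rw [Finset.sum_congr rfl fun e _ => by rw [Nat.mul_div_mul_left _ _ hl0],
            sum_moebius_div c]
          exact if_congr ⟨fun h => by rw [h, mul_one],
            fun h => by nlinarith⟩ rfl rfl
        · rw [if_neg (fun h : m = l => hlm (dvd_of_eq h.symm)), Finset.filter_false_of_mem]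
          · rfl
          · rintro d - ⟨h1, h2⟩
            exact hlm (h1.trans h2)
    _ = sieveY B z l := by
        simp only [mul_ite, mul_one, mul_zero, Finset.sum_ite_eq', Nat.mem_divisors]
        rw [if_pos ⟨hl, hP0⟩]

lemma moebius_sq_sf {l : ℕ} (h : Squarefree l) : (moebius l : ℝ) ^ 2 = 1 := by
  rw [moebius_apply_of_squarefree h]
  push_cast
  rw [← pow_mul, mul_comm, pow_mul]
  norm_num

lemma sieveW_one (B z : ℕ) (hz : 1 ≤ z) : sieveW B z 1 = 1 := by
  have hG : (0 : ℝ) < sieveG B z := lt_of_lt_of_le one_pos (one_le_sieveG B z hz)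
  rw [sieveW, Nat.cast_one, one_mul]
  simp only [one_dvd, Finset.filter_true, Nat.div_one, sieveY, mul_ite, mul_zero]
  rw [← Finset.sum_filter]
  rw [Finset.sum_congr rfl fun m hm => by
    rw [mul_div_assoc', ← mul_assoc, ← sq, moebius_sq_sf (squarefree_of_mem_divisors_prodPrimes
      (Finset.mem_filter.1 hm).1), one_mul]]
  rw [← Finset.sum_div]
  exact div_self hG.ne'

lemma abs_sieveW (B z d : ℕ) (hz : 1 ≤ z) :
    |sieveW B z d| ≤ if d ≤ z then (z : ℝ) else 0 := by
  have hG : (0 : ℝ) < sieveG B z := lt_of_lt_of_le one_pos (one_le_sieveG B z hz)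
  rcases le_or_gt d z with hd | hd
  · rw [if_pos hd, sieveW, abs_mul, Nat.abs_cast]
    calc (d : ℝ) * |∑ m ∈ (apSieve B z).prodPrimes.divisors.filter (fun m => d ∣ m),
          (moebius (m / d) : ℝ) * sieveY B z m|
        ≤ d * ∑ m ∈ (apSieve B z).prodPrimes.divisors, |sieveY B z m| := by
          refine mul_le_mul_of_nonneg_left ((Finset.abs_sum_le_sum_abs _ _).trans ?_) (Nat.cast_nonneg _)
          refine le_trans (Finset.sum_le_sum fun m _ => ?_)
            (Finset.sum_le_sum_of_subset_of_nonneg (Finset.filter_subset _ _) fun _ _ _ => abs_nonneg _)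
          rw [abs_mul]
          refine mul_le_of_le_one_left (abs_nonneg _) ?_
          exact_mod_cast abs_moebius_le_one
      _ = d * 1 := by
          congr 1
          rw [show (∑ m ∈ (apSieve B z).prodPrimes.divisors, |sieveY B z m|)
              = ∑ m ∈ (apSieve B z).prodPrimes.divisors,
                (if m ≤ z then selbergTerms (s := apSieve B z) m / sieveG B z else 0) from
            Finset.sum_congr rfl fun m hm => by
              unfold sieveY
              split
              · rw [abs_div, abs_mul, abs_of_pos hG,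
                  abs_of_pos (selbergTerms_pos (Nat.dvd_of_mem_divisors hm))]
                have := moebius_sq_sf (squarefree_of_mem_divisors_prodPrimes hm)
                rw [← Real.sqrt_sq_eq_abs, this, Real.sqrt_one, one_mul]
              · simp]
          rw [← Finset.sum_filter, ← Finset.sum_div]
          exact div_self hG.ne'
      _ ≤ z := by rw [mul_one]; exact_mod_cast hd
  · rw [if_neg (not_le.2 hd), sieveW, Finset.sum_eq_zero, mul_zero, abs_zero]
    intro m hm
    obtain ⟨hm, hdm⟩ := Finset.mem_filter.1 hm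
    have : d ≤ m := Nat.le_of_dvd (Nat.pos_of_mem_divisors hm) hdm
    rw [sieveY, if_neg (by omega), mul_zero]

lemma mainSum_sieveW (B z : ℕ) (hz : 1 ≤ z) :
    ∑ d1 ∈ (apSieve B z).prodPrimes.divisors, ∑ d2 ∈ (apSieve B z).prodPrimes.divisors,
      sieveW B z d1 * sieveW B z d2 / (Nat.lcm d1 d2 : ℝ) = 1 / sieveG B z := by
  have hG : (0 : ℝ) < sieveG B z := lt_of_lt_of_le one_pos (one_le_sieveG B z hz)
  have h1 : ∀ d1 d2 : ℕ, 0 < d1 → 0 < d2 → sieveW B z d1 * sieveW B z d2 / (Nat.lcm d1 d2 : ℝ) =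
      (apSieve B z).nu d1 * sieveW B z d1 * (apSieve B z).nu d2 * sieveW B z d2 *
        ((apSieve B z).nu (d1.gcd d2))⁻¹ := by
    intro d1 d2 hd1 hd2
    have e : ((Nat.gcd d1 d2 : ℕ) : ℝ) * (Nat.lcm d1 d2 : ℝ) = (d1 : ℝ) * d2 := by
      exact_mod_cast Nat.gcd_mul_lcm d1 d2
    have : (0:ℝ) < (Nat.lcm d1 d2 : ℕ) := by exact_mod_cast Nat.lcm_pos hd1 hd2
    have : (0:ℝ) < d1 := by exact_mod_cast hd1
    have : (0:ℝ) < d2 := by exact_mod_cast hd2
    simp only [apSieve_nu, inv_inv]
    field_simp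
    linear_combination -(sieveW B z d1 * sieveW B z d2) * e
  rw [Finset.sum_congr rfl fun d1 h => Finset.sum_congr rfl fun d2 h' =>
    h1 d1 d2 (Nat.pos_of_mem_divisors h) (Nat.pos_of_mem_divisors h')]
  rw [← mainSum_lambdaSquared_eq_sum_sum_mul, mainSum_lambdaSquared_eq_sum_mul_sum_sq]
  rw [Finset.sum_congr rfl fun l hl => by rw [sieveW_invert B z l (Nat.dvd_of_mem_divisors hl)]]
  have h2 : ∀ l ∈ (apSieve B z).prodPrimes.divisors,
      (selbergTerms (s := apSieve B z) l)⁻¹ * sieveY B z l ^ 2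
        = if l ≤ z then selbergTerms (s := apSieve B z) l / sieveG B z ^ 2 else 0 := by
    intro l hl
    have hg := selbergTerms_pos (s := apSieve B z) (Nat.dvd_of_mem_divisors hl)
    unfold sieveY
    split
    · rw [div_pow, mul_pow, moebius_sq_sf (squarefree_of_mem_divisors_prodPrimes hl)]
      field_simp
    · simp
  rw [Finset.sum_congr rfl h2, ← Finset.sum_filter, ← Finset.sum_div, ← sieveG, sq, ← div_div,
    div_self hG.ne']

/-- Multiples of `m` along the progression. -/
lemma ap_count (B m : ℕ) (hm : 0 < m) (hc : Nat.Coprime m B) (r x : ℤ) (L : ℕ) :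
    |(((Finset.Icc x (x + L)).filter (fun j => (m : ℤ) ∣ r + (B : ℤ) * j)).card : ℝ)
      - ((L : ℝ) + 1) / m| ≤ 1 := by
  obtain ⟨u, v, huv⟩ := hc.isCoprime
  set j0 : ℤ := -(r * v) with hj0
  have hiff : ∀ j : ℤ, (m : ℤ) ∣ r + (B : ℤ) * j ↔ j ≡ j0 [ZMOD (m : ℤ)] := by
    intro j
    rw [Int.modEq_comm, Int.modEq_iff_dvd]
    constructor
    · rintro ⟨k, hk⟩
      exact ⟨k * v + u * j, by rw [hj0]; linear_combination v * hk - j * huv⟩
    · rintro ⟨k, hk⟩
      exact ⟨(B : ℤ) * k + r * u, by rw [hj0] at hk; linear_combination (B : ℤ) * hk - r * huv⟩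
  have hset : Finset.Icc x (x + L) = Finset.Ioc (x - 1) (x + L) := by
    ext j; simp only [Finset.mem_Icc, Finset.mem_Ioc]; omega
  simp only [hiff, hset]
  have hcard := Int.Ioc_filter_modEq_card (x - 1) (x + L) (r := (m : ℤ)) (by exact_mod_cast hm) j0
  set N := ((Finset.Ioc (x - 1) (x + L)).filter (fun j => j ≡ j0 [ZMOD (m : ℤ)])).card
  set a : ℚ := ((x - 1 : ℤ) - j0 : ℚ) / ((m : ℤ) : ℚ)
  set b : ℚ := ((x + L : ℤ) - j0 : ℚ) / ((m : ℤ) : ℚ)
  have hmQ : (0 : ℚ) < m := by exact_mod_cast hm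
  have hba : b - a = ((L : ℚ) + 1) / m := by
    simp only [a, b]
    push_cast
    field_simp
    ring
  have hpos : (0 : ℚ) ≤ ((L : ℚ) + 1) / m := by positivity
  have hmono : ⌊a⌋ ≤ ⌊b⌋ := Int.floor_le_floor (by linarith)
  rw [max_eq_left (by linarith)] at hcard
  have hN : (N : ℚ) = (⌊b⌋ : ℚ) - ⌊a⌋ := by exact_mod_cast hcard
  have h1 := Int.floor_le a
  have h2 := Int.lt_floor_add_one a
  have h3 := Int.floor_le b
  have h4 := Int.lt_floor_add_one b
  have hq : |(N : ℚ) - ((L : ℚ) + 1) / m| ≤ 1 := by rw [abs_le]; constructor <;> linarith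
  have hr : ((|(N : ℚ) - ((L : ℚ) + 1) / m| : ℚ) : ℝ) ≤ ((1 : ℚ) : ℝ) := Rat.cast_le.2 hq
  push_cast at hr
  exact hr

lemma sifted_le (B : ℕ) (r x : ℤ) (L z : ℕ) (s : Finset ℤ) (hz : 2 ≤ z)
    (hs : s ⊆ Finset.Icc x (x + L))
    (hfree : ∀ j ∈ s, ∀ p : ℕ, p.Prime → p < z → ¬ p ∣ B → ¬ (p : ℤ) ∣ r + (B : ℤ) * j) :
    (s.card : ℝ) ≤ ((L : ℝ) + 1) / sieveG B z + (z : ℝ) ^ 4 := by
  set P := (apSieve B z).prodPrimes with hP
  set D := P.divisors with hD
  set w := sieveW B z
  set S : ℤ → ℝ := fun j => ∑ d ∈ D, if (d : ℤ) ∣ r + (B : ℤ) * j then w d else 0 with hS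
  have h1 : ∀ j ∈ s, S j = 1 := by
    intro j hj
    rw [← sieveW_one B z (by omega)]
    simp only [hS]
    rw [Finset.sum_eq_single 1]
    · simp only [Nat.cast_one, one_dvd, if_true, w]
    · intro d hd hd1
      rw [if_neg]
      intro hdj
      obtain ⟨p, hp, hpd⟩ := Nat.exists_prime_and_dvd hd1
      have hpP : p ∈ sievePrimes B z := by
        rw [← apSieve_primeFactors]
        exact Nat.mem_primeFactors.2
          ⟨hp, hpd.trans (Nat.dvd_of_mem_divisors hd), prodPrimes_ne_zero⟩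
      obtain ⟨hpr, -, hpB⟩ := Finset.mem_filter.1 hpP
      exact hfree j hj p hp (Finset.mem_range.1 hpr) hpB ((Int.natCast_dvd_natCast.2 hpd).trans hdj)
    · intro h
      exact absurd (Nat.one_mem_divisors.2 prodPrimes_ne_zero) h
  calc (s.card : ℝ) = ∑ j ∈ s, S j ^ 2 := by
        rw [Finset.sum_congr rfl fun j hj => by rw [h1 j hj, one_pow]]
        simp
    _ ≤ ∑ j ∈ Finset.Icc x (x + L), S j ^ 2 :=
        Finset.sum_le_sum_of_subset_of_nonneg hs fun j _ _ => sq_nonneg _
    _ = ∑ d1 ∈ D, ∑ d2 ∈ D, w d1 * w d2 *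
          (((Finset.Icc x (x + L)).filter
            (fun j => ((Nat.lcm d1 d2 : ℕ) : ℤ) ∣ r + (B : ℤ) * j)).card : ℝ) := by
        simp only [hS, sq, Finset.sum_mul, Finset.mul_sum]
        rw [Finset.sum_comm]
        refine Finset.sum_congr rfl fun d1 _ => ?_
        rw [Finset.sum_comm]
        refine Finset.sum_congr rfl fun d2 _ => ?_
        rw [Finset.card_filter, Nat.cast_sum, Finset.mul_sum]
        refine Finset.sum_congr rfl fun j _ => ?_
        simp only [Int.natCast_dvd, Nat.lcm_dvd_iff]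
        by_cases ha : d1 ∣ (r + (B : ℤ) * j).natAbs <;>
          by_cases hb : d2 ∣ (r + (B : ℤ) * j).natAbs <;> simp [ha, hb] <;> ring
    _ ≤ ∑ d1 ∈ D, ∑ d2 ∈ D,
          (((L : ℝ) + 1) * (w d1 * w d2 / (Nat.lcm d1 d2 : ℝ)) + |w d1| * |w d2|) := by
        refine Finset.sum_le_sum fun d1 hd1 => Finset.sum_le_sum fun d2 hd2 => ?_
        have hd : Nat.lcm d1 d2 ∣ P :=
          Nat.lcm_dvd (Nat.dvd_of_mem_divisors hd1) (Nat.dvd_of_mem_divisors hd2)
        have h := ap_count B (Nat.lcm d1 d2)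
          (Nat.lcm_pos (Nat.pos_of_mem_divisors hd1) (Nat.pos_of_mem_divisors hd2))
          ((apSieve_coprime B z).coprime_dvd_left hd) r x L
        set N : ℝ := (((Finset.Icc x (x + L)).filter
            (fun j => ((Nat.lcm d1 d2 : ℕ) : ℤ) ∣ r + (B : ℤ) * j)).card : ℝ)
        calc w d1 * w d2 * N = ((L : ℝ) + 1) * (w d1 * w d2 / (Nat.lcm d1 d2 : ℝ)) +
              w d1 * w d2 * (N - ((L : ℝ) + 1) / (Nat.lcm d1 d2 : ℝ)) := by ring
          _ ≤ _ := by
              refine add_le_add le_rfl ((le_abs_self _).trans ?_)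
              rw [abs_mul, abs_mul]
              exact mul_le_of_le_one_right (by positivity) h
    _ = ((L : ℝ) + 1) * (1 / sieveG B z) + (∑ d ∈ D, |w d|) ^ 2 := by
        rw [sq, Finset.sum_mul_sum, ← mainSum_sieveW B z (by omega)]
        simp only [Finset.sum_add_distrib, Finset.mul_sum]
        rfl
    _ ≤ ((L : ℝ) + 1) / sieveG B z + (z : ℝ) ^ 4 := by
        rw [mul_one_div]
        refine add_le_add le_rfl ?_
        have h2 : ∑ d ∈ D, |w d| ≤ (z : ℝ) * z := by
          calc ∑ d ∈ D, |w d| ≤ ∑ d ∈ D, (if d ≤ z then (z : ℝ) else 0) :=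
                Finset.sum_le_sum fun d _ => abs_sieveW B z d (by omega)
            _ ≤ ∑ _d ∈ Finset.Icc 1 z, (z : ℝ) := by
                rw [← Finset.sum_filter]
                refine Finset.sum_le_sum_of_subset_of_nonneg (fun d hd => ?_) fun _ _ _ => Nat.cast_nonneg _
                obtain ⟨hd, hdz⟩ := Finset.mem_filter.1 hd
                exact Finset.mem_Icc.2 ⟨Nat.pos_of_mem_divisors hd, hdz⟩
            _ = _ := by simp
        calc (∑ d ∈ D, |w d|) ^ 2 ≤ ((z : ℝ) * z) ^ 2 :=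
              pow_le_pow_left₀ (Finset.sum_nonneg fun _ _ => abs_nonneg _) h2 2
          _ = _ := by ring

/-- Reciprocals of the numbers with a given set of prime factors. -/
lemma kernel_sum (S : Finset ℕ) (hS : ∀ p ∈ S, p.Prime) (X : ℕ) :
    ∑ n ∈ (Finset.Icc 1 X).filter (fun n => n.primeFactors = S), (n : ℝ)⁻¹
      ≤ ∏ p ∈ S, ((p : ℝ) - 1)⁻¹ := by
  induction S using Finset.induction_on with
  | empty =>
    rw [Finset.prod_empty]
    calc _ ≤ ∑ n ∈ ({1} : Finset ℕ), (n : ℝ)⁻¹ := by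
          refine Finset.sum_le_sum_of_subset_of_nonneg (fun n hn => ?_) fun _ _ _ => by positivity
          obtain ⟨hn, he⟩ := Finset.mem_filter.1 hn
          rw [Nat.primeFactors_eq_empty] at he
          have := (Finset.mem_Icc.1 hn).1
          rw [Finset.mem_singleton]
          omega
      _ = 1 := by simp
  | insert p T hpT ih =>
    have hp : p.Prime := hS p (Finset.mem_insert_self _ _)
    have hp1 : (1 : ℝ) < p := by exact_mod_cast hp.one_lt
    rw [Finset.prod_insert hpT]
    set F := (Finset.Icc 1 X).filter (fun n => n.primeFactors = insert p T) with hF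
    set φ : ℕ → ℕ × ℕ := fun n => (n.factorization p, n / p ^ n.factorization p) with hφ
    have hmaps : ∀ n ∈ F, φ n ∈
        Finset.Icc 1 X ×ˢ (Finset.Icc 1 X).filter (fun m => m.primeFactors = T) := by
      intro n hn
      obtain ⟨hn, he⟩ := Finset.mem_filter.1 hn
      obtain ⟨hn1, hnX⟩ := Finset.mem_Icc.1 hn
      have hn0 : n ≠ 0 := by omega
      have hpn : p ∈ n.primeFactors := he ▸ Finset.mem_insert_self _ _
      simp only [hφ, Finset.mem_product, Finset.mem_filter, Finset.mem_Icc]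
      refine ⟨⟨(hp.dvd_iff_one_le_factorization hn0).1 (Nat.dvd_of_mem_primeFactors hpn), ?_⟩,
        ⟨Nat.ordCompl_pos p hn0, (Nat.div_le_self _ _).trans hnX⟩, ?_⟩
      · exact ((Nat.factorization_lt _ hn0).trans_le hnX).le
      · rw [← Nat.support_factorization, Nat.factorization_ordCompl, Finsupp.support_erase,
          Nat.support_factorization, he, Finset.erase_insert hpT]
    have hinj : Set.InjOn φ F := by
      intro n _ m _ h
      simp only [hφ, Prod.mk.injEq] at h
      have e1 := Nat.ordProj_mul_ordCompl_eq_self n p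
      have e2 := Nat.ordProj_mul_ordCompl_eq_self m p
      rw [← e1, ← e2, h.2, h.1]
    have hval : ∀ n ∈ F, (n : ℝ)⁻¹ = ((p : ℝ)⁻¹) ^ (φ n).1 * (((φ n).2 : ℕ) : ℝ)⁻¹ := by
      intro n _
      simp only [hφ]
      rw [inv_pow, ← mul_inv, ← Nat.cast_pow, ← Nat.cast_mul, Nat.ordProj_mul_ordCompl_eq_self]
    calc ∑ n ∈ F, (n : ℝ)⁻¹ = ∑ n ∈ F, ((p : ℝ)⁻¹) ^ (φ n).1 * (((φ n).2 : ℕ) : ℝ)⁻¹ :=
          Finset.sum_congr rfl hval
      _ = ∑ y ∈ F.image φ, ((p : ℝ)⁻¹) ^ y.1 * ((y.2 : ℕ) : ℝ)⁻¹ :=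
          (Finset.sum_image (f := fun y : ℕ × ℕ => ((p : ℝ)⁻¹) ^ y.1 * ((y.2 : ℕ) : ℝ)⁻¹) hinj).symm
      _ ≤ ∑ y ∈ Finset.Icc 1 X ×ˢ (Finset.Icc 1 X).filter (fun m => m.primeFactors = T),
            ((p : ℝ)⁻¹) ^ y.1 * ((y.2 : ℕ) : ℝ)⁻¹ :=
          Finset.sum_le_sum_of_subset_of_nonneg (Finset.image_subset_iff.2 hmaps)
            fun _ _ _ => by positivity
      _ = (∑ k ∈ Finset.Icc 1 X, ((p : ℝ)⁻¹) ^ k) *
            ∑ m ∈ (Finset.Icc 1 X).filter (fun m => m.primeFactors = T), (m : ℝ)⁻¹ := by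
          rw [Finset.sum_product, Finset.sum_mul_sum]
      _ ≤ _ := by
          refine mul_le_mul ?_ (ih fun q hq => hS q (Finset.mem_insert_of_mem hq))
            (Finset.sum_nonneg fun _ _ => by positivity) (inv_nonneg.2 (by linarith))
          rw [← Finset.Ico_add_one_right_eq_Icc]
          refine (geom_sum_Ico_le_of_lt_one (by positivity) (inv_lt_one_of_one_lt₀ hp1)).trans (le_of_eq ?_)
          field_simp

lemma log_le_sieveG (B z : ℕ) (hB : 0 < B) (hz : 2 ≤ z) :
    Real.log z ≤ sieveG B z *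
      ∏ p ∈ B.primeFactors.filter (fun p => p < z), (p : ℝ) / ((p : ℝ) - 1) := by
  set PB := B.primeFactors.filter (fun p => p < z) with hPB
  set P := sievePrimes B z with hP
  set g : Finset ℕ → ℝ := fun S => ∏ p ∈ S, ((p : ℝ) - 1)⁻¹ with hg
  have hPBp : ∀ p ∈ PB, p.Prime := fun p hp => Nat.prime_of_mem_primeFactors (Finset.mem_filter.1 hp).1
  have hnn : ∀ S : Finset ℕ, (∀ p ∈ S, p.Prime) → 0 ≤ g S := fun S hS =>
    Finset.prod_nonneg fun p hp => inv_nonneg.2 (by
      have : (1:ℝ) ≤ p := by exact_mod_cast (hS p hp).one_lt.le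
      linarith)
  obtain ⟨X, rfl⟩ : ∃ X, z = X + 1 := ⟨z - 1, by omega⟩
  set 𝒮 := (Finset.Icc 1 X).image Nat.primeFactors with hS
  set A1 := P.powerset.filter (fun S => ∏ p ∈ S, p ≤ X + 1) with hA1
  have hmem : ∀ S ∈ 𝒮, (S.filter (fun p => ¬ p ∣ B), S.filter (fun p => p ∣ B)) ∈
      A1 ×ˢ PB.powerset := by
    intro S hS'
    obtain ⟨n, hn, rfl⟩ := Finset.mem_image.1 hS'
    obtain ⟨hn1, hnX⟩ := Finset.mem_Icc.1 hn
    have hp : ∀ p ∈ n.primeFactors, p.Prime ∧ p < X + 1 := fun p hp =>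
      ⟨Nat.prime_of_mem_primeFactors hp, by
        have := Nat.le_of_mem_primeFactors hp; omega⟩
    simp only [Finset.mem_product, hA1, Finset.mem_filter, Finset.mem_powerset]
    refine ⟨⟨fun p hp' => ?_, ?_⟩, fun p hp' => ?_⟩
    · obtain ⟨h1, h2⟩ := Finset.mem_filter.1 hp'
      exact Finset.mem_filter.2 ⟨Finset.mem_range.2 (hp p h1).2, (hp p h1).1, h2⟩
    · have hd : ∏ p ∈ n.primeFactors.filter (fun p => ¬ p ∣ B), p ∣ n :=
        (Finset.prod_dvd_prod_of_subset _ _ _ (Finset.filter_subset _ _)).trans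
          (Nat.prod_primeFactors_dvd n)
      have := Nat.le_of_dvd (by omega) hd
      omega
    · obtain ⟨h1, h2⟩ := Finset.mem_filter.1 hp'
      exact Finset.mem_filter.2 ⟨Nat.mem_primeFactors.2 ⟨(hp p h1).1, h2, hB.ne'⟩, (hp p h1).2⟩
  have hharm : Real.log ((X + 1 : ℕ) : ℝ) ≤ ∑ n ∈ Finset.Icc 1 X, (n : ℝ)⁻¹ := by
    refine (log_add_one_le_harmonic X).trans (le_of_eq ?_)
    rw [harmonic_eq_sum_Icc]
    push_cast
    rfl
  have hA1G : ∑ S ∈ A1, g S ≤ sieveG B (X + 1) := by
    have hterm : ∀ S ∈ A1, g S = selbergTerms (s := apSieve B (X + 1)) (∏ p ∈ S, p) := by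
      intro S hS'
      have hSp : ∀ p ∈ S, p.Prime := fun p hp =>
        sievePrimes_prime (Finset.mem_powerset.1 (Finset.mem_filter.1 hS').1 hp)
      rw [selbergTerms_apply, apSieve_nu, Nat.primeFactors_prod hSp, Nat.cast_prod,
        ← Finset.prod_inv_distrib, ← Finset.prod_mul_distrib]
      refine Finset.prod_congr rfl fun p hp => ?_
      have : (1:ℝ) < p := by exact_mod_cast (hSp p hp).one_lt
      rw [apSieve_nu]
      field_simp
    rw [Finset.sum_congr rfl hterm, sieveG,
      ← Finset.sum_image (f := fun l => selbergTerms (s := apSieve B (X + 1)) l)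
        (g := fun S : Finset ℕ => ∏ p ∈ S, p) (s := A1)]
    · refine Finset.sum_le_sum_of_subset_of_nonneg (fun l hl => ?_) fun l hl _ =>
        (selbergTerms_pos (Nat.dvd_of_mem_divisors (Finset.mem_filter.1 hl).1)).le
      obtain ⟨S, hS', rfl⟩ := Finset.mem_image.1 hl
      obtain ⟨hsub, hle⟩ := Finset.mem_filter.1 hS'
      exact Finset.mem_filter.2 ⟨Nat.mem_divisors.2
        ⟨Finset.prod_dvd_prod_of_subset _ _ _ (Finset.mem_powerset.1 hsub), prodPrimes_ne_zero⟩, hle⟩
    · intro S hS' T hT' hST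
      have hp : ∀ S ∈ A1, ∀ p ∈ S, p.Prime := fun S hS' p hp =>
        sievePrimes_prime (Finset.mem_powerset.1 (Finset.mem_filter.1 hS').1 hp)
      have := congrArg Nat.primeFactors hST
      simp only [Nat.primeFactors_prod (hp S hS'), Nat.primeFactors_prod (hp T hT')] at this
      exact this
  calc Real.log ((X + 1 : ℕ) : ℝ) ≤ ∑ n ∈ Finset.Icc 1 X, (n : ℝ)⁻¹ := hharm
    _ = ∑ S ∈ 𝒮, ∑ n ∈ (Finset.Icc 1 X).filter (fun n => n.primeFactors = S), (n : ℝ)⁻¹ :=
        (Finset.sum_fiberwise_of_maps_to (fun n hn => Finset.mem_image_of_mem _ hn) _).symm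
    _ ≤ ∑ S ∈ 𝒮, g S := Finset.sum_le_sum fun S hS' => kernel_sum S (by
        obtain ⟨n, -, rfl⟩ := Finset.mem_image.1 hS'
        exact fun p hp => Nat.prime_of_mem_primeFactors hp) X
    _ = ∑ S ∈ 𝒮, g (S.filter (fun p => ¬ p ∣ B)) * g (S.filter (fun p => p ∣ B)) :=
        Finset.sum_congr rfl fun S _ => by
          rw [mul_comm]; exact (Finset.prod_filter_mul_prod_filter_not S _ _).symm
    _ ≤ ∑ y ∈ A1 ×ˢ PB.powerset, g y.1 * g y.2 := by
        rw [← Finset.sum_image (f := fun y : Finset ℕ × Finset ℕ => g y.1 * g y.2)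
          (g := fun S => (S.filter (fun p => ¬ p ∣ B), S.filter (fun p => p ∣ B))) (s := 𝒮)]
        · refine Finset.sum_le_sum_of_subset_of_nonneg (Finset.image_subset_iff.2 hmem) fun y hy _ => ?_
          obtain ⟨h1, h2⟩ := Finset.mem_product.1 hy
          exact mul_nonneg
            (hnn _ fun p hp => sievePrimes_prime (Finset.mem_powerset.1 (Finset.mem_filter.1 h1).1 hp))
            (hnn _ fun p hp => hPBp p (Finset.mem_powerset.1 h2 hp))
        · intro S _ T _ h
          rw [← Finset.filter_union_filter_not_eq (fun p => p ∣ B) S,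
            ← Finset.filter_union_filter_not_eq (fun p => p ∣ B) T]
          exact congrArg₂ (fun a b => a ∪ b) (congrArg Prod.snd h) (congrArg Prod.fst h)
    _ = (∑ S ∈ A1, g S) * ∑ S ∈ PB.powerset, g S := by
        rw [Finset.sum_product, Finset.sum_mul_sum]
    _ = (∑ S ∈ A1, g S) * ∏ p ∈ PB, (p : ℝ) / ((p : ℝ) - 1) := by
        congr 1
        rw [← Finset.prod_one_add]
        refine Finset.prod_congr rfl fun p hp => ?_
        have : (1:ℝ) < p := by exact_mod_cast (hPBp p hp).one_lt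
        rw [eq_div_iff (by linarith), add_mul, inv_mul_cancel₀ (by linarith)]
        ring
    _ ≤ _ := mul_le_mul_of_nonneg_right hA1G (Finset.prod_nonneg fun p hp => by
        have : (1:ℝ) < p := by exact_mod_cast (hPBp p hp).one_lt
        exact div_nonneg (Nat.cast_nonneg _) (by linarith))

theorem rough_ap_card :
    ∃ C : ℝ, ∀ (B : ℕ) (r x : ℤ) (L : ℕ) (z : ℕ) (s : Finset ℤ),
      0 < B → 2 ≤ z → s ⊆ Finset.Icc x (x + L) →
      (∀ j ∈ s, ∀ p : ℕ, p.Prime → p < z → ¬ p ∣ B → ¬ (p : ℤ) ∣ r + (B : ℤ) * j) →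
      (s.card : ℝ) ≤ C * ((L : ℝ) + 1) *
          (∏ p ∈ B.primeFactors.filter (fun p => p < z), (p : ℝ) / ((p : ℝ) - 1)) / Real.log z
        + C * (z : ℝ) ^ 6 := by
  refine ⟨1, fun B r x L z s hB hz hs hfree => ?_⟩
  have hlog : 0 < Real.log z := Real.log_pos (by exact_mod_cast (show 1 < z by omega))
  have hG : (0 : ℝ) < sieveG B z := lt_of_lt_of_le one_pos (one_le_sieveG B z (by omega))
  refine (sifted_le B r x L z s hz hs hfree).trans (add_le_add ?_ ?_)
  · rw [one_mul, div_le_div_iff₀ hG hlog, mul_assoc]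
    refine mul_le_mul_of_nonneg_left ?_ (by positivity)
    linarith [log_le_sieveG B z hB hz]
  · rw [one_mul]
    exact pow_le_pow_right₀ (by exact_mod_cast (show 1 ≤ z by omega)) (by norm_num)

end Vale.Agent.P028
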