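import Vale.Agent.P028.Arith
import Vale.Agent.P028.Sieve

/-! P028 module BWINDOW, counting part: the rough cofactors `b₂` in a window of a Bohr set. -/

namespace Vale.Agent.P028

open Finset

/-- Integers in `(lo, hi]` prime to a set of primes. -/
noncomputable def copSet (P : Finset ℕ) (lo hi : ℝ) : Finset ℤ :=
  (Finset.Ioc ⌊lo⌋ ⌊hi⌋).filter (fun k => ∀ p ∈ P, ¬ (p : ℤ) ∣ k)

lemma mem_copSet {P : Finset ℕ} {lo hi : ℝ} {k : ℤ} :
    k ∈ copSet P lo hi ↔ (lo < k ∧ (k : ℝ) ≤ hi) ∧ ∀ p ∈ P, ¬ (p : ℤ) ∣ k := by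
  simp [copSet, Int.floor_lt, Int.le_floor]

lemma card_copSet_near (P : Finset ℕ) (hP : ∀ p ∈ P, p.Prime) :
    ∀ lo hi : ℝ, lo ≤ hi →
      |((copSet P lo hi).card : ℝ) - (hi - lo) * ∏ p ∈ P, (1 - 1 / (p : ℝ))|
        ≤ (2 : ℝ) ^ P.card := by
  induction P using Finset.induction_on with
  | empty =>
    intro lo hi h
    have hle : ⌊lo⌋ ≤ ⌊hi⌋ := Int.floor_le_floor h
    have hc : ((copSet ∅ lo hi).card : ℝ) = (⌊hi⌋ : ℝ) - ⌊lo⌋ := by
      have : ((copSet ∅ lo hi).card : ℤ) = ⌊hi⌋ - ⌊lo⌋ := by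
        simp [copSet]
        exact hle
      exact_mod_cast this
    rw [hc]
    have := Int.floor_le lo
    have := Int.floor_le hi
    have := Int.sub_one_lt_floor lo
    have := Int.sub_one_lt_floor hi
    simp only [Finset.prod_empty, mul_one, Finset.card_empty, pow_zero, abs_le]
    constructor <;> linarith
  | @insert q P hq ih =>
    intro lo hi h
    have hqp : q.Prime := hP q (by simp)
    have hP' : ∀ p ∈ P, p.Prime := fun p hp => hP p (by simp [hp])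
    have hq0 : (0 : ℝ) < q := by exact_mod_cast hqp.pos
    have h1 := ih hP' lo hi h
    have h2 := ih hP' (lo / q) (hi / q) (div_le_div_of_nonneg_right h hq0.le)
    have hsplit : (copSet (insert q P) lo hi).card + (copSet P (lo / q) (hi / q)).card
        = (copSet P lo hi).card := by
      have e1 : copSet (insert q P) lo hi
          = (copSet P lo hi).filter (fun k => ¬ (q : ℤ) ∣ k) := by
        ext k
        simp only [mem_copSet, Finset.mem_filter, Finset.forall_mem_insert]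
        tauto
      have e2 : (copSet P lo hi).filter (fun k => (q : ℤ) ∣ k)
          = (copSet P (lo / q) (hi / q)).image (fun k => (q : ℤ) * k) := by
        ext k
        simp only [mem_copSet, Finset.mem_filter, Finset.mem_image]
        constructor
        · rintro ⟨⟨⟨a1, a2⟩, a3⟩, ⟨m, rfl⟩⟩
          push_cast at a1 a2
          refine ⟨m, ⟨⟨?_, ?_⟩, fun p hp hd => a3 p hp (hd.mul_left _)⟩, rfl⟩
          · rw [div_lt_iff₀ hq0]; linarith
          · rw [le_div_iff₀ hq0]; linarith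
        · rintro ⟨m, ⟨⟨a1, a2⟩, a3⟩, rfl⟩
          rw [div_lt_iff₀ hq0] at a1
          rw [le_div_iff₀ hq0] at a2
          push_cast
          refine ⟨⟨⟨by linarith, by linarith⟩, fun p hp hd => ?_⟩, dvd_mul_right _ _⟩
          rcases (Nat.prime_iff_prime_int.1 (hP' p hp)).dvd_or_dvd hd with h' | h'
          · have h'' : p ∣ q := by exact_mod_cast h'
            rw [Nat.prime_dvd_prime_iff_eq (hP' p hp) hqp] at h''
            exact hq (h'' ▸ hp)
          · exact a3 p hp h'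
      rw [e1]
      conv_rhs => rw [← Finset.card_filter_add_card_filter_not (s := copSet P lo hi)
        (fun k => (q : ℤ) ∣ k)]
      rw [e2, Finset.card_image_of_injective _
        (fun a b hab => by simpa [hqp.ne_zero] using hab)]
      omega
    have hsplit' : ((copSet (insert q P) lo hi).card : ℝ)
        + ((copSet P (lo / q) (hi / q)).card : ℝ) = ((copSet P lo hi).card : ℝ) := by
      exact_mod_cast hsplit
    rw [Finset.prod_insert hq, Finset.card_insert_of_notMem hq, pow_succ]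
    have key : (hi - lo) * ((1 - 1 / (q : ℝ)) * ∏ p ∈ P, (1 - 1 / (p : ℝ)))
        = (hi - lo) * (∏ p ∈ P, (1 - 1 / (p : ℝ)))
          - (hi / q - lo / q) * ∏ p ∈ P, (1 - 1 / (p : ℝ)) := by ring
    rw [key]
    rw [abs_le] at h1 h2 ⊢
    constructor <;> linarith

lemma card_copSet_le (P : Finset ℕ) (hP : ∀ p ∈ P, p.Prime) (lo hi : ℝ) (h : lo ≤ hi) :
    ((copSet P lo hi).card : ℝ)
      ≤ (hi - lo) * (∏ p ∈ P, (1 - 1 / (p : ℝ))) + (2 : ℝ) ^ P.card := by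
  have := (abs_le.1 (card_copSet_near P hP lo hi h)).2
  linarith

/-- Width of the window of `b₂` (times `b₁ / W`) cut out by one value of `k`. -/
noncomputable def cutG (ε w W : ℝ) : ℝ :=
  if |ε| * W ≤ w then 1 else 2 * w / (|ε| * W)

lemma cutG_nonneg {ε w W : ℝ} (hw : 0 ≤ w) (hW : 0 ≤ W) : 0 ≤ cutG ε w W := by
  unfold cutG; split_ifs <;> positivity

lemma cutG_le_two {ε w W : ℝ} (hW : 0 ≤ W) : cutG ε w W ≤ 2 := by
  unfold cutG
  split_ifs with h
  · norm_num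
  · push Not at h
    by_cases h0 : |ε| * W = 0
    · simp [h0]
    · rw [div_le_iff₀ (lt_of_le_of_ne (by positivity) (Ne.symm h0))]
      linarith

lemma mass_cutG_le {ε w W : ℝ} (hw : 0 < w) (_hW : 0 ≤ W) :
    (|ε| * W + 2 * w) * cutG ε w W ≤ 6 * w := by
  unfold cutG
  split_ifs with h
  · linarith
  · push Not at h
    rw [← mul_div_assoc, div_le_iff₀ (hw.trans h)]
    nlinarith

/-- Each `k` cuts out an interval of length `W / b₁ * cutG`. -/
lemma cut_interval (ε w W u : ℝ) (b1 : ℕ) (hb1 : 0 < b1) (hw : 0 ≤ w) (hW : 0 ≤ W) :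
    ∃ lo : ℝ, ∀ x : ℝ, W ≤ b1 * x → b1 * x ≤ 2 * W → |ε * (b1 * x) - u| ≤ w →
      lo ≤ x ∧ x ≤ lo + W / b1 * cutG ε w W := by
  have hb : (0 : ℝ) < b1 := by exact_mod_cast hb1
  unfold cutG
  split_ifs with h
  · refine ⟨W / b1, fun x h1 h2 _ => ⟨?_, ?_⟩⟩
    · rw [div_le_iff₀ hb]; linarith
    · rw [mul_one, ← add_div, le_div_iff₀ hb]; linarith
  · push Not at h
    have hpos : 0 < |ε| * W := lt_of_le_of_lt hw h
    have he0 : ε ≠ 0 := by rintro rfl; simp at hpos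
    have hW0 : W ≠ 0 := by rintro rfl; simp at hpos
    have he : 0 < |ε| := abs_pos.2 he0
    refine ⟨(u / ε - w / |ε|) / b1, fun x _ _ h3 => ?_⟩
    have hd : |(b1 : ℝ) * x - u / ε| ≤ w / |ε| := by
      rw [le_div_iff₀ he, ← abs_mul]
      refine le_of_eq_of_le (congrArg abs ?_) h3
      field_simp
    rw [abs_le] at hd
    constructor
    · rw [div_le_iff₀ hb]; linarith
    · have e : (u / ε - w / |ε|) / b1 + W / b1 * (2 * w / (|ε| * W))
          = (u / ε + w / |ε|) / b1 := by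
        field_simp
        ring
      rw [e, le_div_iff₀ hb]
      linarith

lemma omega_phi_le :
    ∃ C : ℝ, 0 < C ∧ ∀ n : ℕ, 0 < n →
      (2 : ℝ) ^ n.primeFactors.card ≤ C * (n : ℝ) ^ (1 / 10 : ℝ) ∧
      Ph n ≤ (2 : ℝ) ^ n.primeFactors.card := by
  obtain ⟨C, hC⟩ := card_divisors_le (1 / 10) (by norm_num)
  refine ⟨max C 1, by positivity, fun n hn => ⟨?_, ?_⟩⟩
  · calc (2 : ℝ) ^ n.primeFactors.card ≤ (n.divisors.card : ℝ) := by
          exact_mod_cast two_pow_omega_le_divisors n hn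
      _ ≤ C * (n : ℝ) ^ (1 / 10 : ℝ) := hC n hn
      _ ≤ _ := mul_le_mul_of_nonneg_right (le_max_left _ _) (by positivity)
  · refine (Ph_le_omega n hn).trans ?_
    have := Nat.lt_two_pow_self (n := n.primeFactors.card)
    exact_mod_cast this

lemma count_combine {L C₁ Wb w β G D X Y E R2 : ℝ} (hL : 0 < L) (hC : 0 ≤ C₁) (hWb : 0 ≤ Wb)
    (hw : 0 ≤ w) (hβG : 0 ≤ β * G) (hE : 0 ≤ E) (hD : 0 ≤ D)
    (t1 : X ≤ 6 * (Wb * w)) (t2 : Y ≤ 2 * D ^ 2 * (Wb * (β * G)))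
    (t3 : R2 ≤ (1 + D) * (6 * D + 1) * E) :
    C₁ * ((X + Y) / L + R2)
      ≤ C₁ * (7 + 2 * D ^ 2 + (1 + D) * (6 * D + 1)) * (Wb * (w + β * G) / L + E) := by
  set K := 7 + 2 * D ^ 2 + (1 + D) * (6 * D + 1) with hK
  have hK1 : 6 ≤ K ∧ 2 * D ^ 2 ≤ K ∧ (1 + D) * (6 * D + 1) ≤ K := by
    have := sq_nonneg D
    have : 0 ≤ (1 + D) * (6 * D + 1) := by positivity
    exact ⟨by linarith, by linarith, by linarith⟩
  rw [mul_assoc C₁]
  refine mul_le_mul_of_nonneg_left ?_ hC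
  have h1 : (X + Y) / L ≤ K * (Wb * (w + β * G) / L) := by
    rw [← mul_div_assoc]
    refine div_le_div_of_nonneg_right ?_ hL.le
    have := mul_le_mul_of_nonneg_right hK1.1 (mul_nonneg hWb hw)
    have := mul_le_mul_of_nonneg_right hK1.2.1 (mul_nonneg hWb hβG)
    linarith
  have h2 := mul_le_mul_of_nonneg_right hK1.2.2 hE
  rw [mul_add]
  linarith

lemma count_finish {L C₁ Wb ε w W θ Φ Q2 D B B' z : ℝ} {R : ℕ} {Ks : Finset ℤ} {f : ℤ → ℝ}
    (hL : 0 < L) (hL2 : 1 / 2 ≤ L) (hC : 0 ≤ C₁) (hB1 : 1 ≤ B') (hB'B : B' ≤ B)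
    (hw : 0 < w) (hW : 0 ≤ W) (hWb : 0 ≤ Wb) (hD0 : 0 < D) (_hθ0 : 0 ≤ θ) (hθ1 : θ ≤ 1)
    (hθΦ : θ * Φ = 1) (hΦ1 : 1 ≤ Φ) (hΦle : Φ ≤ D * B' ^ (1 / 10 : ℝ)) (_hQ : 1 ≤ Q2)
    (h2P : Q2 ≤ D * B' ^ (1 / 10 : ℝ))
    (hK : (Ks.card : ℝ) ≤ (B' * (|ε| * W + 2 * w) + 1) * θ + Q2)
    (hR : (R : ℝ) ≤ ∑ k ∈ Ks, f k)
    (hf : ∀ k ∈ Ks, f k ≤ C₁ * ((Wb * cutG ε w W / B' + 3) * Φ / L + z ^ 6)) :
    (R : ℝ) ≤ C₁ * (7 + 2 * D ^ 2 + (1 + D) * (6 * D + 1))
      * (Wb * (w + B' ^ (-(4 / 5) : ℝ) * cutG ε w W) / L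
        + (B * (|ε| * W + 2 * w) + 1 + B ^ (1 / 10 : ℝ)) * (B ^ (1 / 10 : ℝ) + z ^ 6)) := by
  have hB'r : 0 < B' := lt_of_lt_of_le one_pos hB1
  have hB0 : 0 ≤ B := hB'r.le.trans hB'B
  have hG0 : 0 ≤ cutG ε w W := cutG_nonneg hw.le hW
  set M := B' * (|ε| * W + 2 * w) with hM
  have hM0 : 0 ≤ M := by positivity
  have hz6 : 0 ≤ z ^ 6 := by positivity
  refine hR.trans ((Finset.sum_le_card_nsmul _ _ _ hf).trans ?_)
  rw [nsmul_eq_mul]
  have hΦ0 : 0 ≤ Φ := zero_le_one.trans hΦ1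
  refine (mul_le_mul_of_nonneg_right hK (by positivity)).trans ?_
  set G := cutG ε w W with hG
  set ℓ := Wb * G with hℓ
  have e : ((M + 1) * θ + Q2) * (C₁ * ((ℓ / B' + 3) * Φ / L + z ^ 6))
      = C₁ * ((M * ℓ / B' * (θ * Φ) + ℓ / B' * ((θ + Q2) * Φ)) / L
        + ((M + 1) * θ + Q2) * (3 * Φ / L + z ^ 6)) := by ring
  rw [e, hθΦ, mul_one]
  set β := B' ^ (1 / 10 : ℝ) with hβ
  have hBten : β ≤ B ^ (1 / 10 : ℝ) := Real.rpow_le_rpow hB'r.le hB'B (by norm_num)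
  have t1 : M * ℓ / B' ≤ 6 * (Wb * w) := by
    rw [hM, hℓ]
    calc B' * (|ε| * W + 2 * w) * (Wb * G) / B'
        = Wb * ((|ε| * W + 2 * w) * G) := by field_simp
      _ ≤ Wb * (6 * w) := mul_le_mul_of_nonneg_left (mass_cutG_le hw hW) hWb
      _ = _ := by ring
  have t2 : ℓ / B' * ((θ + Q2) * Φ) ≤ 2 * D ^ 2 * (Wb * (B' ^ (-(4 / 5) : ℝ) * G)) := by
    have h1 : (θ + Q2) * Φ ≤ 2 * D ^ 2 * B' ^ (1 / 5 : ℝ) := by
      calc (θ + Q2) * Φ ≤ (2 * (D * β)) * (D * β) :=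
            mul_le_mul (by linarith) hΦle hΦ0 (by positivity)
        _ = 2 * D ^ 2 * (β * β) := by ring
        _ = _ := by rw [hβ, ← Real.rpow_add hB'r]; norm_num
    refine (mul_le_mul_of_nonneg_left h1 (by positivity)).trans (le_of_eq ?_)
    have h45 : B' ^ (-(4 / 5) : ℝ) = B' ^ (1 / 5 : ℝ) / B' := by
      rw [show (-(4 / 5) : ℝ) = 1 / 5 - 1 by norm_num, Real.rpow_sub hB'r, Real.rpow_one]
    rw [h45, hℓ]; ring
  have t3 : ((M + 1) * θ + Q2) * (3 * Φ / L + z ^ 6)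
      ≤ (1 + D) * (6 * D + 1) * ((B * (|ε| * W + 2 * w) + 1 + B ^ (1 / 10 : ℝ))
          * (B ^ (1 / 10 : ℝ) + z ^ 6)) := by
    have hMB : M ≤ B * (|ε| * W + 2 * w) := mul_le_mul_of_nonneg_right hB'B (by positivity)
    have ha1 : (M + 1) * θ + Q2
        ≤ (1 + D) * (B * (|ε| * W + 2 * w) + 1 + B ^ (1 / 10 : ℝ)) := by
      have h1 : (M + 1) * θ ≤ M + 1 := mul_le_of_le_one_right (by linarith) hθ1
      have h2 : D * β ≤ D * B ^ (1 / 10 : ℝ) := mul_le_mul_of_nonneg_left hBten hD0.le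
      have h3 : 0 ≤ D * (B * (|ε| * W + 2 * w) + 1) := by positivity
      have h4 : 0 ≤ B ^ (1 / 10 : ℝ) := by positivity
      linarith
    have ha2 : 3 * Φ / L + z ^ 6 ≤ (6 * D + 1) * (B ^ (1 / 10 : ℝ) + z ^ 6) := by
      have h1 : 3 * Φ / L ≤ 6 * Φ := by
        rw [div_le_iff₀ hL]
        have := mul_le_mul_of_nonneg_left hL2 (by linarith : 0 ≤ 6 * Φ)
        linarith
      have h2 : Φ ≤ D * B ^ (1 / 10 : ℝ) :=
        hΦle.trans (mul_le_mul_of_nonneg_left hBten hD0.le)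
      have h3 : 0 ≤ B ^ (1 / 10 : ℝ) := by positivity
      have h4 : 0 ≤ D * z ^ 6 := by positivity
      linarith
    refine (mul_le_mul ha1 ha2 (by positivity) (by positivity)).trans (le_of_eq (by ring))
  exact count_combine hL hC hWb hw.le (by positivity) (by positivity) hD0.le t1 t2 t3

/-- The number of rough cofactors in a window of the Bohr set. -/
theorem fibre_count :
    ∃ C : ℝ, 0 < C ∧ ∀ (A : ℤ) (B b1 z : ℕ) (ε c0 w W : ℝ) (R : Finset ℕ),
      0 < B → IsCoprime A (B : ℤ) → 0 < b1 → 2 ≤ z → 0 < w → 0 ≤ W →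
      (∀ b ∈ R, W ≤ ((b1 * b : ℕ) : ℝ) ∧ ((b1 * b : ℕ) : ℝ) < 2 * W ∧
        (∀ p : ℕ, p.Prime → p < z → ¬ p ∣ b) ∧
        distInt (((A : ℝ) / B + ε) * ((b1 * b : ℕ) : ℝ) + c0) < w) →
      (R.card : ℝ) ≤
        C * (W / b1 * (w + ((B / Nat.gcd B b1 : ℕ) : ℝ) ^ (-(4 / 5) : ℝ) * cutG ε w W)
              / Real.log z
          + ((B : ℝ) * (|ε| * W + 2 * w) + 1 + (B : ℝ) ^ (1 / 10 : ℝ))
              * ((B : ℝ) ^ (1 / 10 : ℝ) + (z : ℝ) ^ 6)) := by
  obtain ⟨C₀, hC₀⟩ := rough_ap_card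
  obtain ⟨D, hD0, hD⟩ := omega_phi_le
  set C₁ : ℝ := max C₀ 0 + 1
  refine ⟨C₁ * (7 + 2 * D ^ 2 + (1 + D) * (6 * D + 1)), by positivity, ?_⟩
  intro A B b1 z ε c0 w W R hB hA hb1 hz hw hW hR
  set g := Nat.gcd B b1 with hg
  have hg0 : 0 < g := Nat.gcd_pos_of_pos_left _ hB
  set B' := B / g with hB'
  set b1' := b1 / g with hb1'
  have eB : B = g * B' := (Nat.mul_div_cancel' (Nat.gcd_dvd_left B b1)).symm
  have eb : b1 = g * b1' := (Nat.mul_div_cancel' (Nat.gcd_dvd_right B b1)).symm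
  have hB'0 : 0 < B' := Nat.pos_of_ne_zero (fun h => by rw [h, mul_zero] at eB; omega)
  have hBdvd : B' ∣ B := Dvd.intro_left g eB.symm
  have hB'B : (B' : ℝ) ≤ B := by exact_mod_cast Nat.le_of_dvd hB hBdvd
  have hB'r : (0 : ℝ) < B' := by exact_mod_cast hB'0
  have hgr : (0 : ℝ) < g := by exact_mod_cast hg0
  set a : ℤ := A * (b1' : ℤ) with ha
  have hab : IsCoprime a (B' : ℤ) := by
    refine IsCoprime.mul_left (hA.of_isCoprime_of_dvd_right (by exact_mod_cast hBdvd)) ?_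
    rw [Int.isCoprime_iff_nat_coprime]
    rw [Int.natAbs_natCast, Int.natAbs_natCast]
    exact (Nat.coprime_div_gcd_div_gcd (m := B) (n := b1) hg0).symm
  obtain ⟨c, v, hcv⟩ := id hab
  set P := B'.primeFactors.filter (fun p => p < z) with hPdef
  have hP : ∀ p ∈ P, p.Prime := fun p hp => Nat.prime_of_mem_primeFactors (Finset.mem_filter.1 hp).1
  set Φ := ∏ p ∈ P, (p : ℝ) / ((p : ℝ) - 1) with hΦdef
  set θ := ∏ p ∈ P, (1 - 1 / (p : ℝ)) with hθdef
  have hfac : ∀ p ∈ P, 1 ≤ (p : ℝ) / ((p : ℝ) - 1) ∧ 0 ≤ 1 - 1 / (p : ℝ) ∧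
      (1 - 1 / (p : ℝ)) ≤ 1 ∧ (1 - 1 / (p : ℝ)) * ((p : ℝ) / ((p : ℝ) - 1)) = 1 := by
    intro p hp
    have h2 : (2 : ℝ) ≤ p := by exact_mod_cast (hP p hp).two_le
    have hi : 0 ≤ 1 / (p : ℝ) := by positivity
    have h1 : 1 / (p : ℝ) ≤ 1 := by rw [div_le_one (by linarith)]; linarith
    refine ⟨by rw [le_div_iff₀ (by linarith)]; linarith, by linarith, by linarith, ?_⟩
    have : (p : ℝ) - 1 ≠ 0 := by linarith
    field_simp
  have hθΦ : θ * Φ = 1 := by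
    rw [hθdef, hΦdef, ← Finset.prod_mul_distrib]
    exact Finset.prod_eq_one (fun p hp => (hfac p hp).2.2.2)
  have hθ0 : 0 ≤ θ := Finset.prod_nonneg (fun p hp => (hfac p hp).2.1)
  have hθ1 : θ ≤ 1 :=
    Finset.prod_le_one (fun p hp => (hfac p hp).2.1) (fun p hp => (hfac p hp).2.2.1)
  have hΦ1 : 1 ≤ Φ := Finset.one_le_prod (fun p hp => (hfac p hp).1)
  have hΦPh : Φ ≤ Ph B' := by
    rw [Ph_eq_prod B' hB'0, hΦdef]
    refine Finset.prod_le_prod_of_subset_of_one_le (Finset.filter_subset _ _)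
      (fun p hp => zero_le_one.trans (hfac p hp).1) (fun p hp _ => ?_)
    have h2 : (2 : ℝ) ≤ p := by exact_mod_cast (Nat.prime_of_mem_primeFactors hp).two_le
    rw [le_div_iff₀ (by linarith)]; linarith
  obtain ⟨hω, hPhω⟩ := hD B' hB'0
  have h2P : (2 : ℝ) ^ P.card ≤ D * (B' : ℝ) ^ (1 / 10 : ℝ) :=
    (pow_le_pow_right₀ (by norm_num) (Finset.card_filter_le _ _)).trans hω
  have hΦle : Φ ≤ D * (B' : ℝ) ^ (1 / 10 : ℝ) := (hΦPh.trans hPhω).trans hω
  -- the values of k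
  set M := (B' : ℝ) * (|ε| * W + 2 * w) with hM
  have hM0 : 0 ≤ M := by positivity
  set mid := -(B' : ℝ) * (c0 + ε * (3 / 2 * W)) with hmid
  set Ks := copSet P (mid - M / 2 - 1) (mid + M / 2) with hKs
  have hKcard : (Ks.card : ℝ) ≤ (M + 1) * θ + (2 : ℝ) ^ P.card := by
    refine (card_copSet_le P hP _ _ (by linarith)).trans (le_of_eq ?_)
    rw [hθdef]; ring
  set G := cutG ε w W with hG
  have hG0 : 0 ≤ G := cutG_nonneg hw.le hW
  set ℓ := W / b1 * G with hℓ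
  have hℓ0 : 0 ≤ ℓ := by positivity
  choose lo hlo using fun k : ℤ => cut_interval ε w W (-c0 - (k : ℝ) / B') b1 hb1 hw.le hW
  set L := ⌊ℓ / B'⌋₊ + 1 with hL
  let x : ℤ → ℤ := fun k => ⌈(lo k - (c : ℝ) * k) / B'⌉
  let sk : ℤ → Finset ℤ := fun k => (Finset.Icc (x k) (x k + (L : ℕ))).filter
    (fun j => ∀ p ∈ (Finset.range z).filter Nat.Prime, ¬ (p : ℤ) ∣ c * k + (B' : ℤ) * j)
  have hsub : R.image (fun b : ℕ => (b : ℤ))
      ⊆ Ks.biUnion (fun k => (sk k).image (fun j => c * k + (B' : ℤ) * j)) := by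
    intro y hy
    obtain ⟨b, hb, rfl⟩ := Finset.mem_image.1 hy
    obtain ⟨hb_lo, hb_hi, hrough, hdist⟩ := hR b hb
    set X := ((b1 * b : ℕ) : ℝ) with hX
    set m : ℤ := round (((A : ℝ) / B + ε) * X + c0) with hm
    set k : ℤ := a * b - (B' : ℤ) * m with hk
    have hXe : X = (b1 : ℝ) * b := by rw [hX]; push_cast; ring
    have hkey : ((k : ℝ) / B' + ε * X + c0) = ((A : ℝ) / B + ε) * X + c0 - m := by
      rw [hk, ha, hXe, eB, eb]; push_cast
      field_simp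
      ring
    have hsmall : |(k : ℝ) / B' + ε * X + c0| < w := by rw [hkey]; exact hdist
    have hεX : |ε * X - ε * (3 / 2 * W)| ≤ |ε| * W / 2 := by
      rw [← mul_sub, abs_mul, mul_div_assoc]
      exact mul_le_mul_of_nonneg_left (abs_le.2 ⟨by linarith, by linarith⟩) (abs_nonneg _)
    have hkmem : k ∈ Ks := by
      rw [hKs, mem_copSet]
      have h1 : |(k : ℝ) - mid| ≤ M / 2 := by
        have e : (k : ℝ) - mid = (B' : ℝ) * (((k : ℝ) / B' + ε * X + c0)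
            - (ε * X - ε * (3 / 2 * W))) := by
          rw [hmid]; field_simp; ring
        rw [e, abs_mul, abs_of_pos hB'r, hM, mul_div_assoc]
        refine mul_le_mul_of_nonneg_left ?_ hB'r.le
        refine (abs_sub _ _).trans ?_
        linarith
      rw [abs_le] at h1
      refine ⟨⟨by linarith, by linarith⟩, fun p hp hd => ?_⟩
      obtain ⟨hpB, hpz⟩ := Finset.mem_filter.1 hp
      have hpp := hP p hp
      have hpi := Nat.prime_iff_prime_int.1 hpp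
      have hpB' : (p : ℤ) ∣ (B' : ℤ) := by exact_mod_cast Nat.dvd_of_mem_primeFactors hpB
      have h2 : (p : ℤ) ∣ a * b := by
        have := dvd_add hd (hpB'.mul_right m)
        rwa [hk, sub_add_cancel] at this
      rcases hpi.dvd_or_dvd h2 with h3 | h3
      · exact hpi.not_isUnit (hab.isUnit_of_dvd' h3 hpB')
      · exact hrough p hpp hpz (by exact_mod_cast h3)
    refine Finset.mem_biUnion.2 ⟨k, hkmem, Finset.mem_image.2 ⟨v * b + c * m, ?_, ?_⟩⟩
    · have hb' : c * k + (B' : ℤ) * (v * b + c * m) = (b : ℤ) := by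
        rw [hk]; linear_combination (b : ℤ) * hcv
      refine Finset.mem_filter.2 ⟨Finset.mem_Icc.2 ?_, fun p hp hd => ?_⟩
      · obtain ⟨l1, l2⟩ := hlo k b (by rw [← hXe]; exact hb_lo) (by rw [← hXe]; exact hb_hi.le)
          (by rw [← hXe]; refine le_of_eq_of_le (congrArg abs ?_) hsmall.le; ring)
        have hcast : (c : ℝ) * k + (B' : ℝ) * ((v * b + c * m : ℤ) : ℝ) = (b : ℝ) := by
          exact_mod_cast hb'
        constructor
        · rw [Int.ceil_le, div_le_iff₀ hB'r]; linarith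
        · have h5 := Int.le_ceil ((lo k - (c : ℝ) * k) / B')
          have h6 := Nat.lt_floor_add_one (ℓ / B')
          have h7 : ((v * b + c * m : ℤ) : ℝ) ≤ (lo k - (c : ℝ) * k) / B' + ℓ / B' := by
            rw [← add_div, le_div_iff₀ hB'r, hℓ]; linarith
          have h8 : ((v * b + c * m : ℤ) : ℝ) ≤ ((x k + (L : ℕ) : ℤ) : ℝ) := by
            simp only [x, hL]; push_cast at h7 ⊢; linarith
          exact_mod_cast h8
      · obtain ⟨hp1, hp2⟩ := Finset.mem_filter.1 hp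
        rw [hb'] at hd
        exact hrough p hp2 (Finset.mem_range.1 hp1) (by exact_mod_cast hd)
    · rw [hk]; linear_combination (b : ℤ) * hcv
  have hRcard : (R.card : ℝ) ≤ ∑ k ∈ Ks, ((sk k).card : ℝ) := by
    have h1 : R.card ≤ ∑ k ∈ Ks, (sk k).card := by
      rw [← Finset.card_image_of_injective R (Int.ofNat_injective :
        Function.Injective (fun b : ℕ => (b : ℤ)))]
      exact ((Finset.card_le_card hsub).trans Finset.card_biUnion_le).trans
        (Finset.sum_le_sum fun k _ => Finset.card_image_le)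
    exact_mod_cast h1
  have hlogz : 0 < Real.log z := Real.log_pos (by exact_mod_cast (show 1 < z by omega))
  have hlogz2 : 1 / 2 ≤ Real.log z := by
    have h : Real.log 2 ≤ Real.log z := Real.log_le_log (by norm_num) (by exact_mod_cast hz)
    linarith [Real.log_two_gt_d9]
  have hsk : ∀ k ∈ Ks, ((sk k).card : ℝ)
      ≤ C₁ * ((ℓ / B' + 3) * Φ / Real.log z + (z : ℝ) ^ 6) := by
    intro k _
    have h := hC₀ B' (c * k) (x k) L z (sk k) hB'0 hz (Finset.filter_subset _ _)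
      (fun j hj p hp hpz _ => (Finset.mem_filter.1 hj).2 p
        (Finset.mem_filter.2 ⟨Finset.mem_range.2 hpz, hp⟩))
    refine h.trans ?_
    have hC1 : C₀ ≤ C₁ := by
      have := le_max_left C₀ 0
      linarith
    have hL3 : (L : ℝ) + 1 ≤ ℓ / B' + 3 := by
      rw [hL]; push_cast
      linarith [Nat.floor_le (show 0 ≤ ℓ / B' by positivity)]
    calc C₀ * ((L : ℝ) + 1) * Φ / Real.log z + C₀ * (z : ℝ) ^ 6
        = C₀ * (((L : ℝ) + 1) * Φ / Real.log z + (z : ℝ) ^ 6) := by ring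
      _ ≤ C₁ * (((L : ℝ) + 1) * Φ / Real.log z + (z : ℝ) ^ 6) :=
          mul_le_mul_of_nonneg_right hC1 (by positivity)
      _ ≤ _ := by gcongr
  have hB1 : (1 : ℝ) ≤ B' := by exact_mod_cast hB'0
  exact count_finish (z := (z : ℝ)) hlogz hlogz2 (by positivity) hB1 hB'B hw hW
    (by positivity) hD0 hθ0 hθ1 hθΦ hΦ1 hΦle (one_le_pow₀ (by norm_num)) h2P hKcard hRcard hsk

end Vale.Agent.P028
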