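import Vale.Agent.P028.Arith
import Vale.Agent.P028.Sieve
import Vale.Agent.P028.BCount

/-! P028 module BWINDOW: a `ρ_N`-random divisor rarely lies in a non-resonant Bohr set (BLUEPRINT 7). -/

namespace Vale.Agent.P028

open Finset

lemma Ph_nonneg' (n : ℕ) : 0 ≤ Ph n := by unfold Ph; positivity

lemma th_nonneg' (n : ℕ) : 0 ≤ th n := by unfold th; positivity

lemma rhoN_nonneg' (N b : ℕ) : 0 ≤ rhoN N b := by
  unfold rhoN
  have := th_nonneg' N
  have := Ph_nonneg' b
  positivity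

lemma rhoN_mul_le (N a b : ℕ) (ha : 0 < a) (hb : 0 < b) :
    rhoN N (a * b) ≤ rhoN N a * (Ph b / b) := by
  have h := Ph_mul_le a b ha hb
  have := th_nonneg' N
  unfold rhoN
  calc th N * Ph (a * b) / ((a * b : ℕ) : ℝ) ≤ th N * (Ph a * Ph b) / ((a * b : ℕ) : ℝ) := by
        gcongr
    _ = _ := by push_cast; ring

lemma rho_total :
    ∃ C : ℝ, 0 < C ∧ ∀ N : ℕ, 0 < N → ∑ b ∈ N.divisors, rhoN N b ≤ C := by
  obtain ⟨C, hC⟩ := rho_dvd_le
  refine ⟨max C 1, by positivity, fun N hN => ?_⟩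
  have h := hC N 1 hN one_pos
  simp only [one_dvd, Finset.filter_true, Nat.cast_one, div_one] at h
  have : Ph 1 = 1 := by simp [Ph]
  rw [this, mul_one] at h
  exact h.trans (le_max_left _ _)

lemma rho_dvd_rpow :
    ∃ C : ℝ, 0 < C ∧ ∀ N e : ℕ, 0 < N → 0 < e →
      ∑ b ∈ N.divisors.filter (fun b => e ∣ b), rhoN N b ≤ C * (e : ℝ) ^ (-(9 / 10) : ℝ) := by
  obtain ⟨C, hC⟩ := rho_dvd_le
  obtain ⟨D, hD⟩ := Ph_pow_le_rpow 1 (1 / 10) (by norm_num)
  refine ⟨max C 1 * max D 1, by positivity, fun N e hN he => (hC N e hN he).trans ?_⟩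
  have her : (0 : ℝ) < e := by exact_mod_cast he
  have h2 := hD e he
  rw [pow_one] at h2
  have h0 := Ph_nonneg' e
  have e' : (e : ℝ) ^ (-(9 / 10) : ℝ) = (e : ℝ) ^ (1 / 10 : ℝ) / e := by
    rw [show (-(9 / 10) : ℝ) = 1 / 10 - 1 by norm_num, Real.rpow_sub her, Real.rpow_one]
  rw [e', mul_assoc, ← mul_div_assoc, ← mul_div_assoc]
  refine div_le_div_of_nonneg_right ?_ her.le
  refine mul_le_mul (le_max_left _ _) (h2.trans ?_) h0 (by positivity)
  exact mul_le_mul_of_nonneg_right (le_max_left _ _) (by positivity)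

lemma gcd_moment :
    ∃ C : ℝ, 0 < C ∧ ∀ N B : ℕ, 0 < N → 0 < B →
      ∑ b ∈ N.divisors, rhoN N b * ((B / Nat.gcd B b : ℕ) : ℝ) ^ (-(4 / 5) : ℝ)
        ≤ C * (B : ℝ) ^ (-(19 / 25) : ℝ) := by
  obtain ⟨C, hC0, hC⟩ := rho_dvd_rpow
  obtain ⟨D, hD⟩ := card_divisors_le (1 / 25) (by norm_num)
  refine ⟨C * max D 1, by positivity, fun N B hN hB => ?_⟩
  have hBr : (0 : ℝ) < B := by exact_mod_cast hB
  have key : ∀ b : ℕ, ((B / Nat.gcd B b : ℕ) : ℝ) ^ (-(4 / 5) : ℝ)
      ≤ (B : ℝ) ^ (-(4 / 5) : ℝ) *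
        ∑ e ∈ B.divisors, (if e ∣ b then (e : ℝ) ^ (4 / 5 : ℝ) else 0) := by
    intro b
    have hg : 0 < Nat.gcd B b := Nat.gcd_pos_of_pos_left _ hB
    have hgr : (0 : ℝ) < Nat.gcd B b := by exact_mod_cast hg
    rw [Nat.cast_div (Nat.gcd_dvd_left B b) hgr.ne',
      Real.div_rpow hBr.le hgr.le, div_eq_mul_inv, ← Real.rpow_neg hgr.le, neg_neg]
    refine mul_le_mul_of_nonneg_left ?_ (by positivity)
    refine le_trans ?_ (Finset.single_le_sum (fun e _ => by positivity)
      (Nat.mem_divisors.2 ⟨Nat.gcd_dvd_left B b, hB.ne'⟩))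
    rw [if_pos (Nat.gcd_dvd_right B b)]
  calc ∑ b ∈ N.divisors, rhoN N b * ((B / Nat.gcd B b : ℕ) : ℝ) ^ (-(4 / 5) : ℝ)
      ≤ ∑ b ∈ N.divisors, rhoN N b * ((B : ℝ) ^ (-(4 / 5) : ℝ) *
          ∑ e ∈ B.divisors, (if e ∣ b then (e : ℝ) ^ (4 / 5 : ℝ) else 0)) :=
        Finset.sum_le_sum fun b _ => mul_le_mul_of_nonneg_left (key b) (rhoN_nonneg' N b)
    _ = (B : ℝ) ^ (-(4 / 5) : ℝ) * ∑ e ∈ B.divisors, (e : ℝ) ^ (4 / 5 : ℝ) *
          ∑ b ∈ N.divisors.filter (fun b => e ∣ b), rhoN N b := by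
        simp only [Finset.mul_sum]
        rw [Finset.sum_comm]
        refine Finset.sum_congr rfl fun e _ => ?_
        rw [Finset.sum_filter]
        refine Finset.sum_congr rfl fun b _ => ?_
        split_ifs <;> ring
    _ ≤ (B : ℝ) ^ (-(4 / 5) : ℝ) * ∑ _e ∈ B.divisors, C := by
        refine mul_le_mul_of_nonneg_left (Finset.sum_le_sum fun e he => ?_) (by positivity)
        have he0 := Nat.pos_of_mem_divisors he
        refine (mul_le_mul_of_nonneg_left (hC N e hN he0) (by positivity)).trans ?_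
        rw [mul_left_comm, ← Real.rpow_add (by exact_mod_cast he0)]
        exact mul_le_of_le_one_right hC0.le
          (Real.rpow_le_one_of_one_le_of_nonpos (by exact_mod_cast he0) (by norm_num))
    _ ≤ (B : ℝ) ^ (-(4 / 5) : ℝ) * (max D 1 * (B : ℝ) ^ (1 / 25 : ℝ) * C) := by
        rw [Finset.sum_const, nsmul_eq_mul]
        refine mul_le_mul_of_nonneg_left (mul_le_mul_of_nonneg_right ?_ hC0.le) (by positivity)
        exact (hD B hB).trans (mul_le_mul_of_nonneg_right (le_max_left _ _) (by positivity))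
    _ = C * max D 1 * ((B : ℝ) ^ (-(4 / 5) : ℝ) * (B : ℝ) ^ (1 / 25 : ℝ)) := by ring
    _ = _ := by rw [← Real.rpow_add hBr]; norm_num

lemma prime_of_dvd_prod_pow {s : Finset ℕ} {f : ℕ → ℕ} (hs : ∀ r ∈ s, r.Prime) {q : ℕ}
    (hq : q.Prime) (h : q ∣ ∏ r ∈ s, r ^ f r) : q ∈ s := by
  obtain ⟨r, hr, hqr⟩ := (Nat.prime_iff.1 hq).exists_mem_finset_dvd h
  have h' := hq.dvd_of_dvd_pow hqr
  rw [Nat.prime_dvd_prime_iff_eq hq (hs r hr)] at h'
  exact h' ▸ hr

/-- Split off the maximal initial prime-power product not exceeding `X`. -/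
lemma initial_split {b : ℕ} (hb : 0 < b) {X : ℝ} (hX : 1 ≤ X) (hXb : X < b) :
    ∃ p b1 b2 : ℕ, p ∈ b.primeFactors ∧ b = b1 * b2 ∧ 0 < b1 ∧ (b1 : ℝ) ≤ X ∧
      X < (b1 : ℝ) * ((p ^ b.factorization p : ℕ) : ℝ) ∧
      (∀ q ∈ b1.primeFactors, q < p) ∧ (∀ q : ℕ, q.Prime → q < p → ¬ q ∣ b2) := by
  classical
  let part : ℕ → ℕ := fun y => ∏ r ∈ b.primeFactors.filter (fun r => r < y), r ^ b.factorization r
  have hfull : ∏ r ∈ b.primeFactors, r ^ b.factorization r = b := by
    have h := Nat.prod_factorization_pow_eq_self hb.ne'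
    rwa [Nat.prod_factorization_eq_prod_primeFactors] at h
  have hex : ∃ y, X < (part y : ℝ) := by
    refine ⟨b + 1, ?_⟩
    have : part (b + 1) = b := by
      simp only [part]
      rw [Finset.filter_true_of_mem (fun r hr => Nat.lt_succ_of_le (Nat.le_of_mem_primeFactors hr))]
      exact hfull
    rwa [this]
  set y0 := Nat.find hex with hy0
  have hy : X < (part y0 : ℝ) := Nat.find_spec hex
  have hpart0 : part 0 = 1 := by simp [part]
  have hy0' : y0 ≠ 0 := by
    intro h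
    rw [h, hpart0] at hy
    push_cast at hy
    linarith
  obtain ⟨p, hp⟩ := Nat.exists_eq_succ_of_ne_zero hy0'
  have hle : (part p : ℝ) ≤ X := not_lt.1 (Nat.find_min hex (by omega))
  have hmem : p ∈ b.primeFactors := by
    by_contra hn
    have : part y0 = part p := by
      simp only [part, hp]
      refine Finset.prod_congr (Finset.filter_congr fun r hr => ?_) (fun _ _ => rfl)
      have : r ≠ p := fun h => hn (h ▸ hr)
      omega
    rw [this] at hy
    linarith
  have hstep : part y0 = part p * p ^ b.factorization p := by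
    simp only [part, hp]
    have : b.primeFactors.filter (fun r => r < p + 1)
        = insert p (b.primeFactors.filter (fun r => r < p)) := by
      ext r
      simp only [Finset.mem_filter, Finset.mem_insert]
      constructor
      · rintro ⟨h1, h2⟩
        rcases Nat.lt_or_ge r p with h | h
        · exact Or.inr ⟨h1, h⟩
        · exact Or.inl (by omega)
      · rintro (rfl | ⟨h1, h2⟩)
        · exact ⟨hmem, by omega⟩
        · exact ⟨h1, by omega⟩
    rw [Nat.succ_eq_add_one, this, Finset.prod_insert (by simp), mul_comm]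
  refine ⟨p, part p, ∏ r ∈ b.primeFactors.filter (fun r => ¬ r < p), r ^ b.factorization r,
    hmem, ?_, ?_, hle, ?_, fun q hq => ?_, fun q hq hqp hd => ?_⟩
  · simp only [part]
    rw [Finset.prod_filter_mul_prod_filter_not, hfull]
  · exact Finset.prod_pos fun r hr =>
      pow_pos (Nat.pos_of_mem_primeFactors (Finset.mem_filter.1 hr).1) _
  · rw [hstep] at hy
    push_cast at hy ⊢
    exact hy
  · have h := prime_of_dvd_prod_pow (fun r hr => Nat.prime_of_mem_primeFactors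
      (Finset.mem_filter.1 hr).1) (Nat.prime_of_mem_primeFactors hq) (Nat.dvd_of_mem_primeFactors hq)
    exact (Finset.mem_filter.1 h).2
  · have h := prime_of_dvd_prod_pow (fun r hr => Nat.prime_of_mem_primeFactors
      (Finset.mem_filter.1 hr).1) hq hd
    exact (Finset.mem_filter.1 h).2 hqp

/-- Thresholds `W ^ (1 / (200 * 2 ^ j))`. -/
noncomputable def bZ (W : ℝ) (j : ℕ) : ℝ := W ^ (1 / (200 * (2 : ℝ) ^ j))

/-- `b = b₁ b₂` with `b₁` small, `b₂` rough at level `j + 1` and, for `j ≥ 1`, `b₁` not tiny and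
smooth at level `j`. -/
def BClass (W : ℝ) (j b : ℕ) : Prop :=
  ∃ b1 b2 : ℕ, b = b1 * b2 ∧ 0 < b1 ∧ (b1 : ℝ) ≤ W ^ (1 / 20 : ℝ) ∧
    (∀ q : ℕ, q.Prime → (q : ℝ) < bZ W (j + 1) → ¬ q ∣ b2) ∧
    (1 ≤ j → W ^ (3 / 100 : ℝ) < (b1 : ℝ) ∧ ∀ q ∈ b1.primeFactors, (q : ℝ) < bZ W j)

lemma log_bZ {W : ℝ} (hW : 0 < W) (j : ℕ) :
    Real.log (bZ W j) = Real.log W / (200 * (2 : ℝ) ^ j) := by
  rw [bZ, Real.log_rpow hW]; ring

lemma classify {W : ℝ} {b : ℕ} (hW : 2 ≤ W) (hb : W ≤ (b : ℝ))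
    (hpp : ∀ p ∈ b.primeFactors, 2 ≤ b.factorization p →
      ((p ^ b.factorization p : ℕ) : ℝ) ≤ W ^ (1 / 50 : ℝ)) :
    ∃ j, j < ⌊Real.log W⌋₊ + 1 ∧ BClass W j b := by
  classical
  have hW0 : 0 < W := by linarith
  have hX1 : 1 ≤ W ^ (1 / 20 : ℝ) := Real.one_le_rpow (by linarith) (by norm_num)
  have hXb : W ^ (1 / 20 : ℝ) < b := by
    refine lt_of_lt_of_le ?_ hb
    nth_rw 2 [← Real.rpow_one W]
    exact Real.rpow_lt_rpow_of_exponent_lt (by linarith) (by norm_num)
  have hb0 : 0 < b := by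
    have : (0 : ℝ) < b := by linarith
    exact_mod_cast this
  obtain ⟨p, b1, b2, hp, hbb, hb1, hb1X, hover, hsm, hro⟩ := initial_split hb0 hX1 hXb
  by_cases hbig : bZ W 1 ≤ (p : ℝ)
  · refine ⟨0, Nat.succ_pos _, b1, b2, hbb, hb1, hb1X, fun q hq hql => hro q hq ?_,
      fun h => absurd h (by norm_num)⟩
    exact_mod_cast lt_of_lt_of_le hql hbig
  · push Not at hbig
    have hpp' := Nat.prime_of_mem_primeFactors hp
    have hp1 : (p : ℝ) ≤ W ^ (1 / 50 : ℝ) := by
      refine hbig.le.trans (Real.rpow_le_rpow_of_exponent_le (by linarith) ?_)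
      norm_num
    have hpe : ((p ^ b.factorization p : ℕ) : ℝ) ≤ W ^ (1 / 50 : ℝ) := by
      rcases Nat.lt_or_ge (b.factorization p) 2 with h | h
      · interval_cases hf : b.factorization p
        · simpa using Real.one_le_rpow (by linarith : (1 : ℝ) ≤ W) (by norm_num)
        · simpa using hp1
      · exact hpp p hp h
    have hb1big : W ^ (3 / 100 : ℝ) < (b1 : ℝ) := by
      have h1 : W ^ (1 / 20 : ℝ) < (b1 : ℝ) * W ^ (1 / 50 : ℝ) :=
        lt_of_lt_of_le hover (mul_le_mul_of_nonneg_left hpe (Nat.cast_nonneg _))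
      rw [show (1 / 20 : ℝ) = 3 / 100 + 1 / 50 by norm_num, Real.rpow_add hW0] at h1
      exact lt_of_mul_lt_mul_right h1 (by positivity)
    have h2p : (2 : ℝ) ≤ p := by exact_mod_cast hpp'.two_le
    have hex : ∃ j, bZ W (j + 1) ≤ (p : ℝ) := by
      obtain ⟨j, hj⟩ := pow_unbounded_of_one_lt (Real.log W) (one_lt_two : (1 : ℝ) < 2)
      refine ⟨j, le_trans ?_ h2p⟩
      refine (Real.log_le_log_iff (by unfold bZ; positivity) (by norm_num)).1 ?_
      rw [log_bZ hW0, div_le_iff₀ (by positivity), pow_succ]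
      have := mul_le_mul_of_nonneg_right Real.log_two_gt_d9.le
        (show (0 : ℝ) ≤ 200 * (2 ^ j * 2) by positivity)
      have : (0 : ℝ) < (2 : ℝ) ^ j := by positivity
      linarith
    set j := Nat.find hex with hj
    have hj1 : bZ W (j + 1) ≤ (p : ℝ) := Nat.find_spec hex
    have hj0 : j ≠ 0 := fun h => by rw [h] at hj1; exact absurd hj1 (not_le.2 hbig)
    have hjlt : (p : ℝ) < bZ W j := by
      obtain ⟨i, hi⟩ := Nat.exists_eq_succ_of_ne_zero hj0
      have := Nat.find_min hex (show i < j by omega)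
      rw [hi]
      exact not_le.1 this
    refine ⟨j, ?_, b1, b2, hbb, hb1, hb1X, fun q hq hql => hro q hq ?_,
      fun _ => ⟨hb1big, fun q hq => ?_⟩⟩
    · have h1 : Real.log 2 < Real.log W / (200 * (2 : ℝ) ^ j) := by
        rw [← log_bZ hW0]
        exact Real.log_lt_log (by norm_num) (lt_of_le_of_lt h2p hjlt)
      rw [lt_div_iff₀ (by positivity)] at h1
      have h2 : (j : ℝ) ≤ (2 : ℝ) ^ j := by exact_mod_cast (Nat.lt_two_pow_self (n := j)).le
      have h3 := mul_le_mul_of_nonneg_right Real.log_two_gt_d9.le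
        (show (0 : ℝ) ≤ 200 * (2 : ℝ) ^ j by positivity)
      have h4 : (j : ℝ) ≤ Real.log W := by
        have : (0 : ℝ) ≤ (2 : ℝ) ^ j := by positivity
        linarith
      exact Nat.lt_succ_of_le (Nat.le_floor h4)
    · exact_mod_cast lt_of_lt_of_le hql hj1
    · exact lt_trans (by exact_mod_cast hsm q hq) hjlt

lemma smooth_mass :
    ∃ C a : ℝ, 0 < C ∧ 0 < a ∧ ∀ (N j : ℕ) (W : ℝ) (D : Finset ℕ), 0 < N → 2 ≤ W →
      D ⊆ N.divisors →
      (∀ b ∈ D, 1 ≤ j → W ^ (3 / 100 : ℝ) < (b : ℝ) ∧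
        ∀ q ∈ b.primeFactors, (q : ℝ) < bZ W j) →
      ∑ b ∈ D, rhoN N b ≤ C * Real.exp (-a * (2 : ℝ) ^ j) := by
  obtain ⟨C₁, c, hc, hC₁⟩ := rho_smooth_le
  obtain ⟨C₂, hC20, hC₂⟩ := rho_total
  refine ⟨max C₁ (C₂ * Real.exp (6 * c)), 6 * c, lt_max_of_lt_right (by positivity),
    by positivity, ?_⟩
  intro N j W D hN hW hD hprop
  have hW0 : 0 < W := by linarith
  have hmax : 0 ≤ max C₁ (C₂ * Real.exp (6 * c)) := le_max_of_le_right (by positivity)
  by_cases hj : j = 0
  · subst hj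
    calc ∑ b ∈ D, rhoN N b ≤ C₂ :=
          (Finset.sum_le_sum_of_subset_of_nonneg hD fun b _ _ => rhoN_nonneg' N b).trans (hC₂ N hN)
      _ = C₂ * Real.exp (6 * c) * Real.exp (-(6 * c) * (2 : ℝ) ^ (0 : ℕ)) := by
          rw [mul_assoc, ← Real.exp_add]; simp
      _ ≤ _ := mul_le_mul_of_nonneg_right (le_max_right _ _) (Real.exp_nonneg _)
  · by_cases hz : 2 ≤ bZ W j
    · have hsub : D ⊆ N.divisors.filter (fun b : ℕ => W ^ (3 / 100 : ℝ) < (b : ℝ) ∧
          ∀ p ∈ b.primeFactors, (p : ℝ) < bZ W j) := fun b hb =>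
        Finset.mem_filter.2 ⟨hD hb, hprop b hb (Nat.pos_of_ne_zero hj)⟩
      refine (Finset.sum_le_sum_of_subset_of_nonneg hsub fun b _ _ => rhoN_nonneg' N b).trans ?_
      refine (hC₁ N _ _ hN hz (Real.one_le_rpow (by linarith) (by norm_num))).trans ?_
      have hlogW : Real.log W ≠ 0 := (Real.log_pos (by linarith)).ne'
      have e : -c * Real.log (W ^ (3 / 100 : ℝ)) / Real.log (bZ W j)
          = -(6 * c) * (2 : ℝ) ^ j := by
        rw [log_bZ hW0, Real.log_rpow hW0]
        field_simp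
        ring
      rw [e]
      exact mul_le_mul_of_nonneg_right (le_max_left _ _) (Real.exp_nonneg _)
    · have hE : D = ∅ := by
        refine Finset.eq_empty_of_forall_notMem fun b hb => ?_
        obtain ⟨h1, h2⟩ := hprop b hb (Nat.pos_of_ne_zero hj)
        have hb1 : (1 : ℝ) < b := lt_of_le_of_lt (Real.one_le_rpow (by linarith) (by norm_num)) h1
        have hb1' : 1 < b := by exact_mod_cast hb1
        obtain ⟨q, hq⟩ := Nat.nonempty_primeFactors.2 hb1'
        have := h2 q hq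
        have h2q : (2 : ℝ) ≤ q := by exact_mod_cast (Nat.prime_of_mem_primeFactors hq).two_le
        linarith
      rw [hE, Finset.sum_empty]
      positivity

lemma rough_omega {W : ℝ} (hW : 2 ≤ W) (j b : ℕ) (hb : 0 < b) (hbW : (b : ℝ) ≤ 2 * W)
    (hr : ∀ q : ℕ, q.Prime → (q : ℝ) < bZ W (j + 1) → ¬ q ∣ b) :
    (b.primeFactors.card : ℝ) ≤ 800 * (2 : ℝ) ^ j := by
  have hW0 : 0 < W := by linarith
  have hZ : 0 ≤ bZ W (j + 1) := Real.rpow_nonneg hW0.le _
  have h1 : bZ W (j + 1) ^ b.primeFactors.card ≤ (b : ℝ) := by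
    calc bZ W (j + 1) ^ b.primeFactors.card = ∏ _q ∈ b.primeFactors, bZ W (j + 1) := by simp
      _ ≤ ∏ q ∈ b.primeFactors, (q : ℝ) := by
          refine Finset.prod_le_prod (fun _ _ => hZ) fun q hq => ?_
          exact not_lt.1 fun h =>
            hr q (Nat.prime_of_mem_primeFactors hq) h (Nat.dvd_of_mem_primeFactors hq)
      _ ≤ (b : ℝ) := by
          rw [← Nat.cast_prod]
          exact_mod_cast Nat.le_of_dvd hb (Nat.prod_primeFactors_dvd b)
  have h2 : (b.primeFactors.card : ℝ) * (Real.log W / (200 * (2 : ℝ) ^ (j + 1)))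
      ≤ 2 * Real.log W := by
    rw [← log_bZ hW0, ← Real.log_pow]
    refine (Real.log_le_log (by unfold bZ; positivity) (h1.trans hbW)).trans ?_
    rw [Real.log_mul (by norm_num) hW0.ne']
    have := Real.log_le_log (by norm_num) hW
    linarith
  have hl : 0 < Real.log W := Real.log_pos (by linarith)
  rw [← mul_div_assoc, div_le_iff₀ (by positivity), pow_succ] at h2
  refine le_of_mul_le_mul_right ?_ hl
  linarith

/-- The contribution of one window and one class. -/
lemma class_bound :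
    ∃ C a : ℝ, 0 < C ∧ 0 < a ∧
      ∀ (N j B : ℕ) (A : ℤ) (ε c0 w W : ℝ) (T : Finset ℕ),
        0 < N → 2 ≤ W → 0 < B → (B : ℝ) ≤ W ^ (3 / 10 : ℝ) → IsCoprime A (B : ℤ) →
        (B : ℝ) * |ε| ≤ W ^ (-(3 / 10) : ℝ) → 0 < w → w ≤ 1 → T ⊆ N.divisors →
        (∀ b ∈ T, W ≤ (b : ℝ) ∧ (b : ℝ) < 2 * W ∧
          distInt (((A : ℝ) / B + ε) * b + c0) < w ∧ BClass W j b) →
        ∑ b ∈ T, rhoN N b ≤ C * ((4 : ℝ) ^ j * Real.exp (-a * (2 : ℝ) ^ j)) *
          ((w + (B : ℝ) ^ (-(19 / 50) : ℝ) * cutG ε w W) / Real.log W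
            + W ^ (-(1 / 8) : ℝ)) := by
  classical
  obtain ⟨C₁, hC10, hfib⟩ := fibre_count
  obtain ⟨C₂, a, hC20, ha, hsm⟩ := smooth_mass
  obtain ⟨C₃, hC30, hgm⟩ := gcd_moment
  refine ⟨3000000 * C₁ * (C₂ + C₃ + 1), a / 2, by positivity, by positivity, ?_⟩
  intro N j B A ε c0 w W T hN hW hB hBW hA hBε hw hw1 hT hprop
  have hW0 : 0 < W := by linarith
  have hW1 : 1 ≤ W := by linarith
  have hlogW : 0 < Real.log W := Real.log_pos (by linarith)
  set Z := bZ W (j + 1) with hZ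
  set z := max 2 ⌈Z⌉₊ with hz
  have hz2 : 2 ≤ z := le_max_left _ _
  have hZ0 : 0 < Z := Real.rpow_pos_of_pos hW0 _
  set D := N.divisors.filter (fun b : ℕ => (b : ℝ) ≤ W ^ (1 / 20 : ℝ) ∧
    (1 ≤ j → W ^ (3 / 100 : ℝ) < (b : ℝ) ∧ ∀ q ∈ b.primeFactors, (q : ℝ) < bZ W j)) with hD
  let R : ℕ → Finset ℕ := fun b1 => (Finset.range (⌈2 * W⌉₊ + 1)).filter (fun b2 =>
    W ≤ ((b1 * b2 : ℕ) : ℝ) ∧ ((b1 * b2 : ℕ) : ℝ) < 2 * W ∧
    (∀ q : ℕ, q.Prime → (q : ℝ) < Z → ¬ q ∣ b2) ∧
    distInt (((A : ℝ) / B + ε) * ((b1 * b2 : ℕ) : ℝ) + c0) < w)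
  have hcover : T ⊆ (D.sigma R).image (fun x => x.1 * x.2) := by
    intro b hb
    obtain ⟨hlo, hhi, hd, b1, b2, hbb, hb1, hb1X, hro, hsmo⟩ := hprop b hb
    refine Finset.mem_image.2 ⟨⟨b1, b2⟩, Finset.mem_sigma.2 ⟨?_, ?_⟩, hbb.symm⟩
    · refine Finset.mem_filter.2 ⟨Nat.mem_divisors.2 ⟨?_, hN.ne'⟩, hb1X, hsmo⟩
      exact (Dvd.intro b2 hbb.symm).trans (Nat.dvd_of_mem_divisors (hT hb))
    · subst hbb
      refine Finset.mem_filter.2 ⟨Finset.mem_range.2 (Nat.lt_succ_of_le ?_), hlo, hhi, hro, hd⟩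
      refine (Nat.le_mul_of_pos_left b2 hb1).trans ?_
      have := hhi.le.trans (Nat.le_ceil (2 * W))
      exact_mod_cast this
  have hDpos : ∀ b1 ∈ D, 0 < b1 := fun b1 h => Nat.pos_of_mem_divisors (Finset.mem_filter.1 h).1
  have hRpos : ∀ b1 : ℕ, ∀ b2 ∈ R b1, 0 < b2 := by
    intro b1 b2 h
    obtain ⟨_, h1, _⟩ := Finset.mem_filter.1 h
    by_contra h0
    obtain rfl : b2 = 0 := by omega
    simp at h1
    linarith
  set K := (4 : ℝ) ^ j with hK
  set G := cutG ε w W with hG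
  have hG0 : 0 ≤ G := cutG_nonneg hw.le hW0.le
  set x : ℕ → ℝ := fun b1 => ((B / Nat.gcd B b1 : ℕ) : ℝ) ^ (-(4 / 5) : ℝ) with hx
  set Wm := W ^ (-(1 / 8) : ℝ) with hWm
  have hone : ∀ b1 ∈ D, ∑ b2 ∈ R b1, Ph b2 / (b2 : ℝ)
      ≤ 3000000 * C₁ * K * ((w + x b1 * G) / Real.log W + Wm) := by
    intro b1 hb1
    have hb1p := hDpos b1 hb1
    have hb1r : (0 : ℝ) < b1 := by exact_mod_cast hb1p
    have hb1X := (Finset.mem_filter.1 hb1).2.1
    have hcount := hfib A B b1 z ε c0 w W (R b1) hB hA hb1p hz2 hw hW0.le (fun b hb => by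
      obtain ⟨_, h1, h2, h3, h4⟩ := Finset.mem_filter.1 hb
      refine ⟨h1, h2, fun p hp hpz => ?_, h4⟩
      rcases lt_max_iff.1 hpz with h | h
      · exact absurd hp.two_le (by omega)
      · exact h3 p hp (Nat.lt_ceil.1 h))
    have hterm : ∀ b2 ∈ R b1, Ph b2 / (b2 : ℝ) ≤ 801 * (2 : ℝ) ^ j * ((b1 : ℝ) / W) := by
      intro b2 hb2
      have hb2p := hRpos b1 b2 hb2
      have hb2r : (0 : ℝ) < b2 := by exact_mod_cast hb2p
      obtain ⟨_, h1, h2, h3, _⟩ := Finset.mem_filter.1 hb2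
      push_cast at h1 h2
      have hb2W : (b2 : ℝ) ≤ 2 * W := by
        refine le_trans ?_ h2.le
        exact le_mul_of_one_le_left hb2r.le (by exact_mod_cast hb1p)
      have hPh : Ph b2 ≤ 801 * (2 : ℝ) ^ j := by
        have := Ph_le_omega b2 hb2p
        have := rough_omega hW j b2 hb2p hb2W h3
        have : (1 : ℝ) ≤ (2 : ℝ) ^ j := one_le_pow₀ (by norm_num)
        linarith
      rw [div_eq_mul_one_div]
      refine mul_le_mul hPh ?_ (by positivity) (by positivity)
      rw [div_le_div_iff₀ hb2r hW0]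
      linarith
    refine (Finset.sum_le_card_nsmul _ _ _ hterm).trans ?_
    rw [nsmul_eq_mul]
    refine (mul_le_mul_of_nonneg_right hcount (by positivity)).trans ?_
    change C₁ * (W / b1 * (w + x b1 * G) / Real.log z
        + ((B : ℝ) * (|ε| * W + 2 * w) + 1 + (B : ℝ) ^ (1 / 10 : ℝ))
          * ((B : ℝ) ^ (1 / 10 : ℝ) + (z : ℝ) ^ 6)) * (801 * (2 : ℝ) ^ j * ((b1 : ℝ) / W)) ≤ _
    set P := (2 : ℝ) ^ j with hP
    have hP1 : 1 ≤ P := one_le_pow₀ (by norm_num)
    have hKP : K = P * P := by rw [hK, hP, ← mul_pow]; norm_num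
    have hlogz : Real.log W / (400 * P) ≤ Real.log z := by
      have : Real.log Z ≤ Real.log z := by
        refine Real.log_le_log hZ0 ((Nat.le_ceil Z).trans ?_)
        exact_mod_cast le_max_right _ _
      rw [hZ, log_bZ hW0, pow_succ] at this
      refine le_trans (le_of_eq ?_) this
      rw [hP]; ring
    have hx0 : 0 ≤ x b1 := Real.rpow_nonneg (Nat.cast_nonneg _) _
    have hmain : W / b1 * (w + x b1 * G) / Real.log z * (801 * P * ((b1 : ℝ) / W))
        ≤ 801 * 400 * K * ((w + x b1 * G) / Real.log W) := by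
      calc W / b1 * (w + x b1 * G) / Real.log z * (801 * P * ((b1 : ℝ) / W))
          = 801 * P * ((w + x b1 * G) / Real.log z) := by field_simp
        _ ≤ 801 * P * ((w + x b1 * G) / (Real.log W / (400 * P))) := by gcongr
        _ = _ := by rw [hKP]; field_simp
    have herr : ((B : ℝ) * (|ε| * W + 2 * w) + 1 + (B : ℝ) ^ (1 / 10 : ℝ))
          * ((B : ℝ) ^ (1 / 10 : ℝ) + (z : ℝ) ^ 6) * (801 * P * ((b1 : ℝ) / W))
        ≤ 5 * 730 * 801 * K * Wm := by
      have hmono : ∀ u v : ℝ, u ≤ v → W ^ u ≤ W ^ v :=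
        fun u v h => Real.rpow_le_rpow_of_exponent_le hW1 h
      have hB10 : (B : ℝ) ^ (1 / 10 : ℝ) ≤ W ^ (3 / 100 : ℝ) := by
        refine (Real.rpow_le_rpow (Nat.cast_nonneg _) hBW (by norm_num)).trans (le_of_eq ?_)
        rw [← Real.rpow_mul hW0.le]; norm_num
      have h70 : 1 ≤ W ^ (7 / 10 : ℝ) := Real.one_le_rpow hW1 (by norm_num)
      have f1 : (B : ℝ) * (|ε| * W + 2 * w) + 1 + (B : ℝ) ^ (1 / 10 : ℝ)
          ≤ 5 * W ^ (7 / 10 : ℝ) := by
        have h1 : (B : ℝ) * |ε| * W ≤ W ^ (7 / 10 : ℝ) := by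
          refine (mul_le_mul_of_nonneg_right hBε hW0.le).trans (le_of_eq ?_)
          nth_rw 2 [← Real.rpow_one W]
          rw [← Real.rpow_add hW0]; norm_num
        have h2 : (B : ℝ) * w ≤ W ^ (7 / 10 : ℝ) :=
          ((mul_le_of_le_one_right (Nat.cast_nonneg _) hw1).trans hBW).trans
            (hmono _ _ (by norm_num))
        have h3 := hB10.trans (hmono (3 / 100) (7 / 10) (by norm_num))
        linarith
      have hzle : (z : ℝ) ≤ 3 * W ^ (1 / 400 : ℝ) := by
        have h1 : (z : ℝ) ≤ Z + 2 := by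
          have := (Nat.ceil_lt_add_one hZ0.le).le
          simp only [hz, Nat.cast_max, Nat.cast_ofNat, max_le_iff]
          constructor <;> linarith
        have h2 : Z ≤ W ^ (1 / 400 : ℝ) := by
          refine hmono _ _ ?_
          rw [pow_succ, div_le_div_iff₀ (by positivity) (by norm_num)]
          linarith
        have h3 : 1 ≤ W ^ (1 / 400 : ℝ) := Real.one_le_rpow hW1 (by norm_num)
        linarith
      have f2 : (B : ℝ) ^ (1 / 10 : ℝ) + (z : ℝ) ^ 6 ≤ 730 * W ^ (3 / 100 : ℝ) := by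
        have h1 : (z : ℝ) ^ 6 ≤ 729 * W ^ (3 / 100 : ℝ) := by
          refine (pow_le_pow_left₀ (Nat.cast_nonneg _) hzle 6).trans ?_
          rw [mul_pow, ← Real.rpow_natCast (W ^ (1 / 400 : ℝ)), ← Real.rpow_mul hW0.le]
          have := hmono (1 / 400 * ((6 : ℕ) : ℝ)) (3 / 100) (by norm_num)
          norm_num at this ⊢
          linarith
        linarith
      have f3 : (b1 : ℝ) / W ≤ W ^ (-(19 / 20) : ℝ) := by
        rw [div_le_iff₀ hW0]
        refine hb1X.trans (le_of_eq ?_)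
        nth_rw 3 [← Real.rpow_one W]
        rw [← Real.rpow_add hW0]; norm_num
      have hPK : P ≤ K := hKP ▸ le_mul_of_one_le_left (by linarith) hP1
      calc ((B : ℝ) * (|ε| * W + 2 * w) + 1 + (B : ℝ) ^ (1 / 10 : ℝ))
            * ((B : ℝ) ^ (1 / 10 : ℝ) + (z : ℝ) ^ 6) * (801 * P * ((b1 : ℝ) / W))
          ≤ 5 * W ^ (7 / 10 : ℝ) * (730 * W ^ (3 / 100 : ℝ))
            * (801 * K * W ^ (-(19 / 20) : ℝ)) := by gcongr
        _ = 5 * 730 * 801 * K * W ^ (-(11 / 50) : ℝ) := by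
            rw [show (-(11 / 50) : ℝ) = 7 / 10 + 3 / 100 + -(19 / 20) by norm_num,
              Real.rpow_add hW0, Real.rpow_add hW0]
            ring
        _ ≤ _ := by
            gcongr
            exact hmono _ _ (by norm_num)
    have hA0 : 0 ≤ K * ((w + x b1 * G) / Real.log W) := by positivity
    have hB0 : 0 ≤ K * Wm := by positivity
    have hm := mul_le_mul_of_nonneg_left (add_le_add hmain herr) hC10.le
    have h1 : C₁ * (801 * 400 * K * ((w + x b1 * G) / Real.log W) + 5 * 730 * 801 * K * Wm)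
        ≤ 3000000 * C₁ * K * ((w + x b1 * G) / Real.log W + Wm) := by
      calc _ ≤ C₁ * (3000000 * (K * ((w + x b1 * G) / Real.log W)) + 3000000 * (K * Wm)) :=
            mul_le_mul_of_nonneg_left (by linarith) hC10.le
        _ = _ := by ring
    refine le_trans (le_of_eq ?_) (hm.trans h1)
    ring
  set lam := (B : ℝ) ^ (-(19 / 50) : ℝ) * Real.exp (a / 2 * (2 : ℝ) ^ j) with hlam
  have hlam0 : 0 < lam := mul_pos (Real.rpow_pos_of_pos (by exact_mod_cast hB) _) (Real.exp_pos _)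
  set S1 := ∑ b1 ∈ D, rhoN N b1 with hS1
  have hs1 : S1 ≤ C₂ * Real.exp (-a * (2 : ℝ) ^ j) :=
    hsm N j W D hN hW (Finset.filter_subset _ _) (fun b hb => (Finset.mem_filter.1 hb).2.2)
  have hs2 : ∑ b1 ∈ D, rhoN N b1 * x b1
      ≤ (C₂ + C₃) * ((B : ℝ) ^ (-(19 / 50) : ℝ) * Real.exp (-(a / 2) * (2 : ℝ) ^ j)) := by
    have h1 : ∀ b1 ∈ D, rhoN N b1 * x b1
        ≤ lam * rhoN N b1 + lam⁻¹ * (rhoN N b1 * x b1) := by
      intro b1 _
      have hx0 : 0 ≤ x b1 := Real.rpow_nonneg (Nat.cast_nonneg _) _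
      have hx1 : x b1 ≤ 1 := by
        refine Real.rpow_le_one_of_one_le_of_nonpos ?_ (by norm_num)
        exact_mod_cast Nat.one_le_div_iff (Nat.gcd_pos_of_pos_left _ hB) |>.2
          (Nat.le_of_dvd hB (Nat.gcd_dvd_left B b1))
      have hρ := rhoN_nonneg' N b1
      rcases le_total (x b1) lam with h | h
      · have := mul_le_mul_of_nonneg_left h hρ
        have : 0 ≤ lam⁻¹ * (rhoN N b1 * x b1) := by positivity
        linarith
      · have hl : 1 ≤ lam⁻¹ := (one_le_inv₀ hlam0).2 (h.trans hx1)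
        have := mul_le_mul_of_nonneg_right hl (mul_nonneg hρ hx0)
        have : 0 ≤ lam * rhoN N b1 := by positivity
        linarith
    refine (Finset.sum_le_sum h1).trans ?_
    rw [Finset.sum_add_distrib, ← Finset.mul_sum, ← Finset.mul_sum]
    have h2 : ∑ b1 ∈ D, rhoN N b1 * x b1 ≤ C₃ * (B : ℝ) ^ (-(19 / 25) : ℝ) :=
      (Finset.sum_le_sum_of_subset_of_nonneg (Finset.filter_subset _ _) fun b _ _ =>
        mul_nonneg (rhoN_nonneg' N b) (Real.rpow_nonneg (Nat.cast_nonneg _) _)).trans (hgm N B hN hB)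
    refine (add_le_add (mul_le_mul_of_nonneg_left hs1 hlam0.le)
      (mul_le_mul_of_nonneg_left h2 (inv_nonneg.2 hlam0.le))).trans (le_of_eq ?_)
    have hBr : (0 : ℝ) < B := by exact_mod_cast hB
    have e1 : lam * Real.exp (-a * (2 : ℝ) ^ j)
        = (B : ℝ) ^ (-(19 / 50) : ℝ) * Real.exp (-(a / 2) * (2 : ℝ) ^ j) := by
      rw [hlam, mul_assoc, ← Real.exp_add]
      ring_nf
    have e2 : lam⁻¹ * (B : ℝ) ^ (-(19 / 25) : ℝ)
        = (B : ℝ) ^ (-(19 / 50) : ℝ) * Real.exp (-(a / 2) * (2 : ℝ) ^ j) := by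
      rw [hlam, neg_mul, Real.exp_neg, mul_inv,
        show (-(19 / 25) : ℝ) = -(19 / 50) + -(19 / 50) by norm_num, Real.rpow_add hBr]
      field_simp
    calc lam * (C₂ * Real.exp (-a * (2 : ℝ) ^ j)) + lam⁻¹ * (C₃ * (B : ℝ) ^ (-(19 / 25) : ℝ))
        = C₂ * (lam * Real.exp (-a * (2 : ℝ) ^ j))
          + C₃ * (lam⁻¹ * (B : ℝ) ^ (-(19 / 25) : ℝ)) := by ring
      _ = _ := by rw [e1, e2]; ring
  calc ∑ b ∈ T, rhoN N b
      ≤ ∑ b ∈ (D.sigma R).image (fun x => x.1 * x.2), rhoN N b :=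
        Finset.sum_le_sum_of_subset_of_nonneg hcover fun b _ _ => rhoN_nonneg' N b
    _ ≤ ∑ p ∈ D.sigma R, rhoN N (p.1 * p.2) :=
        Finset.sum_image_le_of_nonneg fun b _ => rhoN_nonneg' N b
    _ = ∑ b1 ∈ D, ∑ b2 ∈ R b1, rhoN N (b1 * b2) := Finset.sum_sigma _ _ _
    _ ≤ ∑ b1 ∈ D, rhoN N b1 * (3000000 * C₁ * K * ((w + x b1 * G) / Real.log W + Wm)) := by
        refine Finset.sum_le_sum fun b1 hb1 => ?_
        refine (Finset.sum_le_sum fun b2 hb2 =>
          rhoN_mul_le N b1 b2 (hDpos b1 hb1) (hRpos b1 b2 hb2)).trans ?_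
        rw [← Finset.mul_sum]
        exact mul_le_mul_of_nonneg_left (hone b1 hb1) (rhoN_nonneg' N b1)
    _ = 3000000 * C₁ * K *
          ((w * S1 + G * ∑ b1 ∈ D, rhoN N b1 * x b1) / Real.log W + Wm * S1) := by
        rw [hS1]
        simp only [Finset.mul_sum, Finset.sum_div, ← Finset.sum_add_distrib]
        exact Finset.sum_congr rfl fun b1 _ => by ring
    _ ≤ 3000000 * C₁ * K * ((w * ((C₂ + C₃ + 1) * Real.exp (-(a / 2) * (2 : ℝ) ^ j))
          + G * ((C₂ + C₃ + 1) * ((B : ℝ) ^ (-(19 / 50) : ℝ) * Real.exp (-(a / 2) * (2 : ℝ) ^ j))))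
            / Real.log W + Wm * ((C₂ + C₃ + 1) * Real.exp (-(a / 2) * (2 : ℝ) ^ j))) := by
        have hexp : Real.exp (-a * (2 : ℝ) ^ j) ≤ Real.exp (-(a / 2) * (2 : ℝ) ^ j) := by
          refine Real.exp_le_exp.2 (mul_le_mul_of_nonneg_right ?_ (by positivity))
          linarith
        have hS : S1 ≤ (C₂ + C₃ + 1) * Real.exp (-(a / 2) * (2 : ℝ) ^ j) :=
          hs1.trans (mul_le_mul (by linarith) hexp (Real.exp_nonneg _) (by positivity))
        have hX : ∑ b1 ∈ D, rhoN N b1 * x b1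
            ≤ (C₂ + C₃ + 1) * ((B : ℝ) ^ (-(19 / 50) : ℝ)
              * Real.exp (-(a / 2) * (2 : ℝ) ^ j)) :=
          hs2.trans (mul_le_mul_of_nonneg_right (by linarith) (by positivity))
        gcongr
    _ = _ := by ring

lemma decay_sum {a : ℝ} (ha : 0 < a) (J : ℕ) :
    ∑ j ∈ Finset.range J, (4 : ℝ) ^ j * Real.exp (-a * (2 : ℝ) ^ j) ≤ 12 / a ^ 3 := by
  have h1 : ∀ j ∈ Finset.range J,
      (4 : ℝ) ^ j * Real.exp (-a * (2 : ℝ) ^ j) ≤ 6 / a ^ 3 * (1 / 2) ^ j := by
    intro j _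
    have h := Real.pow_div_factorial_le_exp (a * (2 : ℝ) ^ j) (by positivity) 3
    rw [neg_mul, Real.exp_neg, ← div_eq_mul_inv, div_le_iff₀ (Real.exp_pos _)]
    refine le_trans (le_of_eq ?_) (mul_le_mul_of_nonneg_left h (by positivity))
    simp only [Nat.factorial]
    push_cast
    rw [show (4 : ℝ) ^ j = 2 ^ j * 2 ^ j by rw [← mul_pow]; norm_num, div_pow, one_pow]
    field_simp
  refine (Finset.sum_le_sum h1).trans ?_
  rw [← Finset.mul_sum]
  refine (mul_le_mul_of_nonneg_left (sum_geometric_two_le J) (by positivity)).trans (le_of_eq ?_)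
  ring

lemma exists_approx' (α Q : ℝ) (hQ : 1 ≤ Q) :
    ∃ (A : ℤ) (B : ℕ) (ε : ℝ), 0 < B ∧ (B : ℝ) ≤ Q ∧ IsCoprime A (B : ℤ) ∧
      α = (A : ℝ) / B + ε ∧ (B : ℝ) * |ε| ≤ Q⁻¹ := by
  have hn : 0 < ⌊Q⌋₊ := Nat.floor_pos.2 hQ
  obtain ⟨q, hq1, hq2⟩ := Real.exists_rat_abs_sub_le_and_den_le α hn
  have hd : (0 : ℝ) < q.den := by exact_mod_cast q.den_pos
  refine ⟨q.num, q.den, α - q, q.den_pos, ?_, ?_, ?_, ?_⟩
  · exact le_trans (by exact_mod_cast hq2) (Nat.floor_le (by linarith))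
  · exact Rat.isCoprime_num_den q
  · rw [Rat.cast_def]; ring
  · rw [mul_comm, ← le_div_iff₀ hd]
    refine hq1.trans ?_
    rw [← div_div, ← one_div]
    gcongr
    exact (Nat.lt_floor_add_one Q).le

lemma T_rpow_ge {s t T : ℝ} (hs0 : 0 < s) (hs1 : s ≤ 1 / 4) (hT : 1 ≤ T)
    (hTt : T ≤ Real.exp (t / 5000)) : Real.exp (-(t / 160000)) ≤ T ^ (-(s / 8)) := by
  have hT0 : 0 < T := by linarith
  rw [Real.rpow_def_of_pos hT0]
  refine Real.exp_le_exp.2 ?_
  have h1 : Real.log T ≤ t / 5000 := by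
    have := Real.log_le_log hT0 hTt
    rwa [Real.log_exp] at this
  have h2 : 0 ≤ Real.log T := Real.log_nonneg hT
  have h3 := mul_le_mul_of_nonneg_left (show s / 8 ≤ 1 / 32 by linarith) h2
  linarith

theorem b_window (s : ℝ) (hs0 : 0 < s) (hs1 : s ≤ 1 / 4) :
    ∃ C t0 : ℝ, ∀ (t : ℝ) (N : ℕ) (α c0 w T : ℝ) (S : Finset ℕ),
      t0 ≤ t → 0 < N → 1 ≤ T → T ≤ Real.exp (t / 5000) → 0 < w → w ≤ T ^ (-(1 / 2 : ℝ)) →
      (c0 = 0 ∨ Real.exp (-t / 500) ≤ w) →
      S ⊆ N.divisors →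
      (∀ b ∈ S, (b : ℝ) ≤ Real.exp (2 * t) ∧
        (Real.exp (t / 50) ≤ (b : ℝ) ∨ (c0 = 0 ∧ w ≤ Real.exp (-t / 5))) ∧
        distInt (α * b + c0) < w ∧
        ¬ ∃ B : ℕ, 1 ≤ B ∧ (B : ℝ) ≤ C * T ^ s ∧ distInt (α * B) ≤ C * T ^ s * w / b) →
      ∑ b ∈ S, rhoN N b ≤ C * T ^ (-(s / 8)) := by
  classical
  obtain ⟨Cc, a, hCc, ha, hclass⟩ := class_bound
  obtain ⟨Cd, hCd, hdvd⟩ := rho_dvd_rpow
  obtain ⟨Cp₀, hpp₀⟩ := rho_prime_pow_le
  set Cp := max Cp₀ 0
  set Kc := Cc * (12 / a ^ 3) with hKc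
  refine ⟨4 + Cd + Cp + Kc * (3 * 500 + 5 * 1600), 400, ?_⟩
  intro t N α c0 w T S ht hN hT hTt hw hwT _ hS hprop
  set C := 4 + Cd + Cp + Kc * (3 * 500 + 5 * 1600) with hCdef
  have hKc0 : 0 ≤ Kc := by positivity
  have hCp0 : 0 ≤ Cp := le_max_right _ _
  have hC4 : 4 ≤ C := by
    rw [hCdef]; nlinarith [hCd.le]
  have hT0 : 0 < T := by linarith
  have hTs : 1 ≤ T ^ s := Real.one_le_rpow hT hs0.le
  set g := T ^ (-(s / 8)) with hg
  have hg0 : 0 < g := Real.rpow_pos_of_pos hT0 _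
  have hTge := T_rpow_ge hs0 hs1 hT hTt
  have hwg : w ≤ g := hwT.trans (Real.rpow_le_rpow_of_exponent_le hT (by linarith))
  have hw1 : w ≤ 1 := hwT.trans (Real.rpow_le_one_of_one_le_of_nonpos hT (by norm_num))
  -- small b
  set S₁ := S.filter (fun b : ℕ => ¬ Real.exp (t / 50) ≤ (b : ℝ))
  -- large b
  set S₂ := S.filter (fun b : ℕ => Real.exp (t / 50) ≤ (b : ℝ))
  set Pp := N.divisors.filter (fun b : ℕ => ∃ p ∈ b.primeFactors, 2 ≤ b.factorization p ∧
    Real.exp (t / 5000) < ((p ^ b.factorization p : ℕ) : ℝ))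
  set S₃ := S₂.filter (fun b => b ∉ Pp)
  have h₁ : ∑ b ∈ S₁, rhoN N b ≤ Cd * g := by
    rcases S₁.eq_empty_or_nonempty with h | ⟨b0, hb0⟩
    · rw [h, Finset.sum_empty]; positivity
    obtain ⟨A, B, ε, hB, hBQ, hA, hα, hBε⟩ :=
      exists_approx' α (Real.exp (t / 10)) (Real.one_le_exp (by linarith))
    have hBr : (0 : ℝ) < B := by exact_mod_cast hB
    have key : ∀ b ∈ S₁, B ∣ b ∧ T ^ s < (B : ℝ) := by
      intro b hb
      obtain ⟨hbS, hsmall⟩ := Finset.mem_filter.1 hb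
      obtain ⟨_, hor, hd, hres⟩ := hprop b hbS
      obtain ⟨hc, hwt⟩ := hor.resolve_left hsmall
      push Not at hsmall
      subst hc
      rw [add_zero] at hd
      set m := round (α * b) with hm
      have hd' : |α * b - m| < w := hd
      have hbr : (0 : ℝ) ≤ b := Nat.cast_nonneg b
      have h1 : |((A * b - m * B : ℤ) : ℝ)| < 1 := by
        have e : ((A * b - m * B : ℤ) : ℝ)
            = (B : ℝ) * (α * b - m) - (b : ℝ) * ((B : ℝ) * ε) := by
          rw [hα]; push_cast; field_simp; ring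
        rw [e]
        refine lt_of_le_of_lt (abs_sub _ _) ?_
        rw [abs_mul, abs_mul (b : ℝ), abs_mul (B : ℝ) ε, Nat.abs_cast, Nat.abs_cast]
        have h2 : (B : ℝ) * |α * b - m| ≤ Real.exp (t / 10) * Real.exp (-t / 5) :=
          mul_le_mul hBQ (hd'.le.trans hwt) (abs_nonneg _) (Real.exp_nonneg _)
        have h3 : (b : ℝ) * ((B : ℝ) * |ε|) ≤ Real.exp (t / 50) * (Real.exp (t / 10))⁻¹ :=
          mul_le_mul hsmall.le hBε (by positivity) (Real.exp_nonneg _)
        rw [← Real.exp_add] at h2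
        rw [← Real.exp_neg, ← Real.exp_add] at h3
        have h4 : Real.exp (t / 10 + -t / 5) ≤ Real.exp (-2) := Real.exp_le_exp.2 (by linarith)
        have h5 : Real.exp (t / 50 + -(t / 10)) ≤ Real.exp (-2) := Real.exp_le_exp.2 (by linarith)
        have h6 : Real.exp (-2) < 1 / 2 := by
          rw [Real.exp_neg, one_div]
          refine inv_strictAnti₀ (by norm_num) ?_
          have := Real.add_one_le_exp (2 : ℝ)
          linarith
        linarith
      have h0 : A * b - m * B = 0 := by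
        have : |A * b - m * B| < 1 := by exact_mod_cast h1
        exact Int.abs_lt_one_iff.1 this
      have hdiv : B ∣ b := by
        have : (B : ℤ) ∣ A * b := ⟨m, by linear_combination h0⟩
        exact_mod_cast hA.symm.dvd_of_dvd_mul_left this
      refine ⟨hdiv, not_le.1 fun hBT => hres ⟨B, hB, ?_, ?_⟩⟩
      · exact hBT.trans (le_mul_of_one_le_left (by linarith) (by linarith))
      · have hb0' : (0 : ℝ) < b := by exact_mod_cast Nat.pos_of_mem_divisors (hS hbS)
        have hεb : |ε| * b < w := by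
          refine lt_of_eq_of_lt ?_ hd'
          rw [← abs_of_nonneg hbr, ← abs_mul]
          congr 1
          have h0' : (A : ℝ) * b - m * B = 0 := by exact_mod_cast h0
          rw [hα, abs_of_nonneg hbr]
          field_simp
          linear_combination -h0'
        calc distInt (α * B) ≤ |α * B - (A : ℝ)| := round_le _ A
          _ = (B : ℝ) * |ε| := by
              rw [← abs_of_nonneg hBr.le, ← abs_mul, abs_of_nonneg hBr.le, hα]
              congr 1
              field_simp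
              ring
          _ ≤ T ^ s * w / b := by
              rw [le_div_iff₀ hb0', mul_assoc]
              exact mul_le_mul hBT hεb.le (by positivity) (by linarith)
          _ ≤ C * T ^ s * w / b := by
              gcongr
              exact le_mul_of_one_le_left (by linarith) (by linarith)
    have hsub : S₁ ⊆ N.divisors.filter (fun b => B ∣ b) := fun b hb =>
      Finset.mem_filter.2 ⟨hS (Finset.mem_filter.1 hb).1, (key b hb).1⟩
    refine ((Finset.sum_le_sum_of_subset_of_nonneg hsub fun b _ _ => rhoN_nonneg' N b).trans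
      (hdvd N B hN hB)).trans (mul_le_mul_of_nonneg_left ?_ hCd.le)
    refine (Real.rpow_le_rpow_of_nonpos (by positivity) (key b0 hb0).2.le (by norm_num)).trans ?_
    rw [← Real.rpow_mul hT0.le]
    exact Real.rpow_le_rpow_of_exponent_le hT (by linarith)
  have h₂ : ∑ b ∈ Pp, rhoN N b ≤ Cp * g := by
    refine (hpp₀ N _ hN (Real.one_le_exp (by linarith))).trans ?_
    refine mul_le_mul (le_max_left _ _) ?_ (Real.rpow_nonneg (Real.exp_nonneg _) _) hCp0
    rw [← Real.exp_mul]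
    exact le_trans (Real.exp_le_exp.2 (by linarith)) hTge
  have h₃ : ∑ b ∈ S₃, rhoN N b ≤ Kc * (3 * 500 + 5 * 1600) * g := by
    set n := ⌊4 * t⌋₊ + 1 with hn
    have hwin : ∀ i ∈ Finset.range n, ∑ b ∈ S₃.filter (fun b => Nat.log 2 b = i), rhoN N b
        ≤ Kc * (3 * (100 / t) * g + Real.exp (-(t / 800))) := by
      intro i _
      set U := S₃.filter (fun b => Nat.log 2 b = i) with hU
      rcases U.eq_empty_or_nonempty with h | ⟨b0, hb0⟩
      · rw [h, Finset.sum_empty]; positivity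
      set W := (2 : ℝ) ^ i with hW
      have hmem : ∀ b ∈ U, b ∈ S ∧ Real.exp (t / 50) ≤ (b : ℝ) ∧ b ∉ Pp ∧
          W ≤ (b : ℝ) ∧ (b : ℝ) < 2 * W := by
        intro b hb
        obtain ⟨hb3, hi⟩ := Finset.mem_filter.1 hb
        obtain ⟨hb2, hnp⟩ := Finset.mem_filter.1 hb3
        obtain ⟨hbS, hbig⟩ := Finset.mem_filter.1 hb2
        have hb0 : b ≠ 0 := (Nat.pos_of_mem_divisors (hS hbS)).ne'
        refine ⟨hbS, hbig, hnp, ?_, ?_⟩
        · rw [hW, ← hi]
          exact_mod_cast Nat.pow_log_le_self 2 hb0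
        · rw [hW, ← hi, ← pow_succ']
          exact_mod_cast Nat.lt_pow_succ_log_self one_lt_two b
      obtain ⟨hb0S, hb0big, _, _, hb0hi⟩ := hmem b0 hb0
      have hWt : Real.exp (t / 100) ≤ W := by
        have h1 : Real.exp (t / 100) * 2 ≤ Real.exp (t / 50) := by
          have e : Real.exp (t / 50) = Real.exp (t / 100) * Real.exp (t / 100) := by
            rw [← Real.exp_add]; ring_nf
          rw [e]
          refine mul_le_mul_of_nonneg_left ?_ (Real.exp_nonneg _)
          have := Real.add_one_le_exp (t / 100)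
          linarith
        linarith
      have hW2 : 2 ≤ W := by
        have := Real.add_one_le_exp (t / 100)
        linarith
      have hW0 : 0 < W := by linarith
      have hlogW : t / 100 ≤ Real.log W := by
        have := Real.log_le_log (Real.exp_pos _) hWt
        rwa [Real.log_exp] at this
      obtain ⟨A, B, ε, hB, hBQ, hA, hα, hBε⟩ :=
        exists_approx' α (W ^ (3 / 10 : ℝ)) (Real.one_le_rpow (by linarith) (by norm_num))
      rw [← Real.rpow_neg hW0.le] at hBε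
      have hBr : (0 : ℝ) < B := by exact_mod_cast hB
      set G := cutG ε w W with hG
      have hgain : (B : ℝ) ^ (-(19 / 50) : ℝ) * G ≤ 2 * g := by
        by_contra hcon
        push Not at hcon
        have hG2 : G ≤ 2 := cutG_le_two hW0.le
        have hG0 : 0 ≤ G := cutG_nonneg hw.le hW0.le
        have hB1 : (B : ℝ) ^ (-(19 / 50) : ℝ) ≤ 1 :=
          Real.rpow_le_one_of_one_le_of_nonpos (by exact_mod_cast hB) (by norm_num)
        have hgG : 2 * g < G := lt_of_lt_of_le hcon (mul_le_of_le_one_left hG0 hB1)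
        have hgB : g < (B : ℝ) ^ (-(19 / 50) : ℝ) := by
          have := mul_le_mul_of_nonneg_left hG2 (Real.rpow_nonneg hBr.le (-(19 / 50) : ℝ))
          linarith
        have hBs : (B : ℝ) ≤ T ^ (25 * s / 76) := by
          by_contra hB'
          push Not at hB'
          have := Real.rpow_lt_rpow_of_neg (Real.rpow_pos_of_pos hT0 _) hB'
            (show (-(19 / 50) : ℝ) < 0 by norm_num)
          rw [← Real.rpow_mul hT0.le] at this
          have e : g = T ^ (25 * s / 76 * -(19 / 50)) := by rw [hg]; ring_nf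
          linarith
        have hεW : |ε| * W ≤ T ^ (s / 8) * w := by
          have h1 : 1 ≤ T ^ (s / 8) := Real.one_le_rpow hT (by linarith)
          rw [hG] at hgG
          unfold cutG at hgG
          split_ifs at hgG with hcase
          · exact hcase.trans (le_mul_of_one_le_left hw.le h1)
          · push Not at hcase
            rw [lt_div_iff₀ (hw.trans hcase)] at hgG
            have e : g * T ^ (s / 8) = 1 := by
              rw [hg, ← Real.rpow_add hT0]; simp
            have := mul_le_mul_of_nonneg_right hgG.le (show 0 ≤ T ^ (s / 8) by positivity)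
            have e2 : 2 * g * (|ε| * W) * T ^ (s / 8) = 2 * (|ε| * W) := by
              calc 2 * g * (|ε| * W) * T ^ (s / 8) = 2 * (|ε| * W) * (g * T ^ (s / 8)) := by ring
                _ = _ := by rw [e, mul_one]
            linarith
        obtain ⟨hbS, _, _, hlo, hhi⟩ := hmem b0 hb0
        refine (hprop b0 hbS).2.2.2 ⟨B, hB, ?_, ?_⟩
        · refine hBs.trans ((Real.rpow_le_rpow_of_exponent_le hT
            (show 25 * s / 76 ≤ s by linarith)).trans ?_)
          exact le_mul_of_one_le_left (by linarith) (by linarith)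
        · have hb0' : (0 : ℝ) < b0 := by linarith
          calc distInt (α * B) ≤ |α * B - (A : ℝ)| := round_le _ A
            _ = (B : ℝ) * |ε| := by
                rw [← abs_of_nonneg hBr.le, ← abs_mul, abs_of_nonneg hBr.le, hα]
                congr 1
                field_simp
                ring
            _ ≤ T ^ (25 * s / 76) * (T ^ (s / 8) * w / W) :=
                mul_le_mul hBs ((le_div_iff₀ hW0).2 hεW) (abs_nonneg _) (by positivity)
            _ = T ^ (25 * s / 76 + s / 8) * (w / W) := by rw [Real.rpow_add hT0]; ring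
            _ ≤ T ^ s * (2 * w / b0) := by
                refine mul_le_mul (Real.rpow_le_rpow_of_exponent_le hT (by linarith)) ?_
                  (by positivity) (by positivity)
                rw [div_le_div_iff₀ hW0 hb0']
                have := mul_le_mul_of_nonneg_left hhi.le hw.le
                linarith
            _ ≤ _ := by
                rw [← mul_div_assoc]
                refine div_le_div_of_nonneg_right ?_ hb0'.le
                have := mul_le_mul_of_nonneg_right (show (2 : ℝ) ≤ C by linarith)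
                  (show 0 ≤ T ^ s * w by positivity)
                linarith
      set J := ⌊Real.log W⌋₊ + 1 with hJ
      have hcov : ∀ b ∈ U, ∃ j ∈ Finset.range J, BClass W j b := by
        intro b hb
        obtain ⟨hbS, _, hnp, hlo, _⟩ := hmem b hb
        obtain ⟨j, hj, hcl⟩ := classify hW2 hlo (fun p hp he => by
          by_contra hcon
          push Not at hcon
          refine hnp (Finset.mem_filter.2 ⟨hS hbS, p, hp, he, lt_of_le_of_lt ?_ hcon⟩)
          refine le_trans (le_of_eq ?_) (Real.rpow_le_rpow (Real.exp_nonneg _) hWt (by norm_num))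
          rw [← Real.exp_mul]; ring_nf)
        exact ⟨j, Finset.mem_range.2 hj, hcl⟩
      choose! f hf hfc using hcov
      rw [← Finset.sum_fiberwise_of_maps_to hf]
      have hper : ∀ j ∈ Finset.range J, ∑ b ∈ U.filter (fun b => f b = j), rhoN N b
          ≤ Cc * ((4 : ℝ) ^ j * Real.exp (-a * (2 : ℝ) ^ j)) *
            (3 * (100 / t) * g + Real.exp (-(t / 800))) := by
        intro j _
        have hU1 : U.filter (fun b => f b = j) ⊆ N.divisors := fun b hb =>
          hS (hmem b (Finset.mem_filter.1 hb).1).1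
        refine (hclass N j B A ε c0 w W _ hN hW2 hB hBQ hA hBε hw hw1 hU1 (fun b hb => ?_)).trans ?_
        · obtain ⟨hb1, hb2⟩ := Finset.mem_filter.1 hb
          obtain ⟨hbS, _, _, hlo, hhi⟩ := hmem b hb1
          refine ⟨hlo, hhi, ?_, hb2 ▸ hfc b hb1⟩
          rw [← hα]
          exact (hprop b hbS).2.2.1
        · refine mul_le_mul_of_nonneg_left (add_le_add ?_ ?_) (by positivity)
          · calc (w + (B : ℝ) ^ (-(19 / 50) : ℝ) * cutG ε w W) / Real.log W
                ≤ 3 * g / (t / 100) := by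
                  refine div_le_div₀ (by positivity) ?_ (by linarith) hlogW
                  linarith
              _ = _ := by ring
          · refine (Real.rpow_le_rpow_of_nonpos (Real.exp_pos _) hWt (by norm_num)).trans
              (le_of_eq ?_)
            rw [← Real.exp_mul]; ring_nf
      refine (Finset.sum_le_sum hper).trans ?_
      rw [← Finset.sum_mul, ← Finset.mul_sum, hKc]
      exact mul_le_mul_of_nonneg_right (mul_le_mul_of_nonneg_left (decay_sum ha J) hCc.le)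
        (by positivity)
    have hmap : ∀ b ∈ S₃, Nat.log 2 b ∈ Finset.range n := by
      intro b hb
      obtain ⟨hb2, _⟩ := Finset.mem_filter.1 hb
      obtain ⟨hbS, _⟩ := Finset.mem_filter.1 hb2
      have hb0 : b ≠ 0 := (Nat.pos_of_mem_divisors (hS hbS)).ne'
      have h1 : ((2 : ℝ) ^ Nat.log 2 b) ≤ (b : ℝ) := by exact_mod_cast Nat.pow_log_le_self 2 hb0
      have h2 := Real.log_le_log (by positivity) (h1.trans (hprop b hbS).1)
      rw [Real.log_pow, Real.log_exp] at h2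
      have h3 := mul_le_mul_of_nonneg_left Real.log_two_gt_d9.le
        (Nat.cast_nonneg (α := ℝ) (Nat.log 2 b))
      exact Finset.mem_range.2 (Nat.lt_succ_of_le (Nat.le_floor (by linarith)))
    rw [← Finset.sum_fiberwise_of_maps_to hmap]
    refine (Finset.sum_le_sum hwin).trans ?_
    rw [Finset.sum_const, Finset.card_range, nsmul_eq_mul]
    have hn5 : (n : ℝ) ≤ 5 * t := by
      rw [hn]; push_cast
      have := Nat.floor_le (show 0 ≤ 4 * t by linarith)
      linarith
    refine (mul_le_mul_of_nonneg_right hn5 (by positivity)).trans ?_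
    have hte : t * Real.exp (-(t / 800)) ≤ 1600 * g := by
      have h1 : t / 1600 ≤ Real.exp (t / 1600) := by
        have := Real.add_one_le_exp (t / 1600)
        linarith
      have h2 : Real.exp (-(t / 800)) = Real.exp (-(t / 1600)) * Real.exp (-(t / 1600)) := by
        rw [← Real.exp_add]; ring_nf
      have h3 : t * Real.exp (-(t / 1600)) ≤ 1600 := by
        rw [Real.exp_neg, ← div_eq_mul_inv, div_le_iff₀ (Real.exp_pos _)]
        linarith
      calc t * Real.exp (-(t / 800))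
          = t * Real.exp (-(t / 1600)) * Real.exp (-(t / 1600)) := by rw [h2]; ring
        _ ≤ 1600 * g := mul_le_mul h3 (le_trans (Real.exp_le_exp.2 (by linarith)) hTge)
            (Real.exp_nonneg _) (by norm_num)
    have ht0 : t ≠ 0 := by linarith
    calc 5 * t * (Kc * (3 * (100 / t) * g + Real.exp (-(t / 800))))
        = Kc * (1500 * g + 5 * (t * Real.exp (-(t / 800)))) := by field_simp; ring
      _ ≤ Kc * (1500 * g + 5 * (1600 * g)) := by gcongr
      _ = _ := by ring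
  have hsplit : ∑ b ∈ S, rhoN N b = ∑ b ∈ S₁, rhoN N b + ∑ b ∈ S₂, rhoN N b := by
    rw [add_comm]
    exact (Finset.sum_filter_add_sum_filter_not S _ _).symm
  have hS₂ : ∑ b ∈ S₂, rhoN N b ≤ ∑ b ∈ S₃, rhoN N b + ∑ b ∈ Pp, rhoN N b := by
    rw [← Finset.sum_filter_add_sum_filter_not S₂ (fun b => b ∉ Pp)]
    refine add_le_add le_rfl (Finset.sum_le_sum_of_subset_of_nonneg (fun b hb => ?_)
      fun b _ _ => rhoN_nonneg' N b)
    exact not_not.1 (Finset.mem_filter.1 hb).2
  rw [hsplit, hCdef]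
  linarith

end Vale.Agent.P028
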