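import Mathlib

/-! P028: basic definitions for the inhomogeneous Duffin-Schaeffer argument (see BLUEPRINT.md). -/

namespace Vale.Agent.P028

open Finset MeasureTheory

/-- `phi(n)/n`. -/
noncomputable def th (n : ℕ) : ℝ := (n.totient : ℝ) / n

/-- `n/phi(n)`. -/
noncomputable def Ph (n : ℕ) : ℝ := (n : ℝ) / n.totient

/-- The weight `mu_q = phi(q)/q * psi(q)`. -/
noncomputable def mu (ψ : ℕ → ℝ) (q : ℕ) : ℝ := th q * ψ q

/-- `q/(q,r)`. -/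
def uu (q r : ℕ) : ℕ := q / Nat.gcd q r

/-- `r/(q,r)`. -/
def vv (q r : ℕ) : ℕ := r / Nat.gcd q r

def hh (q r : ℕ) : ℤ := (vv q r : ℤ) - (uu q r : ℤ)

noncomputable def etaP (ψ : ℕ → ℝ) (q r : ℕ) : ℝ := (vv q r : ℝ) * ψ q + (uu q r : ℝ) * ψ r

/-- Weight of the numerator `a` for the denominator `q`, with exclusion rational `A/B`. -/
noncomputable def wt (A : ℤ) (B : ℕ) (q : ℕ) (a : ℤ) : ℝ :=
  ∏ p ∈ q.primeFactors,
    if p ∣ B then 1 - 1 / (p : ℝ) else if (p : ℤ) ∣ (B : ℤ) * a + A then 0 else 1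

/-- Weighted indicator of `‖q x - γ‖ < ψ q`. -/
noncomputable def fq (γ : ℝ) (ψ : ℕ → ℝ) (A : ℤ) (B : ℕ) (q : ℕ) (x : ℝ) : ℝ :=
  if |(q : ℝ) * x - γ - (round ((q : ℝ) * x - γ) : ℝ)| < ψ q then
    wt A B q (round ((q : ℝ) * x - γ)) else 0

/-- Distance to the nearest integer. -/
noncomputable def distInt (x : ℝ) : ℝ := |x - (round x : ℝ)|

def D0 (A : ℤ) (B : ℕ) (q r : ℕ) (n : ℤ) : ℤ := (B : ℤ) * n + A * hh q r

/-- The integers `n` with `|n + γ h| < η`. -/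
noncomputable def nWin (γ η : ℝ) (q r : ℕ) : Finset ℤ :=
  (Finset.Icc ⌈-γ * (hh q r : ℝ) - η⌉ ⌊-γ * (hh q r : ℝ) + η⌋).filter
    (fun n : ℤ => |(n : ℝ) + γ * (hh q r : ℝ)| < η)

/-- Admissible auxiliary moduli for a pair. -/
noncomputable def dset (B : ℕ) (q r : ℕ) : Finset ℕ :=
  (Nat.gcd q r).divisors.filter (fun D => Squarefree D ∧ Nat.Coprime D (uu q r * vv q r * B))

/-- The local factor attached to the coincidence `n`. -/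
noncomputable def Wn (A : ℤ) (B : ℕ) (q r : ℕ) (n : ℤ) : ℝ :=
  if D0 A B q r n = 0 then 0 else
    (∏ p ∈ (uu q r * vv q r).primeFactors.filter (fun p => ¬ p ∣ B),
      if (p : ℤ) ∣ D0 A B q r n then 0 else (p : ℝ) / ((p : ℝ) - 1))
    * ∑ D ∈ (dset B q r).filter (fun D : ℕ => (D : ℤ) ∣ D0 A B q r n), (1 : ℝ) / D.totient

/-- `E_D`: there is a coincidence `n` in the window with `D ∣ D0 ≠ 0`. -/
def EV (γ : ℝ) (A : ℤ) (B : ℕ) (y : ℝ) (D : ℕ) (q r : ℕ) : Prop :=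
  ∃ n : ℤ, |(n : ℝ) + γ * (hh q r : ℝ)| < y ∧ (D : ℤ) ∣ D0 A B q r n ∧ D0 A B q r n ≠ 0

/-- Large-prime part of `n/phi(n)`. -/
noncomputable def phiBig (Y : ℝ) (n : ℕ) : ℝ :=
  ∏ p ∈ n.primeFactors.filter (fun p : ℕ => Y < (p : ℝ)), (p : ℝ) / ((p : ℝ) - 1)

/-- Large-prime part of `∑_{p ∣ n} 1/p`. -/
noncomputable def sBig (Y : ℝ) (n : ℕ) : ℝ :=
  ∑ p ∈ n.primeFactors.filter (fun p : ℕ => Y < (p : ℝ)), (1 : ℝ) / p

/-- Exponent parameters. -/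
noncomputable def eps : ℝ := 1 / 100000

noncomputable def aE : ℝ := 1 / 2 + eps

noncomputable def tauE : ℝ := 1 / 2 - eps - eps / 4

noncomputable def Y0 : ℝ := Real.exp (10 ^ 8)

/-- The cut-off for the large primes. -/
noncomputable def Yof (η : ℝ) : ℝ := (Real.log η + Y0) ^ 2

/-- A scale class: all `ψ q` are `e^{-t}` up to the exponent `1+ζ`. -/
def IsCell (ζ K t : ℝ) (S : Finset ℕ) (ψ : ℕ → ℝ) : Prop :=
  ∀ q ∈ S, 0 < q ∧ Real.exp (-(1 + ζ) * t) ≤ ψ q ∧ ψ q ≤ Real.exp (-t) ∧ Real.log q ≤ K * t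

/-- `A/B` is a reduced Dirichlet approximation of `γ` at quality `Q`. -/
def IsApprox (γ Q : ℝ) (A : ℤ) (B : ℕ) : Prop :=
  0 < B ∧ (B : ℝ) ≤ Q ∧ IsCoprime A (B : ℤ) ∧ |(B : ℝ) * γ - A| ≤ 1 / Q

end Vale.Agent.P028
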