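import Vale.Agent.P028.Basic

/-! P028 module BILINEAR: prime-by-prime bilinear bound with a generic final hypothesis. -/

namespace Vale.Agent.P028

open Finset

/-- The part of `n` supported outside `P`. -/
noncomputable def outPart (P : Finset ℕ) (n : ℕ) : ℕ :=
  ∏ p ∈ n.primeFactors \ P, p ^ n.factorization p

def ConstOff (P V : Finset ℕ) : Prop :=
  ∀ q ∈ V, ∀ q' ∈ V, ∀ p : ℕ, p.Prime → p ∉ P → q.factorization p = q'.factorization p

def GoodPair (P : Finset ℕ) (k : ℕ → ℕ) (q r : ℕ) : Prop :=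
  ∀ p ∈ P, q.factorization p = k p ∨ r.factorization p = k p

/-- All primes outside `P` have fixed exponents on `V` and on `W`; `c`, `d` are their contributions
to `u` and `v`. -/
def IsState (P V W : Finset ℕ) (c d : ℕ) : Prop :=
  ConstOff P V ∧ ConstOff P W ∧
    ∀ q ∈ V, ∀ r ∈ W, outPart P (uu q r) = c ∧ outPart P (vv q r) = d

noncomputable def msum (μ : ℕ → ℝ) (V : Finset ℕ) : ℝ := ∑ q ∈ V, μ q

noncomputable def pairSum (μ : ℕ → ℝ) (G : ℕ → ℕ → ℝ) (V W : Finset ℕ) : ℝ :=
  ∑ q ∈ V, ∑ r ∈ W, μ q * μ r * G q r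

open Classical in
noncomputable def goodG (P : Finset ℕ) (k : ℕ → ℕ) (G : ℕ → ℕ → ℝ) (q r : ℕ) : ℝ :=
  if GoodPair P k q r then G q r else 0

/-- The estimate required for good states. -/
def FinalHyp (p0 : ℕ) (μ : ℕ → ℝ) (G : ℕ → ℕ → ℝ) (δ : ℝ) (S : Finset ℕ) : Prop :=
  ∀ (P V W : Finset ℕ) (k : ℕ → ℕ) (c d : ℕ), V ⊆ S → W ⊆ S →
    (∀ p ∈ P, p.Prime ∧ p0 ≤ p) → IsState P V W c d →
    pairSum μ (goodG P k G) V W
      ≤ δ * ((c * d : ℕ) : ℝ) ^ (-tauE) * (msum μ V * msum μ W) ^ aE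

/-! ### Weighted sums over pairs of exponents -/

/-- The loss of one split: `∑ r^|i-j| (m i * n j)^a`. -/
noncomputable def wsum (r : ℝ) (T : Finset (ℕ × ℕ)) (m n : ℕ → ℝ) : ℝ :=
  ∑ z ∈ T, r ^ ((z.1 - z.2) + (z.2 - z.1)) * (m z.1 * n z.2) ^ aE

lemma aE_pos : 0 < aE := by norm_num [aE, eps]

lemma eps_pos : 0 < eps := by norm_num [eps]

lemma geom_finset_le {r : ℝ} (hr0 : 0 ≤ r) (hr1 : r < 1) (F : Finset ℕ) (ν : ℕ)
    (hF : ∀ x ∈ F, ν ≤ x) : ∑ x ∈ F, r ^ x ≤ r ^ ν / (1 - r) := by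
  have h1 : ∑ x ∈ F, r ^ x = r ^ ν * ∑ x ∈ F.image (fun x => x - ν), r ^ x := by
    rw [Finset.mul_sum, Finset.sum_image (fun a ha b hb h => by
      have := hF a ha; have := hF b hb; omega)]
    refine Finset.sum_congr rfl fun x hx => ?_
    rw [← pow_add, Nat.add_sub_cancel' (hF x hx)]
  rw [h1, div_eq_mul_inv]
  refine mul_le_mul_of_nonneg_left ?_ (pow_nonneg hr0 _)
  rw [← tsum_geometric_of_lt_one hr0 hr1]
  exact (summable_geometric_of_lt_one hr0 hr1).sum_le_tsum _ fun x _ => pow_nonneg hr0 x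

lemma sum_fiber_le {r : ℝ} {T : Finset (ℕ × ℕ)} {m n : ℕ → ℝ} {B : ℝ}
    (hr0 : 0 ≤ r) (hB : ∀ d : ℤ, ∑ z ∈ T.filter (fun z => (z.2 : ℤ) - z.1 = d),
      (m z.1 * n z.2) ^ aE ≤ B) :
    wsum r T m n ≤ (∑ d ∈ T.image (fun z => (z.2 : ℤ) - z.1), r ^ d.natAbs) * B := by
  unfold wsum
  rw [← Finset.sum_fiberwise_of_maps_to (g := fun z : ℕ × ℕ => (z.2 : ℤ) - z.1)
    (t := T.image fun z => (z.2 : ℤ) - z.1) (fun z hz => Finset.mem_image_of_mem _ hz),
    Finset.sum_mul]
  refine Finset.sum_le_sum fun d _ => ?_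
  refine le_trans (le_of_eq ?_) (mul_le_mul_of_nonneg_left (hB d) (pow_nonneg hr0 _))
  rw [Finset.mul_sum]
  refine Finset.sum_congr rfl fun z hz => ?_
  have := (Finset.mem_filter.1 hz).2
  congr 2
  omega

/-- The geometric factor over all differences, over the nonzero ones, and over those `≥ ν`. -/
lemma diff_geom {r : ℝ} (hr0 : 0 ≤ r) (hr1 : r < 1) (D : Finset ℤ) :
    ∑ d ∈ D, r ^ d.natAbs ≤ 1 + 2 * r / (1 - r) ∧
      ((0 : ℤ) ∉ D → ∑ d ∈ D, r ^ d.natAbs ≤ 2 * r / (1 - r)) := by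
  have side : ∀ s : Finset ℤ, (∀ d ∈ s, 0 < d) ∨ (∀ d ∈ s, d < 0) →
      ∑ d ∈ s, r ^ d.natAbs ≤ r / (1 - r) := by
    intro s hs
    have hinj : ∀ a ∈ s, ∀ b ∈ s, a.natAbs = b.natAbs → a = b := by
      intro a ha b hb h
      rcases hs with hs | hs <;> · have := hs a ha; have := hs b hb; omega
    rw [← Finset.sum_image (f := fun x : ℕ => r ^ x) hinj]
    refine le_trans (geom_finset_le hr0 hr1 _ 1 ?_) (le_of_eq (by rw [pow_one]))
    intro x hx
    obtain ⟨d, hd, rfl⟩ := Finset.mem_image.1 hx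
    rcases hs with hs | hs <;> · have := hs d hd; omega
  have hne : ∀ D' : Finset ℤ, (0 : ℤ) ∉ D' → ∑ d ∈ D', r ^ d.natAbs ≤ 2 * r / (1 - r) := by
    intro D' h0
    rw [← Finset.sum_filter_add_sum_filter_not D' (fun d => 0 < d)]
    calc _ ≤ r / (1 - r) + r / (1 - r) := by
          refine add_le_add (side _ (Or.inl fun d hd => (Finset.mem_filter.1 hd).2))
            (side _ (Or.inr fun d hd => ?_))
          obtain ⟨hd1, hd2⟩ := Finset.mem_filter.1 hd
          rcases lt_trichotomy d 0 with h | h | h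
          · exact h
          · exact absurd (h ▸ hd1) h0
          · exact absurd h hd2
      _ = _ := by ring
  refine ⟨?_, hne D⟩
  by_cases h0 : (0 : ℤ) ∈ D
  · rw [← Finset.add_sum_erase _ _ h0, Int.natAbs_zero, pow_zero]
    have := hne (D.erase 0) (Finset.notMem_erase _ _)
    linarith
  · have := hne D h0
    linarith

lemma sum_rpow_le_of_sqrt {ι : Type*} (s : Finset ι) (f : ι → ℝ) (hf : ∀ i ∈ s, 0 ≤ f i) {B : ℝ}
    (hB0 : 0 ≤ B) (hB : ∑ i ∈ s, √(f i) ≤ √B) : ∑ i ∈ s, f i ^ aE ≤ B ^ aE := by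
  have hsplit : ∀ x : ℝ, 0 ≤ x → x ^ aE = x ^ eps * √x := by
    intro x hx
    rw [Real.sqrt_eq_rpow, ← Real.rpow_add' hx (by norm_num [eps])]
    congr 1
    norm_num [aE, eps]
  have hle : ∀ i ∈ s, f i ≤ B := by
    intro i hi
    have := (Finset.single_le_sum (f := fun j => √(f j)) (fun j _ => Real.sqrt_nonneg _) hi).trans hB
    exact (Real.sqrt_le_sqrt_iff hB0).1 this
  calc ∑ i ∈ s, f i ^ aE ≤ ∑ i ∈ s, B ^ eps * √(f i) := by
        refine Finset.sum_le_sum fun i hi => ?_
        rw [hsplit _ (hf i hi)]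
        exact mul_le_mul_of_nonneg_right (Real.rpow_le_rpow (hf i hi) (hle i hi) eps_pos.le)
          (Real.sqrt_nonneg _)
    _ ≤ B ^ eps * √B := by
        rw [← Finset.mul_sum]
        exact mul_le_mul_of_nonneg_left hB (Real.rpow_nonneg hB0 _)
    _ = _ := (hsplit B hB0).symm

lemma sqrt_fiber_le {I : Finset ℕ} {T : Finset (ℕ × ℕ)} (hT : T ⊆ I ×ˢ I) {m n : ℕ → ℝ}
    (hm : ∀ i, 0 ≤ m i) (hn : ∀ i, 0 ≤ n i) (d : ℤ) :
    ∑ z ∈ T.filter (fun z => (z.2 : ℤ) - z.1 = d), √(m z.1 * n z.2) ≤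
      √((∑ i ∈ I, m i) * ∑ i ∈ I, n i) := by
  set s := T.filter (fun z => (z.2 : ℤ) - z.1 = d)
  have hd : ∀ z ∈ s, (z.2 : ℤ) - z.1 = d := fun z hz => (Finset.mem_filter.1 hz).2
  have hI : ∀ z ∈ s, z.1 ∈ I ∧ z.2 ∈ I := fun z hz =>
    Finset.mem_product.1 (hT (Finset.mem_filter.1 hz).1)
  calc ∑ z ∈ s, √(m z.1 * n z.2) = ∑ z ∈ s, √(m z.1) * √(n z.2) :=
        Finset.sum_congr rfl fun z _ => Real.sqrt_mul (hm _) _
    _ ≤ √(∑ z ∈ s, m z.1) * √(∑ z ∈ s, n z.2) :=
        Real.sum_sqrt_mul_sqrt_le _ (fun z => hm _) (fun z => hn _)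
    _ ≤ √(∑ i ∈ I, m i) * √(∑ i ∈ I, n i) := by
        refine mul_le_mul (Real.sqrt_le_sqrt ?_) (Real.sqrt_le_sqrt ?_) (Real.sqrt_nonneg _)
          (Real.sqrt_nonneg _)
        · rw [← Finset.sum_image (g := fun z : ℕ × ℕ => z.1) (f := m)]
          · refine Finset.sum_le_sum_of_subset_of_nonneg ?_ fun i _ _ => hm i
            intro i hi
            obtain ⟨z, hz, rfl⟩ := Finset.mem_image.1 hi
            exact (hI z hz).1
          · intro z hz z' hz' h
            have := hd z hz; have := hd z' hz'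
            simp only at h
            exact Prod.ext h (by omega)
        · rw [← Finset.sum_image (g := fun z : ℕ × ℕ => z.2) (f := n)]
          · refine Finset.sum_le_sum_of_subset_of_nonneg ?_ fun i _ _ => hn i
            intro i hi
            obtain ⟨z, hz, rfl⟩ := Finset.mem_image.1 hi
            exact (hI z hz).2
          · intro z hz z' hz' h
            have := hd z hz; have := hd z' hz'
            simp only at h
            exact Prod.ext (by omega) h
    _ = _ := (Real.sqrt_mul (Finset.sum_nonneg fun i _ => hm i) _).symm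

lemma wsum_le {r : ℝ} (hr0 : 0 ≤ r) {I : Finset ℕ} {T : Finset (ℕ × ℕ)} (hT : T ⊆ I ×ˢ I)
    {m n : ℕ → ℝ} (hm : ∀ i, 0 ≤ m i) (hn : ∀ i, 0 ≤ n i) :
    wsum r T m n ≤ (∑ d ∈ T.image (fun z => (z.2 : ℤ) - z.1), r ^ d.natAbs) *
      ((∑ i ∈ I, m i) * ∑ i ∈ I, n i) ^ aE :=
  sum_fiber_le hr0 fun d => sum_rpow_le_of_sqrt _ _ (fun _ _ => mul_nonneg (hm _) (hn _))
    (mul_nonneg (Finset.sum_nonneg fun i _ => hm i) (Finset.sum_nonneg fun i _ => hn i))
    (sqrt_fiber_le hT hm hn d)

lemma geom_nine {r : ℝ} (hr0 : 0 ≤ r) (hr : r ≤ 3 / 4) (D : Finset ℤ) :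
    ∑ d ∈ D, r ^ d.natAbs ≤ 9 := by
  refine (diff_geom hr0 (by linarith) D).1.trans ?_
  have h : 2 * r / (1 - r) ≤ 8 := by rw [div_le_iff₀ (by linarith)]; linarith
  linarith

/-- If a split loses, the masses concentrate at one common exponent. -/
lemma conc {r : ℝ} (hr0 : 0 ≤ r) (hr : r ≤ 3 / 4) {I : Finset ℕ} {m n : ℕ → ℝ}
    (hm : ∀ i, 0 ≤ m i) (hn : ∀ i, 0 ≤ n i)
    (hbig : ((∑ i ∈ I, m i) * ∑ i ∈ I, n i) ^ aE < wsum r (I ×ˢ I) m n) :
    ∃ k, wsum r ((I.erase k) ×ˢ (I.erase k)) m n ≤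
      9 * ((32 / eps * r) ^ (1 / (1 - aE))) ^ (2 * aE) *
        ((∑ i ∈ I, m i) * ∑ i ∈ I, n i) ^ aE := by
  set M := ∑ i ∈ I, m i with hM
  set N := ∑ i ∈ I, n i with hN
  have hM0 : 0 ≤ M := Finset.sum_nonneg fun i _ => hm i
  have hN0 : 0 ≤ N := Finset.sum_nonneg fun i _ => hn i
  have hMN0 := mul_nonneg hM0 hN0
  have hMN : 0 < M * N := by
    rcases hMN0.lt_or_eq with h | h
    · exact h
    · exfalso
      have := wsum_le hr0 (subset_refl (I ×ˢ I)) hm hn
      rw [← hM, ← hN, ← h, Real.zero_rpow aE_pos.ne', mul_zero] at this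
      rw [← h, Real.zero_rpow aE_pos.ne'] at hbig
      linarith
  have hMp : 0 < M := pos_of_mul_pos_left hMN hN0
  have hNp : 0 < N := pos_of_mul_pos_right hMN hM0
  have hne : I.Nonempty := by
    rcases I.eq_empty_or_nonempty with h | h
    · simp [hM, h] at hMp
    · exact h
  obtain ⟨k, hk, hmax⟩ := I.exists_max_image (fun i => m i * n i) hne
  refine ⟨k, ?_⟩
  have hmk : m k ≤ M := Finset.single_le_sum (fun i _ => hm i) hk
  have hnk : n k ≤ N := Finset.single_le_sum (fun i _ => hn i) hk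
  set u := m k / M with hu
  set v := n k / N with hv
  have hu0 : 0 ≤ u := div_nonneg (hm k) hM0
  have hv0 : 0 ≤ v := div_nonneg (hn k) hN0
  have hu1 : u ≤ 1 := (div_le_one hMp).2 hmk
  have hv1 : v ≤ 1 := (div_le_one hNp).2 hnk
  set Z := 1 - min u v with hZ
  have hZ0 : 0 ≤ Z := by rw [hZ]; linarith [min_le_left u v]
  have hZ1 : Z ≤ 1 := by rw [hZ]; linarith [le_min hu0 hv0]
  have hx : ∑ i ∈ I.erase k, m i ≤ Z * M := by
    have h := Finset.add_sum_erase I m hk
    have h' : (1 - u) * M ≤ Z * M :=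
      mul_le_mul_of_nonneg_right (by rw [hZ]; linarith [min_le_left u v]) hM0
    have : u * M = m k := by rw [hu]; field_simp
    linarith
  have hy : ∑ i ∈ I.erase k, n i ≤ Z * N := by
    have h := Finset.add_sum_erase I n hk
    have h' : (1 - v) * N ≤ Z * N :=
      mul_le_mul_of_nonneg_right (by rw [hZ]; linarith [min_le_right u v]) hN0
    have : v * N = n k := by rw [hv]; field_simp
    linarith
  -- bad pairs
  have hbad : wsum r ((I.erase k) ×ˢ (I.erase k)) m n ≤ 9 * Z ^ (2 * aE) * (M * N) ^ aE := by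
    refine (wsum_le hr0 (subset_refl _) hm hn).trans ?_
    calc _ ≤ 9 * ((Z * M) * (Z * N)) ^ aE := by
          refine mul_le_mul (geom_nine hr0 hr _) ?_
            (Real.rpow_nonneg (mul_nonneg (Finset.sum_nonneg fun i _ => hm i)
              (Finset.sum_nonneg fun i _ => hn i)) _) (by norm_num)
          exact Real.rpow_le_rpow (mul_nonneg (Finset.sum_nonneg fun i _ => hm i)
              (Finset.sum_nonneg fun i _ => hn i))
            (mul_le_mul hx hy (Finset.sum_nonneg fun i _ => hn i) (mul_nonneg hZ0 hM0)) aE_pos.le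
      _ = _ := by
          rw [show Z * M * (Z * N) = Z * Z * (M * N) by ring,
            Real.mul_rpow (mul_nonneg hZ0 hZ0) hMN0, Real.mul_rpow hZ0 hZ0,
            ← Real.rpow_add' hZ0 (by have := aE_pos; linarith), ← two_mul]
          ring
  -- diagonal
  have hdiag : wsum r ((I ×ˢ I).filter fun z => z.1 = z.2) m n ≤ (1 - eps * Z) * (M * N) ^ aE := by
    set Td := (I ×ˢ I).filter fun z : ℕ × ℕ => z.1 = z.2
    have hsplit : ∀ x : ℝ, 0 ≤ x → x ^ aE = x ^ eps * √x := by
      intro x hx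
      rw [Real.sqrt_eq_rpow, ← Real.rpow_add' hx (by norm_num [eps])]
      congr 1
      norm_num [aE, eps]
    have hsq : ∑ z ∈ Td, √(m z.1 * n z.2) ≤ √(M * N) := by
      have h := sqrt_fiber_le (Finset.filter_subset (fun z : ℕ × ℕ => z.1 = z.2) (I ×ˢ I)) hm hn 0
      rwa [Finset.filter_true_of_mem (fun z hz => by
        have := (Finset.mem_filter.1 hz).2; omega)] at h
    calc wsum r Td m n = ∑ z ∈ Td, (m z.1 * n z.2) ^ eps * √(m z.1 * n z.2) := by
          refine Finset.sum_congr rfl fun z hz => ?_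
          rw [(Finset.mem_filter.1 hz).2, Nat.sub_self, pow_zero, one_mul,
            hsplit _ (mul_nonneg (hm _) (hn _))]
      _ ≤ ∑ z ∈ Td, (m k * n k) ^ eps * √(m z.1 * n z.2) := by
          refine Finset.sum_le_sum fun z hz => mul_le_mul_of_nonneg_right
            (Real.rpow_le_rpow (mul_nonneg (hm _) (hn _)) ?_ eps_pos.le) (Real.sqrt_nonneg _)
          obtain ⟨hz1, hz2⟩ := Finset.mem_filter.1 hz
          rw [← hz2]
          exact hmax _ (Finset.mem_product.1 hz1).1
      _ ≤ (m k * n k) ^ eps * √(M * N) := by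
          rw [← Finset.mul_sum]
          exact mul_le_mul_of_nonneg_left hsq (Real.rpow_nonneg (mul_nonneg (hm _) (hn _)) _)
      _ = (u * v) ^ eps * (M * N) ^ aE := by
          rw [hsplit _ hMN0, ← mul_assoc, ← Real.mul_rpow (mul_nonneg hu0 hv0) hMN0]
          congr 2
          rw [hu, hv]; field_simp
      _ ≤ _ := by
          refine mul_le_mul_of_nonneg_right ?_ (Real.rpow_nonneg hMN0 _)
          calc (u * v) ^ eps ≤ (1 + -Z) ^ eps := by
                refine Real.rpow_le_rpow (mul_nonneg hu0 hv0) ?_ eps_pos.le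
                rw [hZ]
                rcases le_total u v with h | h
                · rw [min_eq_left h]; nlinarith
                · rw [min_eq_right h]; nlinarith
            _ ≤ 1 + eps * -Z := rpow_one_add_le_one_add_mul_self (by linarith) eps_pos.le
                  (by norm_num [eps])
            _ = _ := by ring
  -- off the diagonal
  have hoff : wsum r ((I ×ˢ I).filter fun z => ¬ z.1 = z.2) m n ≤
      32 * r * Z ^ aE * (M * N) ^ aE := by
    set To := (I ×ˢ I).filter fun z : ℕ × ℕ => ¬ z.1 = z.2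
    have hTo : To ⊆ I ×ˢ I := Finset.filter_subset _ _
    let m' : ℕ → ℝ := fun i => if i = k then 0 else m i
    let n' : ℕ → ℝ := fun i => if i = k then 0 else n i
    have hm' : ∀ i, 0 ≤ m' i := fun i => by simp only [m']; split <;> simp [hm]
    have hn' : ∀ i, 0 ≤ n' i := fun i => by simp only [n']; split <;> simp [hn]
    have hsm : ∑ i ∈ I, m' i ≤ Z * M := by
      rw [← Finset.add_sum_erase I m' hk]
      simp only [m', if_true, zero_add]
      rwa [Finset.sum_congr rfl fun i hi => if_neg (Finset.ne_of_mem_erase hi)]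
    have hsn : ∑ i ∈ I, n' i ≤ Z * N := by
      rw [← Finset.add_sum_erase I n' hk]
      simp only [n', if_true, zero_add]
      rwa [Finset.sum_congr rfl fun i hi => if_neg (Finset.ne_of_mem_erase hi)]
    have hfib : ∀ d : ℤ, ∑ z ∈ To.filter (fun z => (z.2 : ℤ) - z.1 = d),
        √(m z.1 * n z.2) ≤ √(4 * Z * (M * N)) := by
      intro d
      have h1 := (sqrt_fiber_le hTo hm' hn d).trans
        (Real.sqrt_le_sqrt (mul_le_mul_of_nonneg_right hsm hN0))
      have h2 := (sqrt_fiber_le hTo hm hn' d).trans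
        (Real.sqrt_le_sqrt (mul_le_mul_of_nonneg_left hsn hM0))
      have h4 : √(4 * Z * (M * N)) = √(Z * M * N) + √(M * (Z * N)) := by
        rw [show 4 * Z * (M * N) = 2 ^ 2 * (Z * M * N) by ring, Real.sqrt_mul (by norm_num),
          Real.sqrt_sq (by norm_num), show M * (Z * N) = Z * M * N by ring]
        ring
      rw [h4]
      refine le_trans ?_ (add_le_add h1 h2)
      rw [← Finset.sum_add_distrib]
      refine Finset.sum_le_sum fun z hz => ?_
      have hne : z.1 ≠ z.2 := (Finset.mem_filter.1 (Finset.mem_filter.1 hz).1).2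
      by_cases h : z.1 = k
      · have : n' z.2 = n z.2 := if_neg (fun e => hne (h.trans e.symm))
        rw [this]
        exact le_add_of_nonneg_left (Real.sqrt_nonneg _)
      · have : m' z.1 = m z.1 := if_neg h
        rw [this]
        exact le_add_of_nonneg_right (Real.sqrt_nonneg _)
    refine (sum_fiber_le (B := (4 * Z * (M * N)) ^ aE) hr0 fun d =>
      sum_rpow_le_of_sqrt _ _ (fun z _ => mul_nonneg (hm _) (hn _))
        (by positivity) (hfib d)).trans ?_
    have h0 : (0 : ℤ) ∉ To.image fun z => (z.2 : ℤ) - z.1 := by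
      intro h
      obtain ⟨z, hz, hz0⟩ := Finset.mem_image.1 h
      exact (Finset.mem_filter.1 hz).2 (by omega)
    calc _ ≤ 8 * r * (4 * (Z ^ aE * (M * N) ^ aE)) := by
          refine mul_le_mul (((diff_geom hr0 (by linarith) _).2 h0).trans ?_) ?_
            (Real.rpow_nonneg (by positivity) _) (by positivity)
          · rw [div_le_iff₀ (by linarith)]; nlinarith
          · rw [Real.mul_rpow (by positivity) hMN0, Real.mul_rpow (by norm_num) hZ0, mul_assoc]
            refine mul_le_mul_of_nonneg_right ?_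
              (mul_nonneg (Real.rpow_nonneg hZ0 _) (Real.rpow_nonneg hMN0 _))
            calc (4 : ℝ) ^ aE ≤ (4 : ℝ) ^ (1 : ℝ) :=
                  Real.rpow_le_rpow_of_exponent_le (by norm_num) (by norm_num [aE, eps])
              _ = 4 := Real.rpow_one _
      _ = _ := by ring
  have hMNa : 0 < (M * N) ^ aE := Real.rpow_pos_of_pos hMN _
  have key : eps * Z < 32 * r * Z ^ aE := by
    have hs : wsum r (I ×ˢ I) m n = wsum r ((I ×ˢ I).filter fun z => z.1 = z.2) m n +
        wsum r ((I ×ˢ I).filter fun z => ¬ z.1 = z.2) m n :=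
      (Finset.sum_filter_add_sum_filter_not _ _ _).symm
    nlinarith
  have hZp : 0 < Z := by
    rcases hZ0.lt_or_eq with h | h
    · exact h
    · rw [← h, Real.zero_rpow aE_pos.ne'] at key; simp at key
  have hZle : Z ≤ (32 / eps * r) ^ (1 / (1 - aE)) := by
    have h1a : (0 : ℝ) < 1 - aE := by norm_num [aE, eps]
    rw [one_div]
    refine (Real.le_rpow_inv_iff_of_pos hZ0 (mul_nonneg (div_nonneg (by norm_num) eps_pos.le) hr0)
      h1a).2 ?_
    have h2 : Z ^ (1 - aE) * Z ^ aE = Z := by rw [← Real.rpow_add hZp]; simp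
    have h3 : eps * Z ^ (1 - aE) * Z ^ aE < 32 * r * Z ^ aE := by rw [mul_assoc, h2]; exact key
    have h4 := lt_of_mul_lt_mul_right h3 (Real.rpow_nonneg hZ0 _)
    rw [div_mul_eq_mul_div, le_div_iff₀ eps_pos]
    linarith
  refine hbad.trans (mul_le_mul_of_nonneg_right (mul_le_mul_of_nonneg_left ?_ (by norm_num))
    hMNa.le)
  exact Real.rpow_le_rpow hZ0 hZle (by have := aE_pos; linarith)

/-! ### Splitting a state at one prime -/

/-- The part of `V` with exponent `i` at `p`. -/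
def expFib (p i : ℕ) (V : Finset ℕ) : Finset ℕ := V.filter (fun q => q.factorization p = i)

lemma outPart_erase (P : Finset ℕ) {p : ℕ} (hp : p ∈ P) (n : ℕ) :
    outPart (P.erase p) n = outPart P n * p ^ n.factorization p := by
  unfold outPart
  by_cases h : p ∈ n.primeFactors
  · have : n.primeFactors \ P.erase p = insert p (n.primeFactors \ P) := by
      ext x; by_cases hx : x = p <;> simp [hx, h]
    rw [this, Finset.prod_insert (by simp [hp]), mul_comm]
  · have : n.primeFactors \ P.erase p = n.primeFactors \ P := by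
      ext x; by_cases hx : x = p <;> simp [hx, h, hp]
    rw [this, show n.factorization p = 0 by
      rwa [← Finsupp.notMem_support_iff, Nat.support_factorization], pow_zero, mul_one]

lemma factorization_uu {q r : ℕ} (hq : 0 < q) (hr : 0 < r) (p : ℕ) :
    (uu q r).factorization p = q.factorization p - r.factorization p := by
  rw [uu, Nat.factorization_div (Nat.gcd_dvd_left q r), Nat.factorization_gcd hq.ne' hr.ne']
  simp only [Finsupp.tsub_apply, Finsupp.inf_apply]
  omega

lemma factorization_vv {q r : ℕ} (hq : 0 < q) (hr : 0 < r) (p : ℕ) :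
    (vv q r).factorization p = r.factorization p - q.factorization p := by
  rw [vv, Nat.factorization_div (Nat.gcd_dvd_right q r), Nat.factorization_gcd hq.ne' hr.ne']
  simp only [Finsupp.tsub_apply, Finsupp.inf_apply]
  omega

lemma state_split {P V W : Finset ℕ} {c d p : ℕ} (hV : ∀ q ∈ V, 0 < q) (hW : ∀ q ∈ W, 0 < q)
    (h : IsState P V W c d) (hp : p ∈ P) (i j : ℕ) :
    IsState (P.erase p) (expFib p i V) (expFib p j W) (c * p ^ (i - j)) (d * p ^ (j - i)) := by
  obtain ⟨h1, h2, h3⟩ := h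
  refine ⟨?_, ?_, ?_⟩
  · intro q hq q' hq' x hx hxP
    obtain ⟨hq, hqi⟩ := Finset.mem_filter.1 hq
    obtain ⟨hq', hqi'⟩ := Finset.mem_filter.1 hq'
    by_cases hxp : x = p
    · rw [hxp, hqi, hqi']
    · exact h1 q hq q' hq' x hx (fun e => hxP (Finset.mem_erase.2 ⟨hxp, e⟩))
  · intro q hq q' hq' x hx hxP
    obtain ⟨hq, hqi⟩ := Finset.mem_filter.1 hq
    obtain ⟨hq', hqi'⟩ := Finset.mem_filter.1 hq'
    by_cases hxp : x = p
    · rw [hxp, hqi, hqi']
    · exact h2 q hq q' hq' x hx (fun e => hxP (Finset.mem_erase.2 ⟨hxp, e⟩))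
  · intro q hq r hr
    obtain ⟨hq, hqi⟩ := Finset.mem_filter.1 hq
    obtain ⟨hr, hrj⟩ := Finset.mem_filter.1 hr
    obtain ⟨hc, hd⟩ := h3 q hq r hr
    rw [outPart_erase P hp, outPart_erase P hp, factorization_uu (hV q hq) (hW r hr),
      factorization_vv (hV q hq) (hW r hr), hc, hd, hqi, hrj]
    exact ⟨rfl, rfl⟩

lemma sum_expFib {p : ℕ} {I V : Finset ℕ} (hI : ∀ q ∈ V, q.factorization p ∈ I) (f : ℕ → ℝ) :
    ∑ i ∈ I, ∑ q ∈ expFib p i V, f q = ∑ q ∈ V, f q :=
  Finset.sum_fiberwise_of_maps_to hI f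

lemma pairSum_split {p : ℕ} {I V W : Finset ℕ} (hV : ∀ q ∈ V, q.factorization p ∈ I)
    (hW : ∀ q ∈ W, q.factorization p ∈ I) (μ : ℕ → ℝ) (G : ℕ → ℕ → ℝ) :
    pairSum μ G V W = ∑ z ∈ I ×ˢ I, pairSum μ G (expFib p z.1 V) (expFib p z.2 W) := by
  rw [Finset.sum_product]
  unfold pairSum
  rw [← sum_expFib hV]
  refine Finset.sum_congr rfl fun i _ => ?_
  refine Eq.trans (Finset.sum_congr rfl fun q _ => ?_) Finset.sum_comm
  exact (sum_expFib hW _).symm

/-- The weight of the exponent pair `(i, j)`. -/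
noncomputable def rr (p : ℕ) : ℝ := ((p : ℕ) : ℝ) ^ (-tauE)

lemma rr_nonneg (p : ℕ) : 0 ≤ rr p := Real.rpow_nonneg (Nat.cast_nonneg p) _

lemma rr_le_five {p : ℕ} (hp : p.Prime) : rr p ≤ 5 / 7 := by
  have h2 : (2 : ℝ) ≤ (p : ℝ) := by exact_mod_cast hp.two_le
  have hτ : (0 : ℝ) < tauE := by norm_num [tauE, eps]
  calc rr p ≤ (2 : ℝ) ^ (-tauE) :=
        Real.rpow_le_rpow_of_nonpos (by norm_num) h2 (by linarith)
    _ ≤ 5 / 7 := by
      rw [Real.rpow_neg (by norm_num), inv_le_comm₀ (by positivity) (by norm_num)]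
      have h49 : (2 : ℝ) ^ (-(1 : ℝ) / 500) * (2 : ℝ) ^ ((1 : ℝ) / 2) ≤ (2 : ℝ) ^ tauE := by
        rw [← Real.rpow_add (by norm_num)]
        exact Real.rpow_le_rpow_of_exponent_le (by norm_num) (by norm_num [tauE, eps])
      refine le_trans ?_ h49
      have ha : (995 / 1000 : ℝ) ≤ (2 : ℝ) ^ (-(1 : ℝ) / 500) := by
        rw [show (-(1 : ℝ) / 500) = -((1 : ℝ) / 500) by ring, Real.rpow_neg (by norm_num)]
        rw [le_inv_comm₀ (by norm_num) (by positivity)]
        refine le_of_pow_le_pow_left₀ (n := 500) (by norm_num) (by norm_num) ?_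
        rw [← Real.rpow_natCast, ← Real.rpow_mul (by norm_num)]
        refine le_trans ?_ (le_trans (show (2 : ℝ) ≤ (995 / 1000 : ℝ)⁻¹ ^ 200 by norm_num)
          (pow_le_pow_right₀ (by norm_num) (by norm_num : 200 ≤ 500)))
        norm_num
      have hb : (141 / 100 : ℝ) ≤ (2 : ℝ) ^ ((1 : ℝ) / 2) := by
        rw [← Real.sqrt_eq_rpow]
        exact Real.le_sqrt_of_sq_le (by norm_num)
      calc (5 / 7 : ℝ)⁻¹ ≤ 995 / 1000 * (141 / 100) := by norm_num
        _ ≤ _ := mul_le_mul ha hb (by norm_num) (by positivity)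

lemma rr_le {p : ℕ} (hp : p.Prime) : rr p ≤ 3 / 4 := (rr_le_five hp).trans (by norm_num)

lemma cd_split (c d p i j : ℕ) :
    (((c * p ^ (i - j)) * (d * p ^ (j - i)) : ℕ) : ℝ) ^ (-tauE) =
      ((c * d : ℕ) : ℝ) ^ (-tauE) * rr p ^ ((i - j) + (j - i)) := by
  rw [show c * p ^ (i - j) * (d * p ^ (j - i)) = c * d * p ^ ((i - j) + (j - i)) by
    rw [pow_add]; ring, Nat.cast_mul _ (p ^ _), Real.mul_rpow (Nat.cast_nonneg _) (Nat.cast_nonneg _),
    Nat.cast_pow, rr, ← Real.rpow_natCast, ← Real.rpow_natCast, ← Real.rpow_mul (Nat.cast_nonneg p),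
    ← Real.rpow_mul (Nat.cast_nonneg p), mul_comm (-tauE)]

lemma split_le {μ : ℕ → ℝ} {G : ℕ → ℕ → ℝ} {K : ℝ} {P V W : Finset ℕ} {c d p : ℕ}
    (hV : ∀ q ∈ V, 0 < q) (hW : ∀ q ∈ W, 0 < q) (hst : IsState P V W c d) (hp : p ∈ P)
    {I : Finset ℕ} (hVI : ∀ q ∈ V, q.factorization p ∈ I) (hWI : ∀ q ∈ W, q.factorization p ∈ I)
    (T : Finset (ℕ × ℕ)) (hTsub : T ⊆ I ×ˢ I)
    (hzero : ∀ z ∈ I ×ˢ I, z ∉ T → pairSum μ G (expFib p z.1 V) (expFib p z.2 W) = 0)
    (hIH : ∀ V' W' c' d', V' ⊆ V → W' ⊆ W → IsState (P.erase p) V' W' c' d' →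
      pairSum μ G V' W' ≤ K * ((c' * d' : ℕ) : ℝ) ^ (-tauE) * (msum μ V' * msum μ W') ^ aE) :
    pairSum μ G V W ≤ K * ((c * d : ℕ) : ℝ) ^ (-tauE) *
      wsum (rr p) T (fun i => msum μ (expFib p i V)) (fun i => msum μ (expFib p i W)) := by
  rw [pairSum_split hVI hWI, ← Finset.sum_subset hTsub hzero, wsum, Finset.mul_sum]
  refine Finset.sum_le_sum fun z _ => ?_
  refine (hIH (expFib p z.1 V) (expFib p z.2 W) _ _ (Finset.filter_subset _ _) (Finset.filter_subset _ _)
    (state_split hV hW hst hp z.1 z.2)).trans (le_of_eq ?_)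
  rw [cd_split]
  ring

lemma msum_fib {p : ℕ} {I V : Finset ℕ} (hI : ∀ q ∈ V, q.factorization p ∈ I) (μ : ℕ → ℝ) :
    ∑ i ∈ I, msum μ (expFib p i V) = msum μ V := sum_expFib hI μ

/-- All exponents at `p` occurring on `V ∪ W`. -/
def expSet (p : ℕ) (V W : Finset ℕ) : Finset ℕ := (V ∪ W).image (fun q => q.factorization p)

lemma mem_expSet_left {p : ℕ} {V W : Finset ℕ} : ∀ q ∈ V, q.factorization p ∈ expSet p V W :=
  fun _ hq => Finset.mem_image_of_mem _ (Finset.mem_union_left _ hq)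

lemma mem_expSet_right {p : ℕ} {V W : Finset ℕ} : ∀ q ∈ W, q.factorization p ∈ expSet p V W :=
  fun _ hq => Finset.mem_image_of_mem _ (Finset.mem_union_right _ hq)

/-- The bound on the mass of pairs exceptional at `p`. -/
noncomputable def excB (p : ℕ) : ℝ := 9 * ((32 / eps * rr p) ^ (1 / (1 - aE))) ^ (2 * aE)

lemma exists_tail :
    ∃ p0 : ℕ, ∀ P : Finset ℕ, (∀ p ∈ P, p0 ≤ p) → ∑ p ∈ P, excB p ≤ 1 / 2 := by
  have hs : Summable excB := by
    have he : ∀ p : ℕ, excB p = 9 * ((32 / eps) ^ (1 / (1 - aE))) ^ (2 * aE) *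
        (p : ℝ) ^ (-tauE * (1 / (1 - aE)) * (2 * aE)) := by
      intro p
      have hε : (0 : ℝ) ≤ 32 / eps := div_nonneg (by norm_num) eps_pos.le
      rw [excB, Real.mul_rpow hε (rr_nonneg p),
        Real.mul_rpow (Real.rpow_nonneg hε _) (Real.rpow_nonneg (rr_nonneg p) _), rr,
        ← Real.rpow_mul (Nat.cast_nonneg p), ← Real.rpow_mul (Nat.cast_nonneg p)]
      ring
    rw [funext he]
    refine Summable.mul_left _ (Real.summable_nat_rpow.2 ?_)
    norm_num [tauE, aE, eps]
  obtain ⟨s, hs'⟩ := summable_iff_vanishing.1 hs (Set.Iic (1 / 2)) (Iic_mem_nhds (by norm_num))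
  refine ⟨s.sup id + 1, fun P hP => hs' P ?_⟩
  rw [Finset.disjoint_left]
  intro p hp hps
  have := hP p hp
  have : p ≤ s.sup id := Finset.le_sup (f := id) hps
  omega

open Classical in
lemma state_aux {p0 : ℕ} (hp0 : ∀ P : Finset ℕ, (∀ p ∈ P, p0 ≤ p) → ∑ p ∈ P, excB p ≤ 1 / 2)
    {μ : ℕ → ℝ} {G : ℕ → ℕ → ℝ} {δ : ℝ} {S : Finset ℕ} (hμ : ∀ q, 0 ≤ μ q)
    (hG : ∀ q r, 0 ≤ G q r) (hδ : 0 ≤ δ) (hS : ∀ q ∈ S, 0 < q) (hfin : FinalHyp p0 μ G δ S)
    (P : Finset ℕ) : ∀ (V W : Finset ℕ) (c d : ℕ), V ⊆ S → W ⊆ S → (∀ p ∈ P, p.Prime) →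
      IsState P V W c d →
      pairSum μ G V W ≤ 2 * 9 ^ (P.filter (· < p0)).card * δ *
        ((c * d : ℕ) : ℝ) ^ (-tauE) * (msum μ V * msum μ W) ^ aE := by
  induction P using Finset.strongInduction with
  | _ P ih =>
    intro V W c d hVS hWS hP hst
    set m : ℕ → ℕ → ℝ := fun p i => msum μ (expFib p i V) with hm
    set n : ℕ → ℕ → ℝ := fun p i => msum μ (expFib p i W) with hn
    have hm0 : ∀ p i, 0 ≤ m p i := fun p i => Finset.sum_nonneg fun q _ => hμ q
    have hn0 : ∀ p i, 0 ≤ n p i := fun p i => Finset.sum_nonneg fun q _ => hμ q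
    set X := (msum μ V * msum μ W) ^ aE with hX
    set D := δ * ((c * d : ℕ) : ℝ) ^ (-tauE) with hD
    have hD0 : 0 ≤ D := mul_nonneg hδ (Real.rpow_nonneg (Nat.cast_nonneg _) _)
    have hX0 : 0 ≤ X := Real.rpow_nonneg (mul_nonneg (Finset.sum_nonneg fun q _ => hμ q)
      (Finset.sum_nonneg fun q _ => hμ q)) _
    have hMX : ∀ p, ((∑ i ∈ expSet p V W, m p i) * ∑ i ∈ expSet p V W, n p i) ^ aE = X := by
      intro p
      rw [hX, hm, hn, msum_fib mem_expSet_left, msum_fib mem_expSet_right]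
    suffices h : pairSum μ G V W ≤ 2 * 9 ^ (P.filter (· < p0)).card * (D * X) by
      refine h.trans (le_of_eq ?_); rw [hD]; ring
    have hrec : ∀ p ∈ P, ∀ V' W' c' d', V' ⊆ V → W' ⊆ W → IsState (P.erase p) V' W' c' d' →
        pairSum μ G V' W' ≤ (2 * 9 ^ ((P.erase p).filter (· < p0)).card * δ) *
          ((c' * d' : ℕ) : ℝ) ^ (-tauE) * (msum μ V' * msum μ W') ^ aE :=
      fun p hp V' W' c' d' hV' hW' hst' => ih _ (Finset.erase_ssubset hp) V' W' c' d'
        (hV'.trans hVS) (hW'.trans hWS) (fun x hx => hP x (Finset.mem_of_mem_erase hx)) hst'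
    have hall : ∀ p ∈ P, pairSum μ G V W ≤ 2 * 9 ^ ((P.erase p).filter (· < p0)).card *
        (D * wsum (rr p) (expSet p V W ×ˢ expSet p V W) (m p) (n p)) := by
      intro p hp
      refine (split_le (fun q hq => hS q (hVS hq)) (fun q hq => hS q (hWS hq)) hst hp
        mem_expSet_left mem_expSet_right _ (subset_refl _) (fun z h h' => absurd h h')
        (hrec p hp)).trans (le_of_eq ?_)
      rw [hD, hm, hn]; ring
    by_cases ha : ∃ p ∈ P, p < p0
    · obtain ⟨p, hp, hlt⟩ := ha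
      refine (hall p hp).trans ?_
      have hw : wsum (rr p) (expSet p V W ×ˢ expSet p V W) (m p) (n p) ≤ 9 * X := by
        refine (wsum_le (rr_nonneg p) (subset_refl _) (hm0 p) (hn0 p)).trans ?_
        rw [hMX]
        exact mul_le_mul_of_nonneg_right (geom_nine (rr_nonneg p) (rr_le (hP p hp)) _) hX0
      rw [Finset.filter_erase, ← Finset.card_erase_add_one (s := P.filter (· < p0)) (a := p)
        (Finset.mem_filter.2 ⟨hp, hlt⟩), pow_succ]
      calc _ ≤ 2 * (9 : ℝ) ^ ((P.filter (· < p0)).erase p).card * (D * (9 * X)) :=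
            mul_le_mul_of_nonneg_left (mul_le_mul_of_nonneg_left hw hD0) (by positivity)
        _ = _ := by ring
    push Not at ha
    have hf0 : ∀ Q ⊆ P, (Q.filter (· < p0)).card = 0 := fun Q hQ => Finset.card_eq_zero.2
      (Finset.filter_eq_empty_iff.2 fun x hx => not_lt.2 (ha x (hQ hx)))
    rw [hf0 P (subset_refl _), pow_zero, mul_one]
    by_cases hb : ∃ p ∈ P, wsum (rr p) (expSet p V W ×ˢ expSet p V W) (m p) (n p) ≤ X
    · obtain ⟨p, hp, hw⟩ := hb
      refine (hall p hp).trans ?_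
      rw [hf0 _ (Finset.erase_subset _ _), pow_zero, mul_one]
      exact mul_le_mul_of_nonneg_left (mul_le_mul_of_nonneg_left hw hD0) (by norm_num)
    push Not at hb
    have hc : ∀ p, ∃ k, p ∈ P → wsum (rr p)
        (((expSet p V W).erase k) ×ˢ ((expSet p V W).erase k)) (m p) (n p) ≤ excB p * X := by
      intro p
      by_cases hp : p ∈ P
      · obtain ⟨k, hk⟩ := conc (rr_nonneg p) (rr_le (hP p hp)) (hm0 p) (hn0 p)
          (by rw [hMX]; exact hb p hp)
        exact ⟨k, fun _ => by rw [excB]; rwa [hMX] at hk⟩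
      · exact ⟨0, fun h => absurd h hp⟩
    choose k hk using hc
    have hgood : pairSum μ (goodG P k G) V W ≤ D * X :=
      hfin P V W k c d hVS hWS (fun p hp => ⟨hP p hp, ha p hp⟩) hst
    have hdecomp : pairSum μ G V W ≤ pairSum μ (goodG P k G) V W + ∑ p ∈ P,
        pairSum μ G (V.filter fun q => q.factorization p ≠ k p)
          (W.filter fun q => q.factorization p ≠ k p) := by
      have e : ∀ p, pairSum μ G (V.filter fun q => q.factorization p ≠ k p)
          (W.filter fun q => q.factorization p ≠ k p) = ∑ q ∈ V, ∑ r ∈ W,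
            if q.factorization p ≠ k p ∧ r.factorization p ≠ k p then μ q * μ r * G q r else 0 := by
        intro p
        unfold pairSum
        rw [Finset.sum_filter]
        refine Finset.sum_congr rfl fun q _ => ?_
        by_cases h : q.factorization p ≠ k p
        · rw [if_pos h, Finset.sum_filter]
          refine Finset.sum_congr rfl fun r _ => ?_
          simp [h]
        · rw [if_neg h, Finset.sum_eq_zero fun r _ => if_neg fun h' => h h'.1]
      simp only [e]
      unfold pairSum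
      rw [Finset.sum_comm (s := P), ← Finset.sum_add_distrib]
      refine Finset.sum_le_sum fun q _ => ?_
      rw [Finset.sum_comm (s := P), ← Finset.sum_add_distrib]
      refine Finset.sum_le_sum fun r _ => ?_
      have h0 : 0 ≤ μ q * μ r * G q r := mul_nonneg (mul_nonneg (hμ q) (hμ r)) (hG q r)
      have hnn : ∀ p ∈ P, 0 ≤
          if q.factorization p ≠ k p ∧ r.factorization p ≠ k p then μ q * μ r * G q r else 0 :=
        fun p _ => by split <;> first | exact h0 | exact le_rfl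
      by_cases hgp : GoodPair P k q r
      · rw [goodG, if_pos hgp]
        exact le_add_of_nonneg_right (Finset.sum_nonneg hnn)
      · rw [goodG, if_neg hgp, mul_zero, zero_add]
        simp only [GoodPair, not_forall, not_or] at hgp
        obtain ⟨p, hp, h1, h2⟩ := hgp
        exact le_trans (le_of_eq (if_pos ⟨h1, h2⟩).symm) (Finset.single_le_sum hnn hp)
    have hbadp : ∀ p ∈ P, pairSum μ G (V.filter fun q => q.factorization p ≠ k p)
        (W.filter fun q => q.factorization p ≠ k p) ≤ 2 * (D * (excB p * X)) := by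
      intro p hp
      set V' := V.filter fun q => q.factorization p ≠ k p with hV'
      set W' := W.filter fun q => q.factorization p ≠ k p with hW'
      have hVsub : V' ⊆ V := Finset.filter_subset _ _
      have hWsub : W' ⊆ W := Finset.filter_subset _ _
      have hst' : IsState P V' W' c d := ⟨fun q hq q' hq' => hst.1 q (hVsub hq) q' (hVsub hq'),
        fun q hq q' hq' => hst.2.1 q (hWsub hq) q' (hWsub hq'),
        fun q hq r hr => hst.2.2 q (hVsub hq) r (hWsub hr)⟩
      set I := (expSet p V W).erase (k p) with hI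
      have hVI : ∀ q ∈ V', q.factorization p ∈ I := fun q hq => Finset.mem_erase.2
        ⟨(Finset.mem_filter.1 hq).2, mem_expSet_left q (hVsub hq)⟩
      have hWI : ∀ q ∈ W', q.factorization p ∈ I := fun q hq => Finset.mem_erase.2
        ⟨(Finset.mem_filter.1 hq).2, mem_expSet_right q (hWsub hq)⟩
      have h := split_le (fun q hq => hS q (hVS (hVsub hq))) (fun q hq => hS q (hWS (hWsub hq)))
        hst' hp hVI hWI _ (subset_refl _) (fun z h h' => absurd h h')
        (fun V'' W'' c' d' h1 h2 => hrec p hp V'' W'' c' d' (h1.trans hVsub) (h2.trans hWsub))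
      have hw : wsum (rr p) (I ×ˢ I) (fun i => msum μ (expFib p i V'))
          (fun i => msum μ (expFib p i W')) = wsum (rr p) (I ×ˢ I) (m p) (n p) := by
        refine Finset.sum_congr rfl fun z hz => ?_
        obtain ⟨h1, h2⟩ := Finset.mem_product.1 hz
        have hf : ∀ (U : Finset ℕ) (i : ℕ), i ∈ I →
            expFib p i (U.filter fun q => q.factorization p ≠ k p) = expFib p i U := by
          intro U i hi
          have := Finset.ne_of_mem_erase hi
          ext q
          simp only [expFib, Finset.mem_filter]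
          exact ⟨fun h => ⟨h.1.1, h.2⟩, fun h => ⟨⟨h.1, h.2 ▸ this⟩, h.2⟩⟩
        simp only [hm, hn, hV', hW', hf _ _ h1, hf _ _ h2]
      rw [hw, hf0 _ (Finset.erase_subset _ _), pow_zero, mul_one] at h
      refine h.trans ?_
      calc 2 * δ * ((c * d : ℕ) : ℝ) ^ (-tauE) * wsum (rr p) (I ×ˢ I) (m p) (n p)
          ≤ 2 * δ * ((c * d : ℕ) : ℝ) ^ (-tauE) * (excB p * X) :=
            mul_le_mul_of_nonneg_left (hk p hp)
              (mul_nonneg (mul_nonneg (by norm_num) hδ) (Real.rpow_nonneg (Nat.cast_nonneg _) _))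
        _ = _ := by rw [hD]; ring
    calc pairSum μ G V W ≤ D * X + ∑ p ∈ P, 2 * (D * (excB p * X)) :=
          hdecomp.trans (add_le_add hgood (Finset.sum_le_sum hbadp))
      _ = D * X + 2 * (∑ p ∈ P, excB p) * (D * X) := by
          rw [Finset.mul_sum, Finset.sum_mul]
          congr 1
          exact Finset.sum_congr rfl fun p _ => by ring
      _ ≤ D * X + 2 * (1 / 2) * (D * X) := by
          gcongr
          exact hp0 P ha
      _ = _ := by ring

theorem bilinear_state :
    ∃ (p0 : ℕ) (K : ℝ), ∀ (μ : ℕ → ℝ) (G : ℕ → ℕ → ℝ) (δ : ℝ) (S : Finset ℕ),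
      (∀ q, 0 ≤ μ q) → (∀ q r, 0 ≤ G q r) → 0 ≤ δ → (∀ q ∈ S, 0 < q) →
      FinalHyp p0 μ G δ S →
      ∀ (P V W : Finset ℕ) (c d : ℕ), V ⊆ S → W ⊆ S → (∀ p ∈ P, p.Prime) →
        IsState P V W c d →
        pairSum μ G V W ≤ K * δ * ((c * d : ℕ) : ℝ) ^ (-tauE) * (msum μ V * msum μ W) ^ aE := by
  obtain ⟨p0, hp0⟩ := exists_tail
  refine ⟨p0, 2 * 9 ^ p0, fun μ G δ S hμ hG hδ hS hfin P V W c d hV hW hP hst => ?_⟩
  refine (state_aux hp0 hμ hG hδ hS hfin P V W c d hV hW hP hst).trans ?_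
  have hcard : (P.filter (· < p0)).card ≤ p0 := by
    refine le_trans (Finset.card_le_card fun x hx => ?_) (le_of_eq (Finset.card_range p0))
    exact Finset.mem_range.2 (Finset.mem_filter.1 hx).2
  have h9 : (9 : ℝ) ^ (P.filter (· < p0)).card ≤ 9 ^ p0 := pow_le_pow_right₀ (by norm_num) hcard
  have hX0 : 0 ≤ (msum μ V * msum μ W) ^ aE := Real.rpow_nonneg
    (mul_nonneg (Finset.sum_nonneg fun q _ => hμ q) (Finset.sum_nonneg fun q _ => hμ q)) _
  gcongr

lemma state_univ {P S : Finset ℕ} (hS : ∀ q ∈ S, 0 < q) (hP : ∀ q ∈ S, q.primeFactors ⊆ P) :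
    IsState P S S 1 1 := by
  have hz : ∀ q ∈ S, ∀ p, p ∉ P → q.factorization p = 0 := fun q hq p hp => by
    rw [← Finsupp.notMem_support_iff, Nat.support_factorization]
    exact fun h => hp (hP q hq h)
  refine ⟨fun q hq q' hq' p _ hp => by rw [hz q hq p hp, hz q' hq' p hp],
    fun q hq q' hq' p _ hp => by rw [hz q hq p hp, hz q' hq' p hp], fun q hq r hr => ?_⟩
  have he : ∀ (s t : ℕ), s ∈ S → t ∣ s → 0 < s → outPart P t = 1 := by
    intro s t hs hts h0
    rw [outPart, Finset.prod_eq_one]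
    intro p hp
    obtain ⟨hp1, hp2⟩ := Finset.mem_sdiff.1 hp
    exact absurd (hP s hs (Nat.primeFactors_mono hts h0.ne' hp1)) hp2
  exact ⟨he q _ hq (Nat.div_dvd_of_dvd (Nat.gcd_dvd_left q r)) (hS q hq),
    he r _ hr (Nat.div_dvd_of_dvd (Nat.gcd_dvd_right q r)) (hS r hr)⟩

theorem bilinear :
    ∃ (p0 : ℕ) (K : ℝ), ∀ (μ : ℕ → ℝ) (G : ℕ → ℕ → ℝ) (δ : ℝ) (S : Finset ℕ),
      (∀ q, 0 ≤ μ q) → (∀ q r, 0 ≤ G q r) → 0 ≤ δ → (∀ q ∈ S, 0 < q) →
      FinalHyp p0 μ G δ S →
      pairSum μ G S S ≤ K * δ * (msum μ S * msum μ S) ^ aE := by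
  obtain ⟨p0, K, h⟩ := bilinear_state
  refine ⟨p0, K, fun μ G δ S hμ hG hδ hS hfin => ?_⟩
  have := h μ G δ S hμ hG hδ hS hfin (S.biUnion Nat.primeFactors) S S 1 1 (subset_refl _)
    (subset_refl _) (fun p hp => by
      obtain ⟨q, _, hq⟩ := Finset.mem_biUnion.1 hp
      exact Nat.prime_of_mem_primeFactors hq)
    (state_univ hS fun q hq p hp => Finset.mem_biUnion.2 ⟨q, hq, hp⟩)
  simpa using this

/-- Splitting first at the primes of `e` gains `e^{-τ}` on the pairs with `e ∣ v`. -/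
theorem bilinear_presplit :
    ∃ (p0 : ℕ) (K : ℝ), ∀ (μ : ℕ → ℝ) (G : ℕ → ℕ → ℝ) (δ : ℝ) (S : Finset ℕ) (e : ℕ),
      (∀ q, 0 ≤ μ q) → (∀ q r, 0 ≤ G q r) → 0 ≤ δ → (∀ q ∈ S, 0 < q) → 0 < e →
      FinalHyp p0 μ G δ S →
      pairSum μ (fun q r => if e ∣ vv q r then G q r else 0) S S
        ≤ K * δ * (6 : ℝ) ^ e.primeFactors.card * (e : ℝ) ^ (-tauE)
            * (msum μ S * msum μ S) ^ aE := by
  obtain ⟨p0, K, h⟩ := bilinear_state
  refine ⟨p0, max K 0, fun μ G δ S e hμ hG hδ hS he hfin => ?_⟩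
  set G' : Finset ℕ → ℕ → ℕ → ℝ := fun T q r =>
    if ∀ p ∈ T, e.factorization p ≤ (vv q r).factorization p then G q r else 0 with hG'
  have key : ∀ T : Finset ℕ, ∀ (P V W : Finset ℕ) (c d : ℕ), T ⊆ P → V ⊆ S → W ⊆ S →
      (∀ p ∈ P, p.Prime) → IsState P V W c d →
      pairSum μ (G' T) V W ≤ (max K 0 * δ * ∏ p ∈ T, 6 * rr p ^ e.factorization p) *
        ((c * d : ℕ) : ℝ) ^ (-tauE) * (msum μ V * msum μ W) ^ aE := by
    intro T
    induction T using Finset.induction_on with
    | empty =>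
      intro P V W c d _ hV hW hP hst
      have hGG : G' ∅ = G := by funext q r; simp [hG']
      rw [hGG, Finset.prod_empty, mul_one]
      refine (h μ G δ S hμ hG hδ hS hfin P V W c d hV hW hP hst).trans ?_
      have hX0 : 0 ≤ (msum μ V * msum μ W) ^ aE := Real.rpow_nonneg
        (mul_nonneg (Finset.sum_nonneg fun q _ => hμ q) (Finset.sum_nonneg fun q _ => hμ q)) _
      gcongr
      exact le_max_left _ _
    | @insert p T hpT ih =>
      intro P V W c d hTP hV hW hP hst
      have hpP : p ∈ P := hTP (Finset.mem_insert_self _ _)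
      set I := expSet p V W with hI
      set ν := e.factorization p with hν
      set U := (I ×ˢ I).filter (fun z => ν ≤ z.2 - z.1) with hU
      have hzero : ∀ z ∈ I ×ˢ I, z ∉ U →
          pairSum μ (G' (insert p T)) (expFib p z.1 V) (expFib p z.2 W) = 0 := by
        intro z hz hzU
        refine Finset.sum_eq_zero fun q hq => Finset.sum_eq_zero fun r hr => ?_
        obtain ⟨hq, hqi⟩ := Finset.mem_filter.1 hq
        obtain ⟨hr, hrj⟩ := Finset.mem_filter.1 hr
        have hn : ¬ ∀ x ∈ insert p T, e.factorization x ≤ (vv q r).factorization x := by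
          intro hall
          refine hzU (Finset.mem_filter.2 ⟨hz, ?_⟩)
          have := hall p (Finset.mem_insert_self _ _)
          rwa [factorization_vv (hS q (hV hq)) (hS r (hW hr)), hqi, hrj] at this
        simp only [hG', if_neg hn, mul_zero]
      refine (split_le (K := max K 0 * δ * ∏ x ∈ T, 6 * rr x ^ e.factorization x)
        (fun q hq => hS q (hV hq)) (fun q hq => hS q (hW hq)) hst hpP
        mem_expSet_left mem_expSet_right U (Finset.filter_subset _ _) hzero ?_).trans ?_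
      · intro V' W' c' d' hV' hW' hst'
        refine le_trans ?_ (ih (P.erase p) V' W' c' d' (fun x hx => Finset.mem_erase.2
          ⟨fun h => hpT (h ▸ hx), hTP (Finset.mem_insert_of_mem hx)⟩) (hV'.trans hV) (hW'.trans hW)
          (fun x hx => hP x (Finset.mem_of_mem_erase hx)) hst')
        refine Finset.sum_le_sum fun q _ => Finset.sum_le_sum fun r _ =>
          mul_le_mul_of_nonneg_left ?_ (mul_nonneg (hμ q) (hμ r))
        simp only [hG']
        split_ifs with h1 h2 h3
        · exact le_rfl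
        · exact absurd (fun x hx => h1 x (Finset.mem_insert_of_mem hx)) h2
        · exact hG q r
        · exact le_rfl
      · have hr0 := rr_nonneg p
        have hr := rr_le (hP p hpP)
        have hgeom : ∑ z ∈ U.image (fun z => (z.2 : ℤ) - z.1), rr p ^ z.natAbs ≤
            6 * rr p ^ ν := by
          rcases Nat.eq_zero_or_pos ν with h0 | h0
          · rw [h0, pow_zero, mul_one]
            have hr1 : rr p < 1 := by linarith
            have h5 : 2 * rr p / (1 - rr p) ≤ 5 := by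
              rw [div_le_iff₀ (by linarith)]
              linarith [rr_le_five (hP p hpP)]
            exact (diff_geom hr0 hr1 _).1.trans (by linarith)
          · rw [← Finset.sum_image (g := Int.natAbs) (f := fun x : ℕ => rr p ^ x)]
            · refine (geom_finset_le hr0 (by linarith) _ ν ?_).trans ?_
              · intro x hx
                obtain ⟨w, hw, rfl⟩ := Finset.mem_image.1 hx
                obtain ⟨z, hz, rfl⟩ := Finset.mem_image.1 hw
                have := (Finset.mem_filter.1 hz).2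
                omega
              · rw [div_le_iff₀ (by linarith)]
                nlinarith [pow_nonneg hr0 ν]
            · intro a ha b hb hab
              obtain ⟨z, hz, rfl⟩ := Finset.mem_image.1 ha
              obtain ⟨z', hz', rfl⟩ := Finset.mem_image.1 hb
              have := (Finset.mem_filter.1 hz).2
              have := (Finset.mem_filter.1 hz').2
              omega
        have hw := (wsum_le (I := I) hr0 (Finset.filter_subset _ _)
          (fun i => Finset.sum_nonneg fun q _ => hμ q)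
          (fun i => Finset.sum_nonneg fun q _ => hμ q) :
          wsum (rr p) U (fun i => msum μ (expFib p i V)) (fun i => msum μ (expFib p i W)) ≤ _)
        rw [hI, msum_fib mem_expSet_left, msum_fib mem_expSet_right] at hw
        rw [Finset.prod_insert hpT]
        calc _ ≤ max K 0 * δ * (∏ x ∈ T, 6 * rr x ^ e.factorization x) *
              ((c * d : ℕ) : ℝ) ^ (-tauE) * (6 * rr p ^ ν * (msum μ V * msum μ W) ^ aE) := by
              refine mul_le_mul_of_nonneg_left (hw.trans (mul_le_mul_of_nonneg_right hgeom ?_)) ?_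
              · exact Real.rpow_nonneg (mul_nonneg (Finset.sum_nonneg fun q _ => hμ q)
                  (Finset.sum_nonneg fun q _ => hμ q)) _
              · have : ∀ x ∈ T, (0 : ℝ) ≤ 6 * rr x ^ e.factorization x := fun x _ =>
                  mul_nonneg (by norm_num) (pow_nonneg (rr_nonneg x) _)
                exact mul_nonneg (mul_nonneg (mul_nonneg (le_max_right _ _) hδ)
                  (Finset.prod_nonneg this)) (Real.rpow_nonneg (Nat.cast_nonneg _) _)
          _ = _ := by ring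
  set P := S.biUnion Nat.primeFactors ∪ e.primeFactors with hP
  have hmain := key e.primeFactors P S S 1 1 Finset.subset_union_right (subset_refl _)
    (subset_refl _) (fun p hp => by
      rcases Finset.mem_union.1 hp with hp | hp
      · obtain ⟨q, _, hq⟩ := Finset.mem_biUnion.1 hp
        exact Nat.prime_of_mem_primeFactors hq
      · exact Nat.prime_of_mem_primeFactors hp)
    (state_univ hS fun q hq p hp => Finset.mem_union_left _ (Finset.mem_biUnion.2 ⟨q, hq, hp⟩))
  have hprod : ∏ p ∈ e.primeFactors, 6 * rr p ^ e.factorization p =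
      (6 : ℝ) ^ e.primeFactors.card * (e : ℝ) ^ (-tauE) := by
    rw [Finset.prod_mul_distrib, Finset.prod_const]
    congr 1
    conv_rhs => rw [← Nat.prod_factorization_pow_eq_self he.ne']
    rw [Finsupp.prod, Nat.support_factorization, Nat.cast_prod,
      ← Real.finsetProd_rpow _ _ (fun i _ => Nat.cast_nonneg _)]
    refine Finset.prod_congr rfl fun p _ => ?_
    rw [Nat.cast_pow, rr, ← Real.rpow_natCast, ← Real.rpow_natCast,
      ← Real.rpow_mul (Nat.cast_nonneg p), ← Real.rpow_mul (Nat.cast_nonneg p), mul_comm (-tauE)]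
  have hle : pairSum μ (fun q r => if e ∣ vv q r then G q r else 0) S S ≤
      pairSum μ (G' e.primeFactors) S S := by
    refine Finset.sum_le_sum fun q hq => Finset.sum_le_sum fun r hr =>
      mul_le_mul_of_nonneg_left ?_ (mul_nonneg (hμ q) (hμ r))
    simp only [hG']
    by_cases hd : e ∣ vv q r
    · rw [if_pos hd, if_pos fun p _ => ?_]
      have hv0 : vv q r ≠ 0 := (Nat.div_pos (Nat.gcd_le_right q (hS r hr))
        (Nat.gcd_pos_of_pos_right q (hS r hr))).ne'
      exact (Nat.factorization_le_iff_dvd he.ne' hv0).2 hd p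
    · rw [if_neg hd]
      split
      · exact hG q r
      · exact le_rfl
  rw [hprod] at hmain
  refine hle.trans (hmain.trans (le_of_eq ?_))
  simp only [mul_one, Nat.cast_one, Real.one_rpow]
  ring

end Vale.Agent.P028
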