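import Vale.Agent.P028.Basic
import Vale.Agent.P028.Arith
import Vale.Agent.P028.Bilinear

/-! P028 module SCHUR: the linear bound for good states, and interpolation. -/

namespace Vale.Agent.P028

open Finset

noncomputable def aPart (P : Finset ℕ) (k : ℕ → ℕ) (q : ℕ) : ℕ :=
  ∏ p ∈ P, p ^ (q.factorization p - k p)

noncomputable def bPart (P : Finset ℕ) (k : ℕ → ℕ) (q : ℕ) : ℕ :=
  ∏ p ∈ P, p ^ (k p - q.factorization p)

def nMode (P : Finset ℕ) (k : ℕ → ℕ) : ℕ := ∏ p ∈ P, p ^ k p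

/-- The integers `a` in `(Z/2, Z]`. -/
noncomputable def dyInt (Z : ℝ) : Finset ℕ :=
  (Finset.Icc 1 ⌊Z⌋₊).filter (fun a : ℕ => Z / 2 < (a : ℝ))

noncomputable def avgA (Z : ℝ) (F : ℕ → ℝ) : ℝ := 1 / Z * ∑ a ∈ dyInt Z, F a

/-- The dyadic class of a pair. -/
def InCls (ψ : ℕ → ℝ) (y1 y2 : ℝ) (q r : ℕ) : Prop :=
  (y1 / 2 < (vv q r : ℝ) * ψ q ∧ (vv q r : ℝ) * ψ q ≤ y1) ∧
    (y2 / 2 < (uu q r : ℝ) * ψ r ∧ (uu q r : ℝ) * ψ r ≤ y2)

open Classical in
noncomputable def clsI (ψ : ℕ → ℝ) (y1 y2 : ℝ) (q r : ℕ) : ℝ :=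
  if InCls ψ y1 y2 q r then 1 else 0

theorem fac_prod_pow (P : Finset ℕ) (hP : ∀ p ∈ P, p.Prime) (e : ℕ → ℕ) (p : ℕ) :
    (∏ q ∈ P, q ^ e q).factorization p = if p ∈ P then e p else 0 := by
  rw [Nat.factorization_prod_apply (fun q hq => pow_ne_zero _ (hP q hq).ne_zero)]
  have h : ∀ q ∈ P, (q ^ e q).factorization p = if q = p then e q else 0 := fun q hq => by
    rw [(hP q hq).factorization_pow, Finsupp.single_apply]
  rw [Finset.sum_congr rfl h, Finset.sum_ite_eq' P p e]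

theorem prod_pow_pos (P : Finset ℕ) (hP : ∀ p ∈ P, p.Prime) (e : ℕ → ℕ) :
    0 < ∏ q ∈ P, q ^ e q :=
  Finset.prod_pos (fun q hq => pow_pos (hP q hq).pos _)

theorem outPart_pos (P : Finset ℕ) (n : ℕ) : 0 < outPart P n :=
  prod_pow_pos _ (fun _ hp => Nat.prime_of_mem_primeFactors (Finset.mem_sdiff.1 hp).1) _

theorem outPart_fac (P : Finset ℕ) (n p : ℕ) :
    (outPart P n).factorization p = if p ∈ P then 0 else n.factorization p := by
  unfold outPart
  rw [fac_prod_pow _ (fun _ hp => Nat.prime_of_mem_primeFactors (Finset.mem_sdiff.1 hp).1)]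
  by_cases h : p ∈ P
  · simp [h]
  · by_cases h2 : p ∈ n.primeFactors
    · simp [h, h2]
    · simp only [h, if_false, Finset.mem_sdiff, h2, false_and]
      rw [← Nat.support_factorization] at h2
      exact (Finsupp.notMem_support_iff.1 h2).symm

theorem uu_pos (q r : ℕ) (hq : 0 < q) : 0 < uu q r :=
  Nat.div_pos (Nat.le_of_dvd hq (Nat.gcd_dvd_left q r)) (Nat.gcd_pos_of_pos_left r hq)

theorem vv_pos (q r : ℕ) (hr : 0 < r) : 0 < vv q r :=
  Nat.div_pos (Nat.le_of_dvd hr (Nat.gcd_dvd_right q r)) (Nat.gcd_pos_of_pos_right q hr)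

theorem uu_fac (q r p : ℕ) (hq : 0 < q) (hr : 0 < r) :
    (uu q r).factorization p = q.factorization p - r.factorization p := by
  unfold uu
  rw [Nat.factorization_div (Nat.gcd_dvd_left q r), Finsupp.tsub_apply,
    Nat.factorization_gcd hq.ne' hr.ne', Finsupp.inf_apply]
  have : q.factorization p ⊓ r.factorization p = min (q.factorization p) (r.factorization p) := rfl
  omega

theorem vv_fac (q r p : ℕ) (hq : 0 < q) (hr : 0 < r) :
    (vv q r).factorization p = r.factorization p - q.factorization p := by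
  unfold vv
  rw [Nat.factorization_div (Nat.gcd_dvd_right q r), Finsupp.tsub_apply,
    Nat.factorization_gcd hq.ne' hr.ne', Finsupp.inf_apply]
  have : q.factorization p ⊓ r.factorization p = min (q.factorization p) (r.factorization p) := rfl
  omega

theorem uu_eq (P : Finset ℕ) (k : ℕ → ℕ) (V W : Finset ℕ) (c d q r : ℕ)
    (hP : ∀ p ∈ P, p.Prime) (hst : IsState P V W c d) (hq : q ∈ V) (hr : r ∈ W)
    (hq0 : 0 < q) (hr0 : 0 < r) (hg : GoodPair P k q r) :
    uu q r = c * aPart P k q * bPart P k r ∧ vv q r = d * aPart P k r * bPart P k q := by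
  obtain ⟨hc, hd⟩ := hst.2.2 q hq r hr
  have key : ∀ u a b : ℕ, 0 < u → 0 < a → 0 < b →
      (∀ p, (u).factorization p =
        (if p ∈ P then 0 else u.factorization p) + a.factorization p + b.factorization p) →
      u = outPart P u * a * b := by
    intro u a b hu ha hb h
    refine Nat.eq_of_factorization_eq hu.ne'
      (Nat.mul_ne_zero (Nat.mul_ne_zero (outPart_pos P u).ne' ha.ne') hb.ne') (fun p => ?_)
    rw [Nat.factorization_mul (Nat.mul_ne_zero (outPart_pos P u).ne' ha.ne') hb.ne',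
      Nat.factorization_mul (outPart_pos P u).ne' ha.ne', Finsupp.add_apply, Finsupp.add_apply,
      outPart_fac]
    exact h p
  constructor
  · have h := key (uu q r) (aPart P k q) (bPart P k r) (uu_pos q r hq0)
      (prod_pow_pos P hP _) (prod_pow_pos P hP _) (fun p => ?_)
    · rwa [hc] at h
    · unfold aPart bPart
      rw [fac_prod_pow P hP, fac_prod_pow P hP, uu_fac q r p hq0 hr0]
      by_cases hp : p ∈ P
      · simp only [hp, if_true]
        rcases hg p hp with h | h <;> omega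
      · simp only [hp, if_false]
        omega
  · have h := key (vv q r) (aPart P k r) (bPart P k q) (vv_pos q r hr0)
      (prod_pow_pos P hP _) (prod_pow_pos P hP _) (fun p => ?_)
    · rwa [hd] at h
    · unfold aPart bPart
      rw [fac_prod_pow P hP, fac_prod_pow P hP, vv_fac q r p hq0 hr0]
      by_cases hp : p ∈ P
      · simp only [hp, if_true]
        rcases hg p hp with h | h <;> omega
      · simp only [hp, if_false]
        omega

theorem bPart_dvd (P : Finset ℕ) (k : ℕ → ℕ) (q : ℕ) : bPart P k q ∣ nMode P k :=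
  Finset.prod_dvd_prod_of_dvd _ _ (fun p _ => pow_dvd_pow p (Nat.sub_le _ _))

theorem th_le_mode (P : Finset ℕ) (k : ℕ → ℕ) (q : ℕ) (hP : ∀ p ∈ P, p.Prime) (hq : 0 < q) :
    th q ≤ th (nMode P k) * Ph (bPart P k q) := by
  have hN : 0 < nMode P k := prod_pow_pos P hP k
  have hb : 0 < bPart P k q := prod_pow_pos P hP _
  rw [th_eq_prod q hq, th_eq_prod _ hN, Ph_eq_prod _ hb]
  set f : ℕ → ℝ := fun p => 1 - 1 / (p : ℝ) with hf
  have hfpos : ∀ n p : ℕ, p ∈ n.primeFactors → 0 < f p ∧ f p ≤ 1 := by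
    intro n p hp
    have h2 : (2:ℝ) ≤ p := by exact_mod_cast (Nat.prime_of_mem_primeFactors hp).two_le
    have h3 : 1 / (p:ℝ) ≤ 1 / 2 := one_div_le_one_div_of_le (by norm_num) h2
    have h4 : 0 ≤ 1 / (p:ℝ) := by positivity
    simp only [hf]
    constructor <;> linarith
  have hinv : ∏ p ∈ (bPart P k q).primeFactors, (p : ℝ) / ((p : ℝ) - 1)
      = (∏ p ∈ (bPart P k q).primeFactors, f p)⁻¹ := by
    rw [← Finset.prod_inv_distrib]
    refine Finset.prod_congr rfl (fun p hp => ?_)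
    have h2 : (2:ℝ) ≤ p := by exact_mod_cast (Nat.prime_of_mem_primeFactors hp).two_le
    simp only [hf]
    rw [one_sub_div (by linarith : (p:ℝ) ≠ 0), inv_div]
  rw [hinv, ← div_eq_mul_inv, le_div_iff₀ (Finset.prod_pos (fun p hp => (hfpos _ p hp).1)),
    ← Finset.prod_union_inter]
  have hsub : (nMode P k).primeFactors ⊆ q.primeFactors ∪ (bPart P k q).primeFactors := by
    intro p hp
    rw [← Nat.support_factorization, Finsupp.mem_support_iff, nMode, fac_prod_pow P hP] at hp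
    rw [Finset.mem_union, ← Nat.support_factorization, ← Nat.support_factorization,
      Finsupp.mem_support_iff, Finsupp.mem_support_iff, bPart, fac_prod_pow P hP]
    by_cases h : p ∈ P
    · simp only [h, if_true] at hp ⊢
      omega
    · simp [h] at hp
  have hmem : ∀ p ∈ q.primeFactors ∪ (bPart P k q).primeFactors, 0 < f p ∧ f p ≤ 1 := by
    intro p hp
    rcases Finset.mem_union.1 hp with h | h <;> exact hfpos _ p h
  have h1 : ∏ p ∈ q.primeFactors ∪ (bPart P k q).primeFactors, f p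
      ≤ ∏ p ∈ (nMode P k).primeFactors, f p := by
    rw [← Finset.prod_sdiff hsub]
    refine mul_le_of_le_one_left (Finset.prod_nonneg (fun p hp => (hfpos _ p hp).1.le)) ?_
    exact Finset.prod_le_one (fun p hp => (hmem p (Finset.mem_sdiff.1 hp).1).1.le)
      (fun p hp => (hmem p (Finset.mem_sdiff.1 hp).1).2)
  refine le_trans ?_ h1
  refine mul_le_of_le_one_right (Finset.prod_nonneg (fun p hp => (hmem p hp).1.le)) ?_
  exact Finset.prod_le_one (fun p hp => (hfpos _ p (Finset.mem_inter.1 hp).1).1.le)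
    (fun p hp => (hfpos _ p (Finset.mem_inter.1 hp).1).2)

theorem ab_injective (P : Finset ℕ) (k : ℕ → ℕ) (W : Finset ℕ) (hP : ∀ p ∈ P, p.Prime)
    (hW : ConstOff P W) (h0 : ∀ r ∈ W, 0 < r) (r r' : ℕ) (hr : r ∈ W) (hr' : r' ∈ W)
    (ha : aPart P k r = aPart P k r') (hb : bPart P k r = bPart P k r') : r = r' := by
  refine Nat.eq_of_factorization_eq (h0 r hr).ne' (h0 r' hr').ne' (fun p => ?_)
  by_cases hp : p ∈ P
  · have h1 := congrArg (fun n => n.factorization p) ha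
    have h2 := congrArg (fun n => n.factorization p) hb
    simp only [aPart, bPart, fac_prod_pow P hP, hp, if_true] at h1 h2
    omega
  · by_cases hpp : p.Prime
    · exact hW r hr r' hr' p hpp hp
    · rw [Nat.factorization_eq_zero_of_not_prime _ hpp, Nat.factorization_eq_zero_of_not_prime _ hpp]

theorem avgA_nonneg (Z : ℝ) (F : ℕ → ℝ) (hZ : 0 ≤ Z) (hF : ∀ a, 0 ≤ F a) : 0 ≤ avgA Z F :=
  mul_nonneg (one_div_nonneg.2 hZ) (Finset.sum_nonneg (fun a _ => hF a))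

open Classical in
/-- One side of the Cauchy-Schwarz step. -/
theorem schur_side (ψ : ℕ → ℝ) (P V W : Finset ℕ) (k : ℕ → ℕ) (c d : ℕ) (y1 y2 : ℝ)
    (R : ℕ → ℕ → Prop) (GA : ℕ → ℕ → ℕ → ℝ) (KA : ℝ)
    (hψ : ∀ q, 0 ≤ ψ q) (hP : ∀ p ∈ P, p.Prime) (hV : ∀ q ∈ V, 0 < q ∧ 0 < ψ q)
    (hW : ∀ r ∈ W, 0 < r ∧ 0 < ψ r) (hWc : ConstOff P W) (hy1 : 0 < y1) (hy2 : 0 < y2)
    (hc : 0 < c) (hd : 0 < d) (hGA : ∀ q a b, 0 ≤ GA q a b)
    (hR : ∀ q ∈ V, ∀ r ∈ W, R q r →
      y1 / 2 < ((d * aPart P k r * bPart P k q : ℕ) : ℝ) * ψ q ∧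
      ((d * aPart P k r * bPart P k q : ℕ) : ℝ) * ψ q ≤ y1 ∧
      ((c * aPart P k q * bPart P k r : ℕ) : ℝ) * ψ r ≤ y2)
    (hA : ∀ q ∈ V, ∑ b' ∈ (nMode P k).divisors, rhoN (nMode P k) b' *
        avgA (y1 / (ψ q * (bPart P k q : ℝ) * (d : ℝ))) (fun a' => GA q a' b' ^ 2) ≤ KA) :
    ∑ q ∈ V, ∑ r ∈ W, (if R q r then mu ψ q * mu ψ r * (GA q (aPart P k r) (bPart P k r) ^ 2 *
        ((aPart P k q : ℝ) * bPart P k q * d * ψ q / y1)) else 0)
      ≤ y2 / c * KA * msum (mu ψ) V := by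
  unfold msum
  rw [Finset.mul_sum]
  refine Finset.sum_le_sum (fun q hq => ?_)
  obtain ⟨hq0, hψq⟩ := hV q hq
  set N := nMode P k with hN
  have hNpos : 0 < N := prod_pow_pos P hP k
  have hbq : (0:ℝ) < bPart P k q := by exact_mod_cast prod_pow_pos P hP _
  have haq : (0:ℝ) < aPart P k q := by exact_mod_cast prod_pow_pos P hP _
  have hcR : (0:ℝ) < c := by exact_mod_cast hc
  have hdR : (0:ℝ) < d := by exact_mod_cast hd
  set Z := y1 / (ψ q * (bPart P k q : ℝ) * (d : ℝ)) with hZ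
  have hZpos : 0 < Z := by positivity
  have hμq : 0 ≤ mu ψ q := mul_nonneg (div_nonneg (Nat.cast_nonneg _) (Nat.cast_nonneg _)) (hψ q)
  set F : ℕ × ℕ → ℝ := fun x => rhoN N x.2 * (y2 / c) * (1 / Z) * GA q x.1 x.2 ^ 2 with hF
  have hrho : ∀ b, 0 ≤ rhoN N b := fun b =>
    div_nonneg (mul_nonneg (div_nonneg (Nat.cast_nonneg _) (Nat.cast_nonneg _))
      (div_nonneg (Nat.cast_nonneg _) (Nat.cast_nonneg _))) (Nat.cast_nonneg _)
  have step1 : ∑ r ∈ W, (if R q r then mu ψ q * mu ψ r *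
      (GA q (aPart P k r) (bPart P k r) ^ 2 *
        ((aPart P k q : ℝ) * bPart P k q * d * ψ q / y1)) else 0)
      ≤ mu ψ q * ∑ r ∈ W.filter (R q), F (aPart P k r, bPart P k r) := by
    rw [← Finset.sum_filter, Finset.mul_sum]
    refine Finset.sum_le_sum (fun r hr => ?_)
    obtain ⟨hrW, hrR⟩ := Finset.mem_filter.1 hr
    obtain ⟨_, _, h3⟩ := hR q hq r hrW hrR
    push_cast at h3
    have hbr : (0:ℝ) < bPart P k r := by exact_mod_cast prod_pow_pos P hP _
    have hψr : ψ r ≤ y2 / ((c:ℝ) * aPart P k q * bPart P k r) := by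
      rw [le_div_iff₀ (by positivity)]
      linarith
    have hthr : 0 ≤ th r := div_nonneg (Nat.cast_nonneg _) (Nat.cast_nonneg _)
    have hth := th_le_mode P k r hP (hW r hrW).1
    have hμr : mu ψ r ≤ th N * Ph (bPart P k r) * (y2 / ((c:ℝ) * aPart P k q * bPart P k r)) :=
      mul_le_mul hth hψr (hψ r) (le_trans hthr hth)
    have hX : 0 ≤ GA q (aPart P k r) (bPart P k r) ^ 2 *
        ((aPart P k q : ℝ) * bPart P k q * d * ψ q / y1) := by positivity
    calc mu ψ q * mu ψ r * (GA q (aPart P k r) (bPart P k r) ^ 2 *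
          ((aPart P k q : ℝ) * bPart P k q * d * ψ q / y1))
        ≤ mu ψ q * (th N * Ph (bPart P k r) * (y2 / ((c:ℝ) * aPart P k q * bPart P k r))) *
          (GA q (aPart P k r) (bPart P k r) ^ 2 *
          ((aPart P k q : ℝ) * bPart P k q * d * ψ q / y1)) :=
          mul_le_mul_of_nonneg_right (mul_le_mul_of_nonneg_left hμr hμq) hX
      _ = mu ψ q * F (aPart P k r, bPart P k r) := by
          simp only [hF, hZ, rhoN]
          field_simp
  have step2 : ∑ r ∈ W.filter (R q), F (aPart P k r, bPart P k r)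
      ≤ ∑ x ∈ dyInt Z ×ˢ N.divisors, F x := by
    rw [← Finset.sum_image (f := F) (g := fun r => (aPart P k r, bPart P k r))
      (fun r hr r' hr' he => ab_injective P k W hP hWc (fun x hx => (hW x hx).1) r r'
        (Finset.mem_filter.1 hr).1 (Finset.mem_filter.1 hr').1
        (Prod.ext_iff.1 he).1 (Prod.ext_iff.1 he).2)]
    refine Finset.sum_le_sum_of_subset_of_nonneg ?_ (fun x _ _ => ?_)
    · intro x hx
      obtain ⟨r, hr, rfl⟩ := Finset.mem_image.1 hx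
      obtain ⟨hrW, hrR⟩ := Finset.mem_filter.1 hr
      obtain ⟨h1, h2, _⟩ := hR q hq r hrW hrR
      push_cast at h1 h2
      have hle : (aPart P k r : ℝ) ≤ Z := by
        rw [hZ, le_div_iff₀ (by positivity)]
        linarith
      have hgt : Z / 2 < (aPart P k r : ℝ) := by
        rw [hZ, div_div, div_lt_iff₀ (by positivity)]
        linarith
      refine Finset.mem_product.2 ⟨?_, Nat.mem_divisors.2 ⟨bPart_dvd P k r, hNpos.ne'⟩⟩
      exact Finset.mem_filter.2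
        ⟨Finset.mem_Icc.2 ⟨prod_pow_pos P hP _, Nat.le_floor hle⟩, hgt⟩
    · simp only [hF]
      have := hrho x.2
      positivity
  have step3 : ∑ x ∈ dyInt Z ×ˢ N.divisors, F x
      = y2 / c * ∑ b' ∈ N.divisors, rhoN N b' * avgA Z (fun a' => GA q a' b' ^ 2) := by
    rw [Finset.sum_product_right, Finset.mul_sum]
    refine Finset.sum_congr rfl (fun b hb => ?_)
    simp only [hF, avgA, Finset.mul_sum]
    exact Finset.sum_congr rfl (fun a _ => by ring)
  calc _ ≤ mu ψ q * ∑ r ∈ W.filter (R q), F (aPart P k r, bPart P k r) := step1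
    _ ≤ mu ψ q * (y2 / c * ∑ b' ∈ N.divisors, rhoN N b' * avgA Z (fun a' => GA q a' b' ^ 2)) := by
        rw [← step3]; exact mul_le_mul_of_nonneg_left step2 hμq
    _ ≤ mu ψ q * (y2 / c * KA) :=
        mul_le_mul_of_nonneg_left (mul_le_mul_of_nonneg_left (hA q hq) (by positivity)) hμq
    _ = y2 / c * KA * mu ψ q := by ring

open Classical in
theorem schur :
    ∃ C : ℝ, ∀ (ψ : ℕ → ℝ) (P V W : Finset ℕ) (k : ℕ → ℕ) (c d : ℕ) (y1 y2 : ℝ)
      (G : ℕ → ℕ → ℝ) (GA GB : ℕ → ℕ → ℕ → ℝ) (KA KB : ℝ),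
      (∀ q, 0 ≤ ψ q) → (∀ p ∈ P, p.Prime) → (∀ q ∈ V, 0 < q ∧ 0 < ψ q) →
      (∀ r ∈ W, 0 < r ∧ 0 < ψ r) → IsState P V W c d → 0 < y1 → 0 < y2 → 0 ≤ KA → 0 ≤ KB →
      (∀ q r, 0 ≤ G q r) → (∀ q a b, 0 ≤ GA q a b) → (∀ r a b, 0 ≤ GB r a b) →
      (∀ q ∈ V, ∀ r ∈ W, G q r ≠ 0 → InCls ψ y1 y2 q r) →
      (∀ q ∈ V, ∀ r ∈ W, GoodPair P k q r →
        G q r ≤ GA q (aPart P k r) (bPart P k r) * GB r (aPart P k q) (bPart P k q)) →
      (∀ q ∈ V, ∑ b' ∈ (nMode P k).divisors, rhoN (nMode P k) b' *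
          avgA (y1 / (ψ q * (bPart P k q : ℝ) * (d : ℝ))) (fun a' => GA q a' b' ^ 2) ≤ KA) →
      (∀ r ∈ W, ∑ b ∈ (nMode P k).divisors, rhoN (nMode P k) b *
          avgA (y2 / (ψ r * (bPart P k r : ℝ) * (c : ℝ))) (fun a => GB r a b ^ 2) ≤ KB) →
      pairSum (mu ψ) (goodG P k G) V W
        ≤ C * Real.sqrt (KA * KB) * Real.sqrt (y1 * y2) * ((c * d : ℕ) : ℝ) ^ (-(1 / 2 : ℝ))
            * Real.sqrt (msum (mu ψ) V * msum (mu ψ) W) := by
  refine ⟨2, ?_⟩
  intro ψ P V W k c d y1 y2 G GA GB KA KB hψ hP hV hW hst hy1 hy2 hKA hKB hG hGA hGB hsupp hle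
    hA hB
  have hμ : ∀ q, 0 ≤ mu ψ q := fun q =>
    mul_nonneg (div_nonneg (Nat.cast_nonneg _) (Nat.cast_nonneg _)) (hψ q)
  set R : ℕ → ℕ → Prop := fun q r => GoodPair P k q r ∧ G q r ≠ 0 with hRdef
  by_cases hne : ∃ q ∈ V, ∃ r ∈ W, R q r
  swap
  · have h0 : pairSum (mu ψ) (goodG P k G) V W = 0 := by
      refine Finset.sum_eq_zero (fun q hq => Finset.sum_eq_zero (fun r hr => ?_))
      unfold goodG
      split_ifs with hg
      · by_cases hG0 : G q r = 0
        · simp [hG0]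
        · exact absurd ⟨q, hq, r, hr, hg, hG0⟩ hne
      · simp
    rw [h0]
    positivity
  obtain ⟨q₀, hq₀, r₀, hr₀, hR₀⟩ := hne
  have huv₀ := uu_eq P k V W c d q₀ r₀ hP hst hq₀ hr₀ (hV q₀ hq₀).1 (hW r₀ hr₀).1 hR₀.1
  have hc : 0 < c := by
    have := uu_pos q₀ r₀ (hV q₀ hq₀).1
    rw [huv₀.1] at this
    exact Nat.pos_of_mul_pos_right (Nat.pos_of_mul_pos_right this)
  have hd : 0 < d := by
    have := vv_pos q₀ r₀ (hW r₀ hr₀).1
    rw [huv₀.2] at this
    exact Nat.pos_of_mul_pos_right (Nat.pos_of_mul_pos_right this)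
  have hcls : ∀ q ∈ V, ∀ r ∈ W, R q r →
      (y1 / 2 < ((d * aPart P k r * bPart P k q : ℕ) : ℝ) * ψ q ∧
        ((d * aPart P k r * bPart P k q : ℕ) : ℝ) * ψ q ≤ y1) ∧
      (y2 / 2 < ((c * aPart P k q * bPart P k r : ℕ) : ℝ) * ψ r ∧
        ((c * aPart P k q * bPart P k r : ℕ) : ℝ) * ψ r ≤ y2) := by
    intro q hq r hr hR
    obtain ⟨hu, hv⟩ := uu_eq P k V W c d q r hP hst hq hr (hV q hq).1 (hW r hr).1 hR.1
    have hin := hsupp q hq r hr hR.2
    unfold InCls at hin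
    rw [hu, hv] at hin
    exact hin
  set X : ℕ → ℕ → ℝ := fun q r => if R q r then mu ψ q * mu ψ r *
    (GA q (aPart P k r) (bPart P k r) ^ 2 * ((aPart P k q : ℝ) * bPart P k q * d * ψ q / y1))
    else 0 with hX
  set Y : ℕ → ℕ → ℝ := fun q r => if R q r then mu ψ r * mu ψ q *
    (GB r (aPart P k q) (bPart P k q) ^ 2 * ((aPart P k r : ℝ) * bPart P k r * c * ψ r / y2))
    else 0 with hY
  have hX0 : ∀ q r, 0 ≤ X q r := fun q r => by
    simp only [hX]; split_ifs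
    · have := hμ q; have := hμ r; have := hψ q
      positivity
    · exact le_rfl
  have hY0 : ∀ q r, 0 ≤ Y q r := fun q r => by
    simp only [hY]; split_ifs
    · have := hμ q; have := hμ r; have := hψ r
      positivity
    · exact le_rfl
  have hXs : ∑ q ∈ V, ∑ r ∈ W, X q r ≤ y2 / c * KA * msum (mu ψ) V := by
    simp only [hX]
    convert schur_side ψ P V W k c d y1 y2 R GA KA hψ hP hV hW hst.2.1 hy1 hy2 hc hd hGA
      (fun q hq r hr h => ⟨(hcls q hq r hr h).1.1, (hcls q hq r hr h).1.2, (hcls q hq r hr h).2.2⟩)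
      hA using 4
  have hYs : ∑ q ∈ V, ∑ r ∈ W, Y q r ≤ y1 / d * KB * msum (mu ψ) W := by
    rw [Finset.sum_comm]
    simp only [hY]
    convert schur_side ψ P W V k d c y2 y1 (fun r q => R q r) GB KB hψ hP hW hV hst.1 hy2 hy1 hd hc
      hGB (fun r hr q hq h =>
        ⟨(hcls q hq r hr h).2.1, (hcls q hq r hr h).2.2, (hcls q hq r hr h).1.2⟩) hB using 4
  have hpt : ∀ q ∈ V, ∀ r ∈ W, mu ψ q * mu ψ r * goodG P k G q r
      ≤ 2 * (Real.sqrt (X q r) * Real.sqrt (Y q r)) := by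
    intro q hq r hr
    have hrhs : 0 ≤ 2 * (Real.sqrt (X q r) * Real.sqrt (Y q r)) := by positivity
    unfold goodG
    split_ifs with hg
    swap
    · simpa using hrhs
    by_cases hG0 : G q r = 0
    · simpa [hG0] using hrhs
    have hR : R q r := ⟨hg, hG0⟩
    have hμμ : 0 ≤ mu ψ q * mu ψ r := mul_nonneg (hμ q) (hμ r)
    set ga := GA q (aPart P k r) (bPart P k r) with hga
    set gb := GB r (aPart P k q) (bPart P k q) with hgb
    have hga0 : 0 ≤ ga := hGA _ _ _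
    have hgb0 : 0 ≤ gb := hGB _ _ _
    obtain ⟨⟨h1, _⟩, ⟨h3, _⟩⟩ := hcls q hq r hr hR
    push_cast at h1 h3
    have hprod : (1:ℝ) / 4 ≤ ((aPart P k q : ℝ) * bPart P k q * d * ψ q / y1) *
        ((aPart P k r : ℝ) * bPart P k r * c * ψ r / y2) := by
      have h4 := mul_le_mul h1.le h3.le (by linarith) (le_trans (by linarith) h1.le)
      rw [div_mul_div_comm, le_div_iff₀ (mul_pos hy1 hy2)]
      linarith
    have hle' : (mu ψ q * mu ψ r * (ga * gb)) ^ 2 ≤ 4 * (X q r * Y q r) := by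
      have h5 := mul_le_mul_of_nonneg_left hprod (sq_nonneg (mu ψ q * mu ψ r * (ga * gb)))
      simp only [hX, hY, if_pos hR, ← hga, ← hgb]
      nlinarith [h5]
    calc mu ψ q * mu ψ r * G q r ≤ mu ψ q * mu ψ r * (ga * gb) :=
          mul_le_mul_of_nonneg_left (hle q hq r hr hg) hμμ
      _ ≤ Real.sqrt (4 * (X q r * Y q r)) := Real.le_sqrt_of_sq_le hle'
      _ = 2 * (Real.sqrt (X q r) * Real.sqrt (Y q r)) := by
          rw [Real.sqrt_mul (by norm_num : (0:ℝ) ≤ 4), Real.sqrt_mul (hX0 q r)]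
          rw [show (4:ℝ) = 2 ^ 2 by norm_num, Real.sqrt_sq (by norm_num : (0:ℝ) ≤ 2)]
  have hcR : (0:ℝ) < c := by exact_mod_cast hc
  have hdR : (0:ℝ) < d := by exact_mod_cast hd
  have hM : 0 ≤ msum (mu ψ) V := Finset.sum_nonneg (fun q _ => hμ q)
  have hN : 0 ≤ msum (mu ψ) W := Finset.sum_nonneg (fun q _ => hμ q)
  calc pairSum (mu ψ) (goodG P k G) V W
      ≤ ∑ x ∈ V ×ˢ W, 2 * (Real.sqrt (X x.1 x.2) * Real.sqrt (Y x.1 x.2)) := by
        rw [Finset.sum_product]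
        exact Finset.sum_le_sum (fun q hq => Finset.sum_le_sum (fun r hr => hpt q hq r hr))
    _ ≤ 2 * (Real.sqrt (∑ x ∈ V ×ˢ W, X x.1 x.2) * Real.sqrt (∑ x ∈ V ×ˢ W, Y x.1 x.2)) := by
        rw [← Finset.mul_sum]
        exact mul_le_mul_of_nonneg_left
          (Real.sum_sqrt_mul_sqrt_le _ (fun x => hX0 x.1 x.2) (fun x => hY0 x.1 x.2)) (by norm_num)
    _ ≤ 2 * (Real.sqrt (y2 / c * KA * msum (mu ψ) V) *
          Real.sqrt (y1 / d * KB * msum (mu ψ) W)) := by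
        rw [Finset.sum_product, Finset.sum_product]
        gcongr
    _ = _ := by
        rw [← Real.sqrt_mul (by positivity), Nat.cast_mul, Real.rpow_neg (by positivity),
          ← Real.sqrt_eq_rpow,
          show y2 / c * KA * msum (mu ψ) V * (y1 / d * KB * msum (mu ψ) W)
            = KA * KB * (y1 * y2) * (msum (mu ψ) V * msum (mu ψ) W) / ((c:ℝ) * d) by ring,
          Real.sqrt_div' _ (by positivity), Real.sqrt_mul (by positivity),
          Real.sqrt_mul (by positivity : (0:ℝ) ≤ KA * KB)]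
        ring

/-- Interpolation with the trivial bound. -/
theorem interp_indicator (μ : ℕ → ℝ) (G : ℕ → ℕ → ℝ) (V W : Finset ℕ) (R : ℝ)
    (hμ : ∀ q, 0 ≤ μ q) (hG : ∀ q r, 0 ≤ G q r ∧ G q r ≤ 1) (hR : 0 ≤ R)
    (h : pairSum μ G V W ≤ R * Real.sqrt (msum μ V * msum μ W)) :
    pairSum μ G V W ≤ R ^ (1 - 2 * eps) * (msum μ V * msum μ W) ^ aE := by
  set E := pairSum μ G V W with hE
  set X := msum μ V * msum μ W with hX
  have hE0 : 0 ≤ E := Finset.sum_nonneg (fun q _ => Finset.sum_nonneg (fun r _ =>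
    mul_nonneg (mul_nonneg (hμ q) (hμ r)) (hG q r).1))
  have hEX : E ≤ X := by
    rw [hE, hX, msum, msum, Finset.sum_mul_sum]
    exact Finset.sum_le_sum (fun q _ => Finset.sum_le_sum (fun r _ =>
      mul_le_of_le_one_right (mul_nonneg (hμ q) (hμ r)) (hG q r).2))
  have hX0 : 0 ≤ X := le_trans hE0 hEX
  have he : (0:ℝ) < 2 * eps := by unfold eps; norm_num
  have he1 : (0:ℝ) < 1 - 2 * eps := by unfold eps; norm_num
  calc E = E ^ (2 * eps) * E ^ (1 - 2 * eps) := by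
        rw [← Real.rpow_add' hE0 (by norm_num)]; norm_num
    _ ≤ X ^ (2 * eps) * (R * Real.sqrt X) ^ (1 - 2 * eps) :=
        mul_le_mul (Real.rpow_le_rpow hE0 hEX he.le) (Real.rpow_le_rpow hE0 h he1.le)
          (Real.rpow_nonneg hE0 _) (Real.rpow_nonneg hX0 _)
    _ = R ^ (1 - 2 * eps) * X ^ aE := by
        rw [Real.mul_rpow hR (Real.sqrt_nonneg _), Real.sqrt_eq_rpow, ← Real.rpow_mul hX0,
          mul_left_comm, ← Real.rpow_add' hX0 (by unfold eps; norm_num)]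
        congr 2
        unfold aE; ring

theorem interp_general (μ : ℕ → ℝ) (G G' : ℕ → ℕ → ℝ) (V W : Finset ℕ) (R : ℝ)
    (hμ : ∀ q, 0 ≤ μ q) (hG : ∀ q r, 0 ≤ G q r) (hR : 0 ≤ R)
    (hG' : ∀ q r, G q r ^ (1 / (1 - 2 * eps)) ≤ G' q r)
    (h : pairSum μ G' V W ≤ R * Real.sqrt (msum μ V * msum μ W)) :
    pairSum μ G V W ≤ R ^ (1 - 2 * eps) * (msum μ V * msum μ W) ^ aE := by
  set X := msum μ V * msum μ W with hX
  have he : (0:ℝ) < 2 * eps := by unfold eps; norm_num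
  have he1 : (0:ℝ) < 1 - 2 * eps := by unfold eps; norm_num
  have hw : ∀ x : ℕ × ℕ, 0 ≤ μ x.1 * μ x.2 := fun x => mul_nonneg (hμ _) (hμ _)
  have hX0 : 0 ≤ X :=
    mul_nonneg (Finset.sum_nonneg (fun q _ => hμ q)) (Finset.sum_nonneg (fun q _ => hμ q))
  have hpq : Real.HolderConjugate (1 / (2 * eps)) (1 / (1 - 2 * eps)) := by
    refine Real.holderConjugate_iff.2 ⟨?_, ?_⟩
    · rw [lt_div_iff₀ he]; unfold eps; norm_num
    · simp
  have hh := Real.inner_le_Lp_mul_Lq_of_nonneg (V ×ˢ W) hpq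
    (f := fun x => (μ x.1 * μ x.2) ^ (2 * eps))
    (g := fun x => (μ x.1 * μ x.2) ^ (1 - 2 * eps) * G x.1 x.2)
    (fun x _ => Real.rpow_nonneg (hw x) _)
    (fun x _ => mul_nonneg (Real.rpow_nonneg (hw x) _) (hG _ _))
  have e1 : ∀ x : ℕ × ℕ, ((μ x.1 * μ x.2) ^ (2 * eps)) ^ (1 / (2 * eps)) = μ x.1 * μ x.2 :=
    fun x => by rw [← Real.rpow_mul (hw x), mul_one_div, div_self he.ne', Real.rpow_one]
  have e2 : ∀ x : ℕ × ℕ,
      ((μ x.1 * μ x.2) ^ (1 - 2 * eps) * G x.1 x.2) ^ (1 / (1 - 2 * eps))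
        ≤ μ x.1 * μ x.2 * G' x.1 x.2 := fun x => by
    rw [Real.mul_rpow (Real.rpow_nonneg (hw x) _) (hG _ _), ← Real.rpow_mul (hw x), mul_one_div,
      div_self he1.ne', Real.rpow_one]
    exact mul_le_mul_of_nonneg_left (hG' _ _) (hw x)
  have e3 : ∀ x : ℕ × ℕ, (μ x.1 * μ x.2) ^ (2 * eps) *
      ((μ x.1 * μ x.2) ^ (1 - 2 * eps) * G x.1 x.2) = μ x.1 * μ x.2 * G x.1 x.2 := fun x => by
    rw [← mul_assoc, ← Real.rpow_add' (hw x) (by norm_num)]; norm_num
  simp only [e3, e1, one_div_one_div] at hh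
  have hsum1 : ∑ x ∈ V ×ˢ W, μ x.1 * μ x.2 = X := by
    rw [Finset.sum_product, hX, msum, msum, Finset.sum_mul_sum]
  have hG'0 : ∀ q r, 0 ≤ G' q r := fun q r => le_trans (Real.rpow_nonneg (hG q r) _) (hG' q r)
  calc pairSum μ G V W = ∑ x ∈ V ×ˢ W, μ x.1 * μ x.2 * G x.1 x.2 := by
        rw [pairSum, Finset.sum_product]
    _ ≤ X ^ (2 * eps) * (∑ x ∈ V ×ˢ W,
          ((μ x.1 * μ x.2) ^ (1 - 2 * eps) * G x.1 x.2) ^ (1 / (1 - 2 * eps))) ^ (1 - 2 * eps) := by
        rw [← hsum1]; exact hh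
    _ ≤ X ^ (2 * eps) * (R * Real.sqrt X) ^ (1 - 2 * eps) := by
        refine mul_le_mul_of_nonneg_left (Real.rpow_le_rpow ?_ ?_ he1.le) (Real.rpow_nonneg hX0 _)
        · exact Finset.sum_nonneg (fun x _ => Real.rpow_nonneg
            (mul_nonneg (Real.rpow_nonneg (hw x) _) (hG _ _)) _)
        · refine le_trans (Finset.sum_le_sum (fun x _ => e2 x)) ?_
          rw [Finset.sum_product]
          exact h
    _ = R ^ (1 - 2 * eps) * X ^ aE := by
        rw [Real.mul_rpow hR (Real.sqrt_nonneg _), Real.sqrt_eq_rpow, ← Real.rpow_mul hX0,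
          mul_left_comm, ← Real.rpow_add' hX0 (by unfold eps; norm_num)]
        congr 2
        unfold aE; ring

end Vale.Agent.P028
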