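import Vale.Agent.P028.Basic
import Vale.Agent.P028.Schur

/-! P028 module BOHR: integers of a dyadic range in a Bohr set.
With a Dirichlet `A/B` of `α` at `√Z`, the count is `4wZ + O(√Z) + min(Z, 2w/|ε|)/B`. -/

namespace Vale.Agent.P028

open Finset

/-- A set of integers of diameter less than `ℓ` has at most `ℓ + 1` elements. -/
theorem card_int_diam (K : Finset ℤ) (ℓ : ℝ) (hℓ : 0 ≤ ℓ)
    (h : ∀ x ∈ K, ∀ y ∈ K, (x : ℝ) - y ≤ ℓ) : (K.card : ℝ) ≤ ℓ + 1 := by
  rcases K.eq_empty_or_nonempty with he | he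
  · simp [he]; linarith
  have hsub : K ⊆ Finset.Icc (K.min' he) (K.max' he) := fun x hx =>
    Finset.mem_Icc.2 ⟨Finset.min'_le _ _ hx, Finset.le_max' _ _ hx⟩
  have hc := Finset.card_le_card hsub
  rw [Int.card_Icc] at hc
  have hle : K.min' he ≤ K.max' he := Finset.le_max' _ _ (Finset.min'_mem _ _)
  have hc' : (K.card : ℤ) ≤ K.max' he + 1 - K.min' he := by omega
  have hc'' : (K.card : ℝ) ≤ (K.max' he : ℝ) + 1 - K.min' he := by exact_mod_cast hc'
  linarith [h _ (Finset.max'_mem _ he) _ (Finset.min'_mem _ he)]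

/-- Congruent naturals of bounded diameter. -/
theorem card_congr_diam (F : Finset ℕ) (B : ℕ) (ℓ : ℝ) (hB : 0 < B) (hℓ : 0 ≤ ℓ)
    (h : ∀ x ∈ F, ∀ y ∈ F, y ≤ x → (B : ℤ) ∣ (x : ℤ) - y ∧ (x : ℝ) - y ≤ ℓ) :
    (F.card : ℝ) ≤ ℓ / B + 1 := by
  rcases F.eq_empty_or_nonempty with he | he
  · simp [he]; positivity
  set m := F.min' he
  have hmem := Finset.min'_mem F he
  have hmap : ∀ x ∈ F, (x - m) / B ∈ Finset.range (⌊ℓ / B⌋₊ + 1) := by
    intro x hx
    have hmx : m ≤ x := Finset.min'_le _ _ hx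
    obtain ⟨hd, hl⟩ := h x hx m hmem hmx
    rw [Finset.mem_range, Nat.lt_succ_iff, Nat.le_floor_iff (by positivity)]
    have hd' : B ∣ x - m := by
      rw [← Int.natCast_dvd_natCast, Nat.cast_sub hmx]
      exact hd
    rw [Nat.cast_div hd' (by exact_mod_cast hB.ne'), Nat.cast_sub hmx]
    exact div_le_div_of_nonneg_right hl (Nat.cast_nonneg _)
  have hinj : ∀ x ∈ F, ∀ y ∈ F, (x - m) / B = (y - m) / B → x = y := by
    intro x hx y hy hxy
    have hmx : m ≤ x := Finset.min'_le _ _ hx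
    have hmy : m ≤ y := Finset.min'_le _ _ hy
    have hdx : B ∣ x - m := by
      rw [← Int.natCast_dvd_natCast, Nat.cast_sub hmx]
      exact (h x hx m hmem hmx).1
    have hdy : B ∣ y - m := by
      rw [← Int.natCast_dvd_natCast, Nat.cast_sub hmy]
      exact (h y hy m hmem hmy).1
    have := congrArg (fun t => B * t) hxy
    simp only [Nat.mul_div_cancel' hdx, Nat.mul_div_cancel' hdy] at this
    omega
  have hc := Finset.card_le_card_of_injOn _ hmap hinj
  rw [Finset.card_range] at hc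
  calc (F.card : ℝ) ≤ ((⌊ℓ / B⌋₊ + 1 : ℕ) : ℝ) := by exact_mod_cast hc
    _ ≤ ℓ / B + 1 := by
        push_cast
        linarith [Nat.floor_le (show (0:ℝ) ≤ ℓ / B by positivity)]

/-- Counting with a given rational approximation. -/
theorem bohr_count (α c0 w Z ε : ℝ) (A : ℤ) (B : ℕ) (s : Finset ℕ) (hB : 0 < B)
    (hAB : IsCoprime A (B : ℤ)) (hε : (B : ℝ) * α - A = B * ε) (hw : 0 ≤ w) (hZ : 0 ≤ Z)
    (hs : ∀ a ∈ s, (a : ℝ) ≤ Z ∧ distInt (α * a + c0) < w) :
    ∃ M : ℝ, 0 ≤ M ∧ M * B ≤ Z ∧ M * (B * |ε|) ≤ 2 * w ∧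
      (s.card : ℝ) ≤ (B * |ε| * Z + 2 * B * w + 1) * (M + 1) := by
  classical
  set ℓ := if ε = 0 then Z else min Z (2 * w / |ε|) with hℓ
  have hℓ0 : 0 ≤ ℓ := by rw [hℓ]; split <;> positivity
  have hℓZ : ℓ ≤ Z := by rw [hℓ]; split <;> simp
  have hℓε : ℓ * |ε| ≤ 2 * w := by
    rw [hℓ]
    split
    · rename_i h; simp [h]; linarith
    · rename_i h
      have : 0 < |ε| := abs_pos.2 h
      calc min Z (2 * w / |ε|) * |ε| ≤ 2 * w / |ε| * |ε| :=
            mul_le_mul_of_nonneg_right (min_le_right _ _) this.le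
        _ = 2 * w := div_mul_cancel₀ _ this.ne'
  have hBR : (0 : ℝ) < B := by exact_mod_cast hB
  set key := fun a : ℕ => (B : ℤ) * round (α * a + c0) - A * a with hkey
  have hθ : ∀ a ∈ s, |(key a : ℝ) - B * (ε * a + c0)| ≤ B * w := by
    intro a ha
    have h := (hs a ha).2
    rw [distInt] at h
    have e : (key a : ℝ) - B * (ε * a + c0)
        = -((B : ℝ) * (α * a + c0 - (round (α * a + c0) : ℝ))) := by
      simp only [hkey]
      push_cast
      linear_combination (a : ℝ) * hε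
    rw [e, abs_neg, abs_mul, Nat.abs_cast]
    exact mul_le_mul_of_nonneg_left h.le hBR.le
  refine ⟨ℓ / B, by positivity, ?_, ?_, ?_⟩
  · rw [div_mul_cancel₀ _ hBR.ne']; exact hℓZ
  · calc ℓ / B * (B * |ε|) = ℓ * |ε| := by field_simp
      _ ≤ _ := hℓε
  have hK : (((s.image key).card : ℕ) : ℝ) ≤ B * |ε| * Z + 2 * B * w + 1 := by
    refine card_int_diam _ _ (by positivity) (fun x hx y hy => ?_)
    obtain ⟨a, ha, rfl⟩ := Finset.mem_image.1 hx
    obtain ⟨b, hb, rfl⟩ := Finset.mem_image.1 hy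
    have h1 := abs_le.1 (hθ a ha)
    have h2 := abs_le.1 (hθ b hb)
    have h3 : (B : ℝ) * ε * ((a : ℝ) - b) ≤ B * |ε| * Z := by
      have habs : |(a : ℝ) - b| ≤ Z := by
        have := (hs a ha).1
        have := (hs b hb).1
        rw [abs_le]
        constructor <;> linarith [(Nat.cast_nonneg a : (0:ℝ) ≤ a), (Nat.cast_nonneg b : (0:ℝ) ≤ b)]
      calc (B : ℝ) * ε * ((a : ℝ) - b) ≤ |(B : ℝ) * ε * ((a : ℝ) - b)| := le_abs_self _
        _ = B * |ε| * |(a : ℝ) - b| := by rw [abs_mul, abs_mul, Nat.abs_cast]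
        _ ≤ _ := mul_le_mul_of_nonneg_left habs (by positivity)
    linarith
  have hfib : ∀ k ∈ s.image key, ((s.filter (fun a => key a = k)).card : ℝ) ≤ ℓ / B + 1 := by
    intro k _
    refine card_congr_diam _ B ℓ hB hℓ0 (fun a ha b hb hba => ?_)
    obtain ⟨ha, hka⟩ := Finset.mem_filter.1 ha
    obtain ⟨hb, hkb⟩ := Finset.mem_filter.1 hb
    constructor
    · refine hAB.symm.dvd_of_dvd_mul_left ⟨round (α * a + c0) - round (α * b + c0), ?_⟩
      have e := hka.trans hkb.symm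
      simp only [hkey] at e
      linear_combination -e
    · have h1 := abs_le.1 (hθ a ha)
      have h2 := abs_le.1 (hθ b hb)
      rw [hka] at h1
      rw [hkb] at h2
      have hba' : (0 : ℝ) ≤ (a : ℝ) - b := by
        have : (b : ℝ) ≤ a := by exact_mod_cast hba
        linarith
      have h3 : (B : ℝ) * (|ε| * ((a : ℝ) - b)) ≤ B * (2 * w) := by
        have e1 : |(B : ℝ) * (ε * ((a : ℝ) - b))| ≤ B * (2 * w) := by
          rw [abs_le]
          constructor <;> linarith
        rwa [abs_mul, Nat.abs_cast, abs_mul, abs_of_nonneg hba'] at e1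
      have h4 := le_of_mul_le_mul_left h3 hBR
      rw [hℓ]
      split
      · have := (hs a ha).1
        linarith [(Nat.cast_nonneg b : (0:ℝ) ≤ b)]
      · rename_i hne
        refine le_min ?_ ?_
        · have := (hs a ha).1
          linarith [(Nat.cast_nonneg b : (0:ℝ) ≤ b)]
        · rw [le_div_iff₀ (abs_pos.2 hne)]
          linarith
  calc (s.card : ℝ) = ∑ k ∈ s.image key, ((s.filter (fun a => key a = k)).card : ℝ) := by
        rw [Finset.card_eq_sum_card_image key s]; push_cast; rfl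
    _ ≤ ∑ k ∈ s.image key, (ℓ / B + 1) := Finset.sum_le_sum hfib
    _ = ((s.image key).card : ℝ) * (ℓ / B + 1) := by rw [Finset.sum_const, nsmul_eq_mul]
    _ ≤ _ := mul_le_mul_of_nonneg_right hK (by positivity)

theorem bohr_int (σ : ℝ) (hσ0 : 0 < σ) (hσ1 : σ ≤ 1) :
    ∃ C : ℝ, ∀ (α c0 w T Z : ℝ) (s : Finset ℕ),
      1 ≤ T → T ^ σ ≤ Z → 0 < w → w ≤ 1 / T → s ⊆ dyInt Z →
      (∀ a ∈ s, distInt (α * a + c0) < w ∧
        ¬ ∃ B : ℕ, 1 ≤ B ∧ (B : ℝ) ≤ C * T ^ (σ / 4) ∧
            distInt (α * B) ≤ C * T ^ (σ / 4) * w / a) →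
      (s.card : ℝ) ≤ C * Z * T ^ (-(σ / 4)) := by
  refine ⟨20, fun α c0 w T Z s hT hTZ hw hwT hs hmain => ?_⟩
  have hT0 : 0 < T := by linarith
  have hZ1 : 1 ≤ Z := le_trans (Real.one_le_rpow hT hσ0.le) hTZ
  rcases s.eq_empty_or_nonempty with he | ⟨a0, ha0⟩
  · simp [he]; positivity
  set u := T ^ (σ / 4) with hu
  have hu1 : 1 ≤ u := Real.one_le_rpow hT (by linarith)
  have huinv : T ^ (-(σ / 4)) = 1 / u := by rw [Real.rpow_neg hT0.le, hu, one_div]
  set r := Real.sqrt Z with hr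
  have hrr : r * r = Z := Real.mul_self_sqrt (by linarith)
  have hr1 : 1 ≤ r := by rw [hr]; exact Real.one_le_sqrt.2 hZ1
  set n := ⌊r⌋₊ + 1 with hn
  obtain ⟨q, hq, hqn⟩ := Real.exists_rat_abs_sub_le_and_den_le α (n := n) (Nat.succ_pos _)
  set B := q.den with hBdef
  have hB : 0 < B := q.den_pos
  have hBR : (0 : ℝ) < B := by exact_mod_cast hB
  set ε := α - q with hεdef
  have hAB : IsCoprime q.num (B : ℤ) := Int.isCoprime_iff_nat_coprime.2 (by simpa using q.reduced)
  have hqcast : (q : ℝ) * B = q.num := by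
    have := Rat.mul_den_eq_num q
    exact_mod_cast congrArg (fun x : ℚ => (x : ℝ)) this
  have hε : (B : ℝ) * α - q.num = B * ε := by rw [hεdef, ← hqcast]; ring
  have hmem : ∀ a ∈ s, (a : ℝ) ≤ Z ∧ distInt (α * a + c0) < w := by
    intro a ha
    have h := hs ha
    rw [dyInt, Finset.mem_filter, Finset.mem_Icc, Nat.le_floor_iff (by linarith)] at h
    exact ⟨h.1.2, (hmain a ha).1⟩
  obtain ⟨M, hM0, hMB, hMε, hcard⟩ := bohr_count α c0 w Z ε q.num B s hB hAB hε hw.le (by linarith) hmem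
  have hn1 : (r : ℝ) < n := by rw [hn]; push_cast; exact Nat.lt_floor_add_one r
  have hn2 : (n : ℝ) ≤ r + 1 := by
    rw [hn]; push_cast; linarith [Nat.floor_le (show (0:ℝ) ≤ r by linarith)]
  have hBε : (B : ℝ) * |ε| * r ≤ 1 := by
    have h := hq
    rw [le_div_iff₀ (by positivity)] at h
    calc (B : ℝ) * |ε| * r ≤ B * |ε| * ((n : ℝ) + 1) :=
          mul_le_mul_of_nonneg_left (by linarith) (by positivity)
      _ = |α - q| * (((n : ℝ) + 1) * q.den) := by rw [hεdef, hBdef]; ring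
      _ ≤ 1 := h
  have hBn : (B : ℝ) ≤ r + 1 := le_trans (by exact_mod_cast hqn) hn2
  -- the resonant case is excluded
  have hM : M ≤ 2 * (Z / u) := by
    by_contra hlt
    rw [not_le] at hlt
    obtain ⟨-, hno⟩ := hmain a0 ha0
    refine hno ⟨B, hB, ?_, ?_⟩
    · have h1 : 2 * (Z / u) * B < Z := lt_of_lt_of_le (mul_lt_mul_of_pos_right hlt hBR) hMB
      have h2 : 2 * (B : ℝ) < u := by
        by_contra h'
        rw [not_lt] at h'
        have : Z ≤ 2 * (Z / u) * B := by
          calc Z = Z / u * u := by field_simp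
            _ ≤ Z / u * (2 * B) := mul_le_mul_of_nonneg_left h' (by positivity)
            _ = _ := by ring
        linarith
      linarith
    · have h1 : distInt (α * B) ≤ B * |ε| := by
        rw [distInt]
        refine (round_le _ q.num).trans (le_of_eq ?_)
        rw [show α * B - (q.num : ℝ) = B * ε by linarith, abs_mul, Nat.abs_cast]
      have h2 : 2 * (Z / u) * (B * |ε|) ≤ 2 * w :=
        (mul_le_mul_of_nonneg_right hlt.le (by positivity)).trans hMε
      have ha : (a0 : ℝ) ≤ Z := (hmem a0 ha0).1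
      have ha1 : (0 : ℝ) < a0 := by
        have h := hs ha0
        rw [dyInt, Finset.mem_filter, Finset.mem_Icc] at h
        exact_mod_cast h.1.1
      refine h1.trans ?_
      rw [le_div_iff₀ ha1]
      calc (B : ℝ) * |ε| * a0 ≤ B * |ε| * Z := mul_le_mul_of_nonneg_left ha (by positivity)
        _ = (Z / u * (B * |ε|)) * u := by field_simp
        _ ≤ w * u := mul_le_mul_of_nonneg_right (by linarith) (by linarith)
        _ ≤ _ := by nlinarith
  have hwZ : w * Z ≤ Z / u := by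
    calc w * Z ≤ 1 / T * Z := mul_le_mul_of_nonneg_right hwT (by linarith)
      _ ≤ 1 / u * Z := by
          refine mul_le_mul_of_nonneg_right (one_div_le_one_div_of_le (by linarith) ?_) (by linarith)
          rw [hu]
          exact (Real.rpow_le_rpow_of_exponent_le hT (by linarith)).trans (Real.rpow_one T).le
      _ = Z / u := by ring
  have hru : r ≤ Z / u := by
    rw [le_div_iff₀ (by linarith)]
    calc r * u ≤ r * r := by
          refine mul_le_mul_of_nonneg_left ?_ (by linarith)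
          rw [hu, hr]
          refine Real.le_sqrt_of_sq_le (le_trans ?_ hTZ)
          rw [← Real.rpow_natCast, ← Real.rpow_mul hT0.le]
          exact Real.rpow_le_rpow_of_exponent_le hT (by push_cast; linarith)
      _ = Z := hrr
  have e1 : (B : ℝ) * |ε| * Z ≤ r := by
    calc (B : ℝ) * |ε| * Z = B * |ε| * r * r := by rw [mul_assoc _ r r, hrr]
      _ ≤ 1 * r := mul_le_mul_of_nonneg_right hBε (by linarith)
      _ = r := one_mul r
  have e2 : (B : ℝ) * |ε| * Z * M ≤ 2 * (w * Z) := by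
    calc (B : ℝ) * |ε| * Z * M = M * (B * |ε|) * Z := by ring
      _ ≤ 2 * w * Z := mul_le_mul_of_nonneg_right hMε (by linarith)
      _ = _ := by ring
  have e3 : 2 * (B : ℝ) * w * M ≤ 2 * (w * Z) := by
    calc 2 * (B : ℝ) * w * M = 2 * w * (M * B) := by ring
      _ ≤ 2 * w * Z := mul_le_mul_of_nonneg_left hMB (by linarith)
      _ = _ := by ring
  have e4 : 2 * (B : ℝ) * w ≤ 4 * r := by
    have hw1 : w ≤ 1 := hwT.trans (by rw [div_le_one hT0]; exact hT)
    calc 2 * (B : ℝ) * w ≤ 2 * B * 1 := mul_le_mul_of_nonneg_left hw1 (by positivity)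
      _ ≤ 4 * r := by linarith
  rw [huinv]
  calc (s.card : ℝ) ≤ (B * |ε| * Z + 2 * B * w + 1) * (M + 1) := hcard
    _ = B * |ε| * Z * M + 2 * B * w * M + M + (B * |ε| * Z + 2 * B * w + 1) := by ring
    _ ≤ 20 * (Z / u) := by
        have : (0:ℝ) ≤ Z / u := by positivity
        linarith
    _ = 20 * Z * (1 / u) := by ring

end Vale.Agent.P028
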