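import Vale.Agent.P028.CellBase

/-! P028 module CELLHIGH: regime HIGH, pointwise (BLUEPRINT 3). -/

namespace Vale.Agent.P028

open Finset

theorem phiBig_le_exp (Y : ℝ) (n : ℕ) (hn : 0 < n) (hY : 2 ≤ Y) :
    phiBig Y n ≤ Real.exp (4 * Real.log n / Y) := by
  unfold phiBig
  set s := n.primeFactors.filter (fun p : ℕ => Y < (p : ℝ)) with hs
  have hfac : ∀ p ∈ s, (p : ℝ) / ((p : ℝ) - 1) ≤ Real.exp (2 / Y) := by
    intro p hp
    have hp' : Y < (p : ℝ) := (Finset.mem_filter.1 hp).2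
    calc (p : ℝ) / ((p : ℝ) - 1) = 1 / ((p : ℝ) - 1) + 1 := by
          rw [div_add_one (by linarith)]; ring
      _ ≤ Real.exp (1 / ((p : ℝ) - 1)) := Real.add_one_le_exp _
      _ ≤ Real.exp (2 / Y) := by
          refine Real.exp_le_exp.2 ?_
          rw [div_le_div_iff₀ (by linarith) (by linarith)]
          linarith
  have hcard : (s.card : ℝ) ≤ 2 * Real.log n := by
    have h1 : 2 ^ s.card ≤ n := by
      calc 2 ^ s.card = ∏ _p ∈ s, 2 := by simp
        _ ≤ ∏ p ∈ s, p := Finset.prod_le_prod' fun p hp =>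
            (Nat.prime_of_mem_primeFactors (Finset.mem_filter.1 hp).1).two_le
        _ ≤ n := Nat.le_of_dvd hn
            ((Finset.prod_dvd_prod_of_subset _ _ _ (Finset.filter_subset _ _)).trans
              (Nat.prod_primeFactors_dvd n))
    have h2 : (s.card : ℝ) * Real.log 2 ≤ Real.log n := by
      rw [← Real.log_pow]
      exact Real.log_le_log (by positivity) (by exact_mod_cast h1)
    have h3 : (s.card : ℝ) * (1 / 2) ≤ (s.card : ℝ) * Real.log 2 :=
      mul_le_mul_of_nonneg_left (by linarith [Real.log_two_gt_d9]) (Nat.cast_nonneg _)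
    linarith
  calc ∏ p ∈ s, (p : ℝ) / ((p : ℝ) - 1) ≤ ∏ _p ∈ s, Real.exp (2 / Y) :=
        Finset.prod_le_prod (fun p hp => by
          have hp' : Y < (p : ℝ) := (Finset.mem_filter.1 hp).2
          exact div_nonneg (Nat.cast_nonneg _) (by linarith)) hfac
    _ = Real.exp ((s.card : ℝ) * (2 / Y)) := by rw [Finset.prod_const, ← Real.exp_nat_mul]
    _ ≤ _ := by
        refine Real.exp_le_exp.2 ?_
        calc (s.card : ℝ) * (2 / Y) ≤ 2 * Real.log n * (2 / Y) :=
              mul_le_mul_of_nonneg_right hcard (by positivity)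
          _ = _ := by ring

open Classical in
theorem high_bound :
    ∃ C t0 : ℝ, ∀ (K γ : ℝ) (ψ : ℕ → ℝ) (t : ℝ) (S : Finset ℕ) (A : ℤ) (B : ℕ),
      t0 ≤ t → (∀ q, 0 ≤ ψ q) → IsCell zeta0 K t S ψ → IsApprox γ (Real.exp (t / 2)) A B →
      ∀ q ∈ S, ∀ r ∈ S, Real.exp (rhoM * t) ≤ etaP ψ q r → kern γ ψ A B q r ≤ C := by
  obtain ⟨C1, hC1⟩ := sum_Wn_big
  obtain ⟨Cd, hCd⟩ := card_divisors_le (1 / 800008) (by norm_num)
  obtain ⟨Cp, hCp⟩ := Ph_pow_le_rpow 1 (1 / 4) (by norm_num)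
  have hCd1 : 1 ≤ Cd := by
    have h := hCd 1 one_pos
    simpa using h
  have hCp0 : 0 ≤ Cp := by
    have h := hCp 1 one_pos
    simp [Ph] at h
    linarith
  set PB := Real.exp 2400008 with hPB
  refine ⟨|C1| * PB * (1 + 30 * Cd * Cp), 0, fun K γ ψ t S A B ht hψ hS hAB q hq r hr hη => ?_⟩
  have hC0 : 0 ≤ |C1| * PB * (1 + 30 * Cd * Cp) := by positivity
  unfold kern
  split_ifs with hqr
  · exact hC0
  obtain ⟨hη0, hup, -⟩ := etaP_bounds K t S ψ hS q r hq hr
  have hq0 : 0 < q := (hS q hq).1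
  have hr0 : 0 < r := (hS r hr).1
  obtain ⟨hB0, hBQ, -, hBA⟩ := hAB
  set η := etaP ψ q r with hηdef
  have hρ : rhoM * t = t / 100000 := by unfold rhoM; ring
  have hη1 : 1 ≤ η := le_trans (Real.one_le_exp (by rw [hρ]; positivity)) hη
  set L := Real.log η with hL
  have hL0 : 0 ≤ L := Real.log_nonneg hη1
  have htL : t ≤ 100000 * L := by
    have h := Real.log_le_log (Real.exp_pos _) hη
    rw [Real.log_exp, hρ] at h
    linarith
  set u := uu q r with hu
  set v := vv q r with hv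
  have huR : (0 : ℝ) < u := by exact_mod_cast uu_pos q r hq0
  have hvR : (0 : ℝ) < v := by exact_mod_cast vv_pos q r hr0
  have he2 : Real.exp ((1 + zeta0) * t) ≤ Real.exp (2 * t) := by
    refine Real.exp_le_exp.2 (mul_le_mul_of_nonneg_right ?_ ht)
    unfold zeta0; norm_num
  have huv : (u : ℝ) + v ≤ η * Real.exp (2 * t) :=
    hup.trans (mul_le_mul_of_nonneg_left he2 hη0.le)
  -- the large primes of `uv`
  have hphi : phiBig (Yof η) (u * v) ≤ PB := by
    have hY0 : (1 : ℝ) ≤ Y0 := Real.one_le_exp (by norm_num)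
    have hY2 : 2 ≤ Yof η := by
      have h : (2 : ℝ) ≤ Y0 := by
        have := Real.add_one_le_exp ((10 : ℝ) ^ 8)
        unfold Y0
        nlinarith
      unfold Yof
      nlinarith
    refine (phiBig_le_exp _ _ (uu_mul_vv_pos q r hq0 hr0) hY2).trans (Real.exp_le_exp.2 ?_)
    rw [div_le_iff₀ (by linarith)]
    have hlog : Real.log ((u * v : ℕ) : ℝ) ≤ 600002 * L := by
      push_cast
      rw [Real.log_mul huR.ne' hvR.ne']
      have h1 : ∀ x : ℝ, 0 < x → x ≤ η * Real.exp (2 * t) → Real.log x ≤ L + 2 * t := by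
        intro x hx hxl
        have h := Real.log_le_log hx hxl
        rwa [Real.log_mul hη0.ne' (Real.exp_pos _).ne', Real.log_exp] at h
      linarith [h1 u huR (by linarith), h1 v hvR (by linarith)]
    have hYL : L ≤ Yof η := by unfold Yof; nlinarith
    calc 4 * Real.log ((u * v : ℕ) : ℝ) ≤ 2400008 * L := by linarith
      _ ≤ 2400008 * Yof η := by linarith
  -- the moduli beyond the window
  set big := (dset B q r).filter (fun D : ℕ => 2 * η < (D : ℝ)) with hbig
  set E := big.filter (fun D : ℕ => EV γ A B η D q r) with hE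
  have hterm : ∀ D ∈ big, EVi γ A B η D q r / (D.totient : ℝ)
      ≤ (if EV γ A B η D q r then 1 else 0) * (Cp * η ^ (-(3 / 4) : ℝ)) := by
    intro D hD
    unfold EVi
    split_ifs with h
    · obtain ⟨hD1, hD2⟩ := Finset.mem_filter.1 hD
      have hD0 : 0 < D := Nat.pos_of_mem_divisors (Finset.mem_filter.1 hD1).1
      have hDR : (0 : ℝ) < D := by exact_mod_cast hD0
      have hPh := hCp D hD0
      rw [pow_one, Ph] at hPh
      rw [one_mul]
      calc 1 / (D.totient : ℝ) = (D : ℝ) / D.totient / D := by field_simp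
        _ ≤ Cp * (D : ℝ) ^ (1 / 4 : ℝ) / D := div_le_div_of_nonneg_right hPh hDR.le
        _ = Cp * (D : ℝ) ^ (-(3 / 4) : ℝ) := by
            rw [mul_div_assoc, ← Real.rpow_sub_one hDR.ne']; norm_num
        _ ≤ _ := mul_le_mul_of_nonneg_left
            (Real.rpow_le_rpow_of_nonpos hη0 (by linarith) (by norm_num)) hCp0
    · simp
  set M : ℝ := Cd * 2 * η ^ (1 / 4 : ℝ) with hM
  have hcardE : (E.card : ℝ) ≤ 3 * η * M := by
    set N := (nWin γ η q r).filter (fun n : ℤ => D0 A B q r n ≠ 0) with hN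
    have hsub : E ⊆ N.biUnion (fun n => (D0 A B q r n).natAbs.divisors) := by
      intro D hD
      obtain ⟨-, n, hn, hdvd, hne⟩ := Finset.mem_filter.1 hD
      exact Finset.mem_biUnion.2 ⟨n, Finset.mem_filter.2 ⟨(mem_nWin γ η q r n).2 hn, hne⟩,
        Nat.mem_divisors.2 ⟨Int.natCast_dvd.1 hdvd, Int.natAbs_ne_zero.2 hne⟩⟩
    have hNc : (N.card : ℝ) ≤ 3 * η := by
      have h := card_class γ η q r 1 0 1 hη0 one_pos isCoprime_one_left
      simp at h
      have h2 : (N.card : ℝ) ≤ (nWin γ η q r).card := by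
        exact_mod_cast Finset.card_filter_le _ _
      linarith [(abs_le.1 h).2]
    have hdiv : ∀ n ∈ N, ((D0 A B q r n).natAbs.divisors.card : ℝ) ≤ M := by
      intro n hn
      obtain ⟨hnw, hne⟩ := Finset.mem_filter.1 hn
      have hnw' := (mem_nWin γ η q r n).1 hnw
      refine (hCd _ (Int.natAbs_pos.2 hne)).trans ?_
      rw [hM, mul_assoc]
      refine mul_le_mul_of_nonneg_left ?_ (by linarith)
      have habs : (((D0 A B q r n).natAbs : ℕ) : ℝ) ≤ 2 * η ^ (200001 : ℝ) := by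
        rw [Nat.cast_natAbs, Int.cast_abs]
        refine (abs_D0_le γ A B q r n).trans ?_
        have hQ2 : 1 / Real.exp (t / 2) ≤ 1 := by
          rw [div_le_one (Real.exp_pos _)]; exact Real.one_le_exp (by linarith)
        have h1 : (B : ℝ) * |(n : ℝ) + γ * (hh q r : ℝ)| ≤ Real.exp (2 * t) * η :=
          mul_le_mul (hBQ.trans (Real.exp_le_exp.2 (by linarith))) hnw'.le (abs_nonneg _)
            (Real.exp_pos _).le
        have h2 : |(B : ℝ) * γ - A| * ((u : ℝ) + v) ≤ 1 * (η * Real.exp (2 * t)) :=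
          mul_le_mul (hBA.trans hQ2) huv (by positivity) zero_le_one
        have h3 : Real.exp (2 * t) * η ≤ η ^ (200001 : ℝ) := by
          rw [Real.rpow_def_of_pos hη0, ← hL]
          calc Real.exp (2 * t) * η = Real.exp (2 * t + L) := by
                rw [Real.exp_add, hL, Real.exp_log hη0]
            _ ≤ _ := Real.exp_le_exp.2 (by linarith)
        linarith
      calc (((D0 A B q r n).natAbs : ℕ) : ℝ) ^ (1 / 800008 : ℝ)
          ≤ (2 * η ^ (200001 : ℝ)) ^ (1 / 800008 : ℝ) :=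
            Real.rpow_le_rpow (Nat.cast_nonneg _) habs (by norm_num)
        _ = (2 : ℝ) ^ (1 / 800008 : ℝ) * η ^ ((200001 : ℝ) * (1 / 800008)) := by
            rw [Real.mul_rpow (by norm_num) (by positivity), ← Real.rpow_mul hη0.le]
        _ ≤ 2 * η ^ (1 / 4 : ℝ) := by
            refine mul_le_mul ?_ (Real.rpow_le_rpow_of_exponent_le hη1 (by norm_num))
              (by positivity) (by norm_num)
            exact Real.rpow_le_self_of_one_le (by norm_num) (by norm_num)
    calc (E.card : ℝ) ≤ ((N.biUnion fun n => (D0 A B q r n).natAbs.divisors).card : ℝ) := by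
          exact_mod_cast Finset.card_le_card hsub
      _ ≤ ∑ n ∈ N, ((D0 A B q r n).natAbs.divisors.card : ℝ) := by
          exact_mod_cast Finset.card_biUnion_le
      _ ≤ ∑ _n ∈ N, M := Finset.sum_le_sum hdiv
      _ = (N.card : ℝ) * M := by rw [Finset.sum_const, nsmul_eq_mul]
      _ ≤ _ := mul_le_mul_of_nonneg_right hNc (by positivity)
  set Z := ∑ D ∈ big, EVi γ A B η D q r / (D.totient : ℝ) with hZ
  have hZ0 : 0 ≤ Z := Finset.sum_nonneg fun D _ => div_nonneg (EVi_nonneg ..) (Nat.cast_nonneg _)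
  have hZle : Z ≤ 6 * Cd * Cp * η ^ (1 / 2 : ℝ) := by
    calc Z ≤ ∑ D ∈ big, (if EV γ A B η D q r then 1 else 0) * (Cp * η ^ (-(3 / 4) : ℝ)) :=
          Finset.sum_le_sum hterm
      _ = (E.card : ℝ) * (Cp * η ^ (-(3 / 4) : ℝ)) := by
          rw [← Finset.sum_mul, Finset.sum_boole]
      _ ≤ 3 * η * M * (Cp * η ^ (-(3 / 4) : ℝ)) :=
          mul_le_mul_of_nonneg_right hcardE (by positivity)
      _ = 6 * Cd * Cp * (η ^ (1 : ℝ) * η ^ (1 / 4 : ℝ) * η ^ (-(3 / 4) : ℝ)) := by
          rw [hM, Real.rpow_one]; ring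
      _ = _ := by rw [← Real.rpow_add hη0, ← Real.rpow_add hη0]; norm_num
  have hll : Real.log (L + 3) ≤ 5 * η ^ (1 / 2 : ℝ) := by
    have h1 := Real.log_le_sub_one_of_pos (show 0 < L + 3 by linarith)
    have h2 : L ≤ η ^ (1 / 2 : ℝ) / (1 / 2) := Real.log_le_rpow_div hη0.le (by norm_num)
    have h3 : (1 : ℝ) ≤ η ^ (1 / 2 : ℝ) := Real.one_le_rpow hη1 (by norm_num)
    linarith
  have hll0 : 0 ≤ Real.log (L + 3) := Real.log_nonneg (by linarith)
  have hphi0 : 0 ≤ phiBig (Yof η) (u * v) := Finset.prod_nonneg fun p hp => by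
    linarith [ratio_nonneg (Nat.prime_of_mem_primeFactors (Finset.mem_filter.1 hp).1).two_le]
  rw [div_le_iff₀ hη0]
  refine (hC1 γ A B q r η hB0 hq0 hr0 hη1).trans ?_
  calc C1 * phiBig (Yof η) (u * v) * (η + Real.log (L + 3) * Z)
      ≤ |C1| * PB * (η + Real.log (L + 3) * Z) := by
        refine mul_le_mul_of_nonneg_right ?_ (by positivity)
        exact mul_le_mul (le_abs_self _) hphi hphi0 (abs_nonneg _)
    _ ≤ |C1| * PB * (η + 5 * η ^ (1 / 2 : ℝ) * (6 * Cd * Cp * η ^ (1 / 2 : ℝ))) := by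
        gcongr
    _ = |C1| * PB * (η + 30 * Cd * Cp * (η ^ (1 / 2 : ℝ) * η ^ (1 / 2 : ℝ))) := by ring
    _ = _ := by rw [← Real.rpow_add hη0]; norm_num; ring

end Vale.Agent.P028
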