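import Vale.Agent.P028.CellBase

/-! P028 module CELLMID: regime MID (BLUEPRINT 3). -/

namespace Vale.Agent.P028

open Finset

/-- `log` of the length ratio is controlled by the indices of the dyadic classes. -/
lemma midDecay (κ : ℝ) (hκ0 : 0 ≤ κ) (hκ1 : κ ≤ 1 / 100) (l1 l2 : ℤ) :
    ((2 : ℝ) ^ (l1 : ℝ) * (2 : ℝ) ^ (l2 : ℝ) /
        (2 * max ((2 : ℝ) ^ (l1 : ℝ)) ((2 : ℝ) ^ (l2 : ℝ))) ^ 2) ^ (1 / 10 : ℝ) *
      Real.exp (-κ * |Real.log (2 * max ((2 : ℝ) ^ (l1 : ℝ)) ((2 : ℝ) ^ (l2 : ℝ)))|)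
      ≤ 4 * Real.exp (-(κ / 4) * |(l1 : ℝ)|) * Real.exp (-(κ / 4) * |(l2 : ℝ)|) := by
  set a : ℝ := (l1 : ℝ) with ha
  set b : ℝ := (l2 : ℝ) with hb
  have hmax : max ((2 : ℝ) ^ a) ((2 : ℝ) ^ b) = (2 : ℝ) ^ max a b :=
    ((Real.monotone_rpow_of_base_ge_one one_le_two).map_max).symm
  have h2 : (0 : ℝ) < 2 := by norm_num
  rw [hmax]
  set c := Real.log 2 with hc
  have hlog : Real.log (2 * (2 : ℝ) ^ max a b) = (max a b + 1) * c := by
    rw [Real.log_mul two_ne_zero (by positivity), Real.log_rpow h2]; ring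
  have hrat : (2 : ℝ) ^ a * (2 : ℝ) ^ b / (2 * (2 : ℝ) ^ max a b) ^ 2
      = Real.exp (c * (-|a - b| - 2)) := by
    have e : ∀ x : ℝ, (2 : ℝ) ^ x = Real.exp (c * x) := fun x => Real.rpow_def_of_pos h2 x
    have e2 : (2 : ℝ) = Real.exp c := (Real.exp_log h2).symm
    rw [e, e, e]
    nth_rw 1 [e2]
    rw [← Real.exp_add, ← Real.exp_add, ← Real.exp_nat_mul, ← Real.exp_sub]
    congr 1
    push_cast
    rcases le_total a b with h | h
    · rw [max_eq_right h, abs_of_nonpos (by linarith)]; ring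
    · rw [max_eq_left h, abs_of_nonneg (by linarith)]; ring
  rw [hrat, hlog, ← Real.exp_mul, ← Real.exp_add]
  have hc0 : (0.69 : ℝ) ≤ c := by have := Real.log_two_gt_d9; rw [hc]; linarith
  have hc1 : c ≤ 0.7 := by have := Real.log_two_lt_d9; rw [hc]; linarith
  have e4 : (4 : ℝ) = Real.exp (2 * c) := by
    rw [hc, mul_comm, Real.exp_mul, Real.exp_log h2]; norm_num
  rw [abs_mul, abs_of_nonneg (show 0 ≤ c by linarith)]
  refine le_trans (Real.exp_le_exp.2 (?_ : _ ≤ 2 * c + -(κ / 4) * |a| + -(κ / 4) * |b|))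
    (le_of_eq ?_)
  swap
  · rw [Real.exp_add, Real.exp_add, ← e4]
  have hsum : |a| + |b| ≤ 2 * |max a b + 1| + |a - b| + 2 := by
    rcases le_total a b with h | h
    · rw [max_eq_right h, abs_of_nonpos (show a - b ≤ 0 by linarith)]
      rcases abs_cases a with ⟨e, _⟩ | ⟨e, _⟩ <;> rcases abs_cases b with ⟨e', _⟩ | ⟨e', _⟩ <;>
        rcases abs_cases (b + 1) with ⟨e'', _⟩ | ⟨e'', _⟩ <;> linarith
    · rw [max_eq_left h, abs_of_nonneg (show 0 ≤ a - b by linarith)]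
      rcases abs_cases a with ⟨e, _⟩ | ⟨e, _⟩ <;> rcases abs_cases b with ⟨e', _⟩ | ⟨e', _⟩ <;>
        rcases abs_cases (a + 1) with ⟨e'', _⟩ | ⟨e'', _⟩ <;> linarith
  have hA := abs_nonneg (max a b + 1)
  have hB := abs_nonneg (a - b)
  have k1 := mul_le_mul_of_nonneg_left hsum (show 0 ≤ κ / 4 by linarith)
  nlinarith [mul_nonneg (mul_nonneg hκ0 hA) (show 0 ≤ c - 1 / 2 by linarith),
    mul_nonneg hB (show 0 ≤ c / 10 - κ / 4 by linarith)]

/-- A power of `Y` and of `max 1 (Y/4)` decaying in both directions. -/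
lemma midDelta (κ α β Y : ℝ) (hY : 0 < Y) (hκ : 0 ≤ κ) (hα : κ ≤ α) (hα1 : α ≤ 1)
    (hαβ : α + β ≤ -κ) (hβ1 : -2 ≤ β) :
    Y ^ α * max 1 (Y / 4) ^ β ≤ 16 * Real.exp (-κ * |Real.log Y|) := by
  have key : Real.exp (-κ * |Real.log Y|) = if 1 ≤ Y then Y ^ (-κ) else Y ^ κ := by
    split_ifs with h
    · rw [abs_of_nonneg (Real.log_nonneg h), Real.rpow_def_of_pos hY]; ring_nf
    · rw [abs_of_neg (Real.log_neg hY (not_le.1 h)), Real.rpow_def_of_pos hY]; ring_nf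
  rw [key]
  split_ifs with h
  · rcases le_total 4 Y with h4 | h4
    · rw [max_eq_right (by linarith), Real.div_rpow hY.le (by norm_num), ← mul_div_assoc,
        ← Real.rpow_add hY, div_le_iff₀ (by positivity)]
      calc Y ^ (α + β) ≤ Y ^ (-κ) := Real.rpow_le_rpow_of_exponent_le h hαβ
        _ = 16 * Y ^ (-κ) * (4 : ℝ) ^ (-2 : ℝ) := by norm_num; ring
        _ ≤ 16 * Y ^ (-κ) * (4 : ℝ) ^ β := mul_le_mul_of_nonneg_left
            (Real.rpow_le_rpow_of_exponent_le (by norm_num) hβ1) (by positivity)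
    · rw [max_eq_left (by linarith), Real.one_rpow, mul_one]
      calc Y ^ α = Y ^ (α + κ) * Y ^ (-κ) := by rw [← Real.rpow_add hY]; ring_nf
        _ ≤ 16 * Y ^ (-κ) := by
            refine mul_le_mul_of_nonneg_right ?_ (by positivity)
            calc Y ^ (α + κ) ≤ (4 : ℝ) ^ (α + κ) := Real.rpow_le_rpow hY.le h4 (by linarith)
              _ ≤ (4 : ℝ) ^ (2 : ℝ) :=
                  Real.rpow_le_rpow_of_exponent_le (by norm_num) (by linarith)
              _ = 16 := by norm_num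
  · have h' : Y ≤ 1 := (not_le.1 h).le
    rw [max_eq_left (by linarith), Real.one_rpow, mul_one]
    exact (Real.rpow_le_rpow_of_exponent_ge hY h' hα).trans
      (le_mul_of_one_le_left (by positivity) (by norm_num))

lemma midGeom (x : ℝ) (hx : 0 < x) (s : Finset ℤ) :
    ∑ l ∈ s, Real.exp (-x * |(l : ℝ)|) ≤ 2 * ∑' n : ℕ, Real.exp (-x) ^ n := by
  have hsum : Summable fun n : ℕ => Real.exp (-x) ^ n :=
    summable_geometric_of_lt_one (Real.exp_nonneg _) (Real.exp_lt_one_iff.2 (by linarith))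
  have key : ∀ s' : Finset ℤ, Set.InjOn Int.natAbs (s' : Set ℤ) →
      ∑ l ∈ s', Real.exp (-x * |(l : ℝ)|) ≤ ∑' n : ℕ, Real.exp (-x) ^ n := by
    intro s' hinj
    refine le_trans (le_of_eq ?_)
      (hsum.sum_le_tsum (s'.image Int.natAbs) (fun n _ => by positivity))
    rw [Finset.sum_image hinj]
    refine Finset.sum_congr rfl fun l _ => ?_
    rw [← Real.exp_nat_mul, Nat.cast_natAbs, Int.cast_abs, mul_comm]
  rw [← Finset.sum_filter_add_sum_filter_not s (fun l => 0 ≤ l), two_mul]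
  refine add_le_add (key _ ?_) (key _ ?_) <;>
    · intro a ha b hb h
      have ha' := (Finset.mem_filter.1 (Finset.mem_coe.1 ha)).2
      have hb' := (Finset.mem_filter.1 (Finset.mem_coe.1 hb)).2
      omega

lemma midTailSum (s : ℝ) (hs : 0 < s) :
    ∃ C : ℝ, 0 ≤ C ∧ ∀ (I : Finset ℕ) (x : ℝ), 1 ≤ x → (∀ D ∈ I, x ≤ (D : ℝ)) →
      ∑ D ∈ I, (D : ℝ) ^ (-1 - s) ≤ C * x ^ (-(s / 2)) := by
  have hsum : Summable fun n : ℕ => (n : ℝ) ^ (-1 - s / 2) :=
    Real.summable_nat_rpow.2 (by linarith)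
  refine ⟨∑' n : ℕ, (n : ℝ) ^ (-1 - s / 2), tsum_nonneg fun n => by positivity,
    fun I x hx hI => ?_⟩
  calc ∑ D ∈ I, (D : ℝ) ^ (-1 - s) ≤ ∑ D ∈ I, (D : ℝ) ^ (-1 - s / 2) * x ^ (-(s / 2)) := by
        refine Finset.sum_le_sum fun D hD => ?_
        have hD0 : (0 : ℝ) < D := by linarith [hI D hD]
        rw [show -1 - s = (-1 - s / 2) + (-(s / 2)) by ring, Real.rpow_add hD0]
        exact mul_le_mul_of_nonneg_left
          (Real.rpow_le_rpow_of_nonpos (by linarith) (hI D hD) (by linarith)) (by positivity)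
    _ ≤ _ := by
        rw [← Finset.sum_mul]
        exact mul_le_mul_of_nonneg_right (hsum.sum_le_tsum I fun n _ => by positivity)
          (by positivity)

lemma midInvTotient (θ : ℝ) (hθ : 0 < θ) :
    ∃ C : ℝ, 0 ≤ C ∧ ∀ D : ℕ, 0 < D → 1 / (D.totient : ℝ) ≤ C * (D : ℝ) ^ (θ - 1) := by
  obtain ⟨C, hC⟩ := Ph_pow_le_rpow 1 θ hθ
  refine ⟨max C 0, le_max_right _ _, fun D hD => ?_⟩
  have hDR : (0 : ℝ) < D := by exact_mod_cast hD
  have h := hC D hD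
  rw [pow_one, Ph] at h
  rw [Real.rpow_sub_one hDR.ne', ← mul_div_assoc]
  calc 1 / (D.totient : ℝ) = (D : ℝ) / D.totient / D := by field_simp
    _ ≤ _ := div_le_div_of_nonneg_right
        (h.trans (mul_le_mul_of_nonneg_right (le_max_left _ _) (by positivity))) hDR.le

open Classical in
/-- Pointwise bound for the moduli, by counting divisors of the coincidences. -/
lemma midPointwise (θ θ2 : ℝ) (hθ : 0 < θ) (hθ1 : θ < 1) (hθ2 : 0 < θ2) :
    ∃ C : ℝ, 0 ≤ C ∧ ∀ (γ K t : ℝ) (S : Finset ℕ) (ψ : ℕ → ℝ) (A : ℤ) (B q r : ℕ) (Y lo : ℝ)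
      (s : Finset ℕ),
      10 ≤ t → IsCell zeta0 K t S ψ → IsApprox γ (Real.exp (t / 2)) A B → q ∈ S → r ∈ S →
      etaP ψ q r ≤ Y → Y ≤ 4 * Real.exp (rhoM * t) → 0 < lo → (∀ D ∈ s, lo ≤ (D : ℝ)) →
      ∑ D ∈ s, EVi γ A B Y D q r / D.totient
        ≤ C * max 1 (Y / 4) * Real.exp (4 * θ2 * t) * lo ^ (θ - 1) := by
  obtain ⟨Ct, hCt0, hCt⟩ := midInvTotient θ hθ
  obtain ⟨Cd, hCd⟩ := card_divisors_le θ2 hθ2
  have hCd0 : 0 ≤ Cd := by
    have h := hCd 1 one_pos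
    simp at h
    linarith
  refine ⟨Ct * (9 * Cd), by positivity, ?_⟩
  intro γ K t S ψ A B q r Y lo s ht hS hAB hq hr hηY hY hlo hs
  obtain ⟨hη0, hup, -⟩ := etaP_bounds K t S ψ hS q r hq hr
  obtain ⟨hB0, hBQ, -, hBA⟩ := hAB
  have hY0 : 0 < Y := lt_of_lt_of_le hη0 hηY
  set N := (nWin γ Y q r).filter (fun n : ℤ => D0 A B q r n ≠ 0) with hN
  set E := s.filter (fun D : ℕ => EV γ A B Y D q r) with hE
  have hsub : E ⊆ N.biUnion (fun n => (D0 A B q r n).natAbs.divisors) := by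
    intro D hD
    obtain ⟨-, n, hn, hdvd, hne⟩ := Finset.mem_filter.1 hD
    exact Finset.mem_biUnion.2 ⟨n, Finset.mem_filter.2 ⟨(mem_nWin γ Y q r n).2 hn, hne⟩,
      Nat.mem_divisors.2 ⟨Int.natCast_dvd.1 hdvd, Int.natAbs_ne_zero.2 hne⟩⟩
  have hNc : (N.card : ℝ) ≤ 9 * max 1 (Y / 4) := by
    have h := card_class γ Y q r 1 0 1 hY0 one_pos isCoprime_one_left
    simp at h
    have h2 : (N.card : ℝ) ≤ (nWin γ Y q r).card := by exact_mod_cast Finset.card_filter_le _ _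
    linarith [(abs_le.1 h).2, le_max_left 1 (Y / 4), le_max_right 1 (Y / 4)]
  have hdiv : ∀ n ∈ N, ((D0 A B q r n).natAbs.divisors.card : ℝ) ≤ Cd * Real.exp (4 * θ2 * t) := by
    intro n hn
    obtain ⟨hnw, hne⟩ := Finset.mem_filter.1 hn
    have hnw' := (mem_nWin γ Y q r n).1 hnw
    refine (hCd _ (Int.natAbs_pos.2 hne)).trans (mul_le_mul_of_nonneg_left ?_ hCd0)
    rw [show 4 * θ2 * t = (4 * t) * θ2 by ring, Real.exp_mul]
    refine Real.rpow_le_rpow (Nat.cast_nonneg _) ?_ hθ2.le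
    rw [Nat.cast_natAbs, Int.cast_abs]
    refine (abs_D0_le γ A B q r n).trans ?_
    have h4 : (4 : ℝ) ≤ Real.exp (t / 3) := by linarith [Real.add_one_le_exp (t / 3)]
    have hY' : Y ≤ Real.exp (t / 3) * Real.exp (t / 3) := by
      refine hY.trans (mul_le_mul h4 (Real.exp_le_exp.2 ?_) (Real.exp_pos _).le
        (Real.exp_pos _).le)
      unfold rhoM; linarith
    rw [← Real.exp_add] at hY'
    have h1 : (B : ℝ) * |(n : ℝ) + γ * (hh q r : ℝ)| ≤ Real.exp (t / 2) * Real.exp (t / 3 + t / 3) :=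
      mul_le_mul hBQ (hnw'.le.trans hY') (abs_nonneg _) (Real.exp_pos _).le
    have h2 : |(B : ℝ) * γ - A| * ((uu q r : ℝ) + vv q r)
        ≤ 1 * (Real.exp (t / 3 + t / 3) * Real.exp ((1 + zeta0) * t)) := by
      refine mul_le_mul (hBA.trans ?_) (hup.trans (mul_le_mul_of_nonneg_right (hηY.trans hY')
        (Real.exp_pos _).le)) (by positivity) zero_le_one
      rw [div_le_one (Real.exp_pos _)]; exact Real.one_le_exp (by linarith)
    rw [one_mul, ← Real.exp_add] at h2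
    rw [← Real.exp_add] at h1
    have h3 : Real.exp (t / 2 + (t / 3 + t / 3)) ≤ Real.exp (3 * t) :=
      Real.exp_le_exp.2 (by linarith)
    have h5 : Real.exp (t / 3 + t / 3 + (1 + zeta0) * t) ≤ Real.exp (3 * t) :=
      Real.exp_le_exp.2 (by unfold zeta0; linarith)
    have h6 : 2 * Real.exp (3 * t) ≤ Real.exp (4 * t) := by
      rw [show 4 * t = t + 3 * t by ring, Real.exp_add]
      exact mul_le_mul_of_nonneg_right (by linarith [Real.add_one_le_exp t]) (Real.exp_pos _).le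
    linarith
  calc ∑ D ∈ s, EVi γ A B Y D q r / (D.totient : ℝ)
      ≤ ∑ D ∈ s, (if EV γ A B Y D q r then 1 else 0) * (Ct * lo ^ (θ - 1)) := by
        refine Finset.sum_le_sum fun D hD => ?_
        unfold EVi
        split_ifs
        · have hD0 : 0 < D := by exact_mod_cast lt_of_lt_of_le hlo (hs D hD)
          rw [one_mul]
          exact (hCt D hD0).trans (mul_le_mul_of_nonneg_left
            (Real.rpow_le_rpow_of_nonpos hlo (hs D hD) (by linarith)) hCt0)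
        · simp
    _ = (E.card : ℝ) * (Ct * lo ^ (θ - 1)) := by rw [← Finset.sum_mul, Finset.sum_boole]
    _ ≤ 9 * max 1 (Y / 4) * (Cd * Real.exp (4 * θ2 * t)) * (Ct * lo ^ (θ - 1)) := by
        refine mul_le_mul_of_nonneg_right ?_ (by positivity)
        calc (E.card : ℝ) ≤ ((N.biUnion fun n => (D0 A B q r n).natAbs.divisors).card : ℝ) := by
              exact_mod_cast Finset.card_le_card hsub
          _ ≤ ∑ n ∈ N, ((D0 A B q r n).natAbs.divisors.card : ℝ) := by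
              exact_mod_cast Finset.card_biUnion_le
          _ ≤ (N.card : ℝ) * (Cd * Real.exp (4 * θ2 * t)) := by
              rw [← nsmul_eq_mul, ← Finset.sum_const]
              exact Finset.sum_le_sum hdiv
          _ ≤ _ := mul_le_mul_of_nonneg_right hNc (by positivity)
    _ = _ := by ring

lemma midPairSum_smul (μ : ℕ → ℝ) (G : ℕ → ℕ → ℝ) (V W : Finset ℕ) (c : ℝ) :
    pairSum μ (fun q r => c * G q r) V W = c * pairSum μ G V W := by
  simp only [pairSum, Finset.mul_sum]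
  exact Finset.sum_congr rfl fun q _ => Finset.sum_congr rfl fun r _ => by ring

lemma midPairSum_sum {ι : Type*} (μ : ℕ → ℝ) (G : ι → ℕ → ℕ → ℝ) (I : Finset ι) (V W : Finset ℕ) :
    pairSum μ (fun q r => ∑ i ∈ I, G i q r) V W = ∑ i ∈ I, pairSum μ (G i) V W := by
  simp only [pairSum, Finset.mul_sum]
  rw [Finset.sum_comm (s := I) (t := V)]
  exact Finset.sum_congr rfl fun q _ => Finset.sum_comm

/-- Cauchy-Schwarz between a weight and an event. -/
lemma midCauchy (μ : ℕ → ℝ) (P E c : ℕ → ℕ → ℝ) (V : Finset ℕ) (hμ : ∀ q, 0 ≤ μ q)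
    (hc : ∀ q r, 0 ≤ c q r) (hP : ∀ q r, 0 ≤ P q r) (hE : ∀ q r, E q r = 0 ∨ E q r = 1) :
    pairSum μ (fun q r => P q r * E q r * c q r) V V
      ≤ Real.sqrt (pairSum μ (fun q r => P q r ^ 2 * c q r) V V) *
          Real.sqrt (pairSum μ (fun q r => E q r * c q r) V V) := by
  have hE0 : ∀ q r, 0 ≤ E q r := fun q r => by rcases hE q r with h | h <;> rw [h] <;> norm_num
  simp only [pairSum, ← Finset.sum_product']
  refine le_trans (le_of_eq (Finset.sum_congr rfl fun z _ => ?_))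
    (Real.sum_sqrt_mul_sqrt_le _
      (f := fun z : ℕ × ℕ => μ z.1 * μ z.2 * (P z.1 z.2 ^ 2 * c z.1 z.2))
      (g := fun z : ℕ × ℕ => μ z.1 * μ z.2 * (E z.1 z.2 * c z.1 z.2))
      (fun z => mul_nonneg (mul_nonneg (hμ _) (hμ _)) (mul_nonneg (sq_nonneg _) (hc _ _)))
      (fun z => mul_nonneg (mul_nonneg (hμ _) (hμ _)) (mul_nonneg (hE0 _ _) (hc _ _))))
  have hm := mul_nonneg (hμ z.1) (hμ z.2)
  rw [← Real.sqrt_mul (mul_nonneg hm (mul_nonneg (sq_nonneg _) (hc _ _)))]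
  rcases hE z.1 z.2 with h | h
  · rw [h]; simp
  · rw [h, show μ z.1 * μ z.2 * (P z.1 z.2 ^ 2 * c z.1 z.2) * (μ z.1 * μ z.2 * (1 * c z.1 z.2))
      = (μ z.1 * μ z.2 * (P z.1 z.2 * 1 * c z.1 z.2)) ^ 2 by ring, Real.sqrt_sq]
    exact mul_nonneg hm (mul_nonneg (mul_nonneg (hP _ _) zero_le_one) (hc _ _))

lemma midPhiBig_le_Ph (Y : ℝ) (n : ℕ) (hn : 0 < n) : phiBig Y n ≤ Ph n := by
  rw [Ph_eq_prod n hn]
  refine Finset.prod_le_prod_of_subset_of_one_le (Finset.filter_subset _ _) (fun p hp => ?_)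
    (fun p hp _ => ratio_nonneg (Nat.prime_of_mem_primeFactors hp).two_le)
  linarith [ratio_nonneg (Nat.prime_of_mem_primeFactors (Finset.mem_filter.1 hp).1).two_le]

lemma midPhiBig_split (Y Y' : ℝ) (n : ℕ) (hY : Y ≤ Y') (hY2 : 2 ≤ Y) :
    phiBig Y' n ≤ Real.exp 4 + Real.exp (-(2 * (Y - 2))) * Real.exp (Y * sBig Y n) := by
  set s := n.primeFactors.filter (fun p : ℕ => Y' < (p : ℝ))
  set X := sBig Y n with hX
  have hX0 : 0 ≤ X := Finset.sum_nonneg fun p _ => by positivity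
  have h1 : phiBig Y' n ≤ Real.exp (2 * X) := by
    refine le_trans (Finset.prod_le_prod (fun p hp => ?_) (fun p hp => ?_))
      (le_of_eq (Real.exp_sum s fun p => 2 * (1 / (p : ℝ))).symm) |>.trans ?_
    · linarith [ratio_nonneg (Nat.prime_of_mem_primeFactors (Finset.mem_filter.1 hp).1).two_le]
    · have h2 : (2 : ℝ) ≤ p := by
        exact_mod_cast (Nat.prime_of_mem_primeFactors (Finset.mem_filter.1 hp).1).two_le
      refine le_trans ?_ (Real.add_one_le_exp _)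
      rw [div_le_iff₀ (by linarith)]
      field_simp
      nlinarith
    · refine Real.exp_le_exp.2 ?_
      rw [← Finset.mul_sum, hX, sBig]
      refine mul_le_mul_of_nonneg_left (Finset.sum_le_sum_of_subset_of_nonneg ?_
        (fun p _ _ => by positivity)) zero_le_two
      intro p hp
      obtain ⟨hp1, hp2⟩ := Finset.mem_filter.1 hp
      exact Finset.mem_filter.2 ⟨hp1, by linarith⟩
  refine h1.trans ?_
  rcases le_total X 2 with h | h
  · have : Real.exp (2 * X) ≤ Real.exp 4 := Real.exp_le_exp.2 (by linarith)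
    have : 0 < Real.exp (-(2 * (Y - 2))) * Real.exp (Y * X) := by positivity
    linarith
  · have : Real.exp (2 * X) ≤ Real.exp (-(2 * (Y - 2))) * Real.exp (Y * X) := by
      rw [← Real.exp_add]
      refine Real.exp_le_exp.2 ?_
      nlinarith [mul_nonneg (show 0 ≤ Y - 2 by linarith) (show 0 ≤ X - 2 by linarith)]
    linarith [Real.exp_pos 4]

lemma midY0_ge : (2 : ℝ) ≤ Y0 := by
  have := Real.add_one_le_exp ((10 : ℝ) ^ 8)
  unfold Y0
  nlinarith

/-- The kernel, on the class of a pair. -/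
lemma midKern :
    ∃ C : ℝ, 0 ≤ C ∧ ∀ (γ : ℝ) (ψ : ℕ → ℝ) (A : ℤ) (B q r : ℕ) (Y : ℝ),
      0 < B → 0 < q → 0 < r → 0 < etaP ψ q r → etaP ψ q r ≤ Y → Y ≤ 4 * etaP ψ q r →
      kern γ ψ A B q r ≤ C * (1
        + Real.exp (-(2 * (Yof (max 1 (Y / 4)) - 2))) *
            Real.exp (Yof (max 1 (Y / 4)) * sBig (Yof (max 1 (Y / 4))) (uu q r * vv q r))
        + max 1 (Y / 4) ^ (eps / 4) / Y * (Ph (uu q r * vv q r) *
            ∑ D ∈ (dset B q r).filter (fun D : ℕ => Y ≤ 4 * (D : ℝ)),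
              EVi γ A B Y D q r / D.totient)) := by
  obtain ⟨C1, hC1⟩ := sum_Wn_big
  set θ := eps / 4 with hθ
  have hθ0 : 0 < θ := by unfold eps at hθ; rw [hθ]; norm_num
  set C := (|C1| + 1) * (Real.exp 4 + 1) * (16 * (1 / θ + 2)) with hC
  have hθi : 0 < 1 / θ := by positivity
  have hk1 : 2 ≤ 16 * (1 / θ + 2) := by linarith
  have hbig1 : (1 : ℝ) ≤ (|C1| + 1) * (Real.exp 4 + 1) :=
    one_le_mul_of_one_le_of_one_le (by linarith [abs_nonneg C1]) (by linarith [Real.exp_pos 4])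
  have hC8 : 8 ≤ C := by
    rw [hC]
    calc (8 : ℝ) ≤ 1 * (16 * (1 / θ + 2)) := by linarith
      _ ≤ _ := mul_le_mul_of_nonneg_right hbig1 (by linarith)
  refine ⟨C, by linarith, fun γ ψ A B q r Y hB hq hr hη0 hηY hY4 => ?_⟩
  set η := etaP ψ q r with hη
  set Y1 := max 1 (Y / 4) with hY1
  set n := uu q r * vv q r with hn
  set Z := ∑ D ∈ (dset B q r).filter (fun D : ℕ => Y ≤ 4 * (D : ℝ)),
      EVi γ A B Y D q r / (D.totient : ℝ) with hZ
  set X := Real.exp (-(2 * (Yof Y1 - 2))) * Real.exp (Yof Y1 * sBig (Yof Y1) n) with hX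
  have hYpos : 0 < Y := lt_of_lt_of_le hη0 hηY
  have hY11 : 1 ≤ Y1 := le_max_left _ _
  have hn0 : 0 < n := uu_mul_vv_pos q r hq hr
  have hZ0 : 0 ≤ Z := Finset.sum_nonneg fun D _ => div_nonneg (EVi_nonneg ..) (Nat.cast_nonneg _)
  have hX0 : 0 < X := by positivity
  have hP0 : 0 ≤ Ph n := Ph_nonneg n
  have hT0 : 0 ≤ Y1 ^ θ / Y * (Ph n * Z) := by positivity
  have hdsub : ∀ (P : ℕ → Prop) [DecidablePred P],
      (∀ D ∈ dset B q r, P D → Y ≤ 4 * (D : ℝ)) →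
      ∑ D ∈ (dset B q r).filter P, EVi γ A B η D q r / (D.totient : ℝ) ≤ Z := by
    intro P _ hP
    refine le_trans (Finset.sum_le_sum fun D _ => div_le_div_of_nonneg_right
      (EVi_mono γ A B η Y D q r hηY) (Nat.cast_nonneg _)) ?_
    exact Finset.sum_le_sum_of_subset_of_nonneg
      (fun D hD => Finset.mem_filter.2 ⟨(Finset.mem_filter.1 hD).1,
        hP D (Finset.mem_filter.1 hD).1 (Finset.mem_filter.1 hD).2⟩)
      (fun D _ _ => div_nonneg (EVi_nonneg ..) (Nat.cast_nonneg _))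
  unfold kern
  split_ifs
  · have : 0 ≤ C := by linarith
    positivity
  rw [div_le_iff₀ hη0]
  by_cases h1 : η < 1
  · refine (sum_Wn_small γ A B q r η hB hq hr hη0 h1).trans ?_
    have hs := hdsub (fun _ => True) (fun D hD _ => by
      have hD0 : 0 < D := Nat.pos_of_mem_divisors (Finset.mem_filter.1 hD).1
      have : (1 : ℝ) ≤ D := by exact_mod_cast hD0
      linarith)
    rw [Finset.filter_true] at hs
    calc 2 * Ph n * ∑ D ∈ dset B q r, EVi γ A B η D q r / (D.totient : ℝ)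
        ≤ 2 * Ph n * Z := mul_le_mul_of_nonneg_left hs (by positivity)
      _ = 8 * (1 / Y * (Ph n * Z)) * (Y / 4) := by field_simp; ring
      _ ≤ C * (Y1 ^ θ / Y * (Ph n * Z)) * η := by
          refine mul_le_mul (mul_le_mul hC8 (mul_le_mul_of_nonneg_right (div_le_div_of_nonneg_right
            (Real.one_le_rpow hY11 hθ0.le) hYpos.le) (by positivity)) (by positivity)
            (by linarith)) (by linarith) (by positivity) (by positivity)
      _ ≤ _ := mul_le_mul_of_nonneg_right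
          (mul_le_mul_of_nonneg_left (by linarith) (by linarith)) hη0.le
  · have h1' : 1 ≤ η := not_lt.1 h1
    refine (hC1 γ A B q r η hB hq hr h1').trans ?_
    set Lη := Real.log η with hL
    have hL0 : 0 ≤ Lη := Real.log_nonneg h1'
    have hY1η : Y1 ≤ η := max_le h1' (by linarith)
    have hmono : Yof Y1 ≤ Yof η := by
      have hl1 : 0 ≤ Real.log Y1 := Real.log_nonneg hY11
      have hl2 : Real.log Y1 ≤ Lη := Real.log_le_log (by linarith) hY1η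
      unfold Yof
      exact pow_le_pow_left₀ (by linarith [midY0_ge]) (by linarith) 2
    have hY2 : 2 ≤ Yof Y1 := by
      have := midY0_ge
      have : 0 ≤ Real.log Y1 := Real.log_nonneg hY11
      unfold Yof; nlinarith
    have hphi := midPhiBig_split (Yof Y1) (Yof η) n hmono hY2
    have hphi0 : 0 ≤ phiBig (Yof η) n := Finset.prod_nonneg fun p hp => by
      linarith [ratio_nonneg (Nat.prime_of_mem_primeFactors (Finset.mem_filter.1 hp).1).two_le]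
    have hll : Real.log (Lη + 3) ≤ 4 * (1 / θ + 2) * Y1 ^ θ := by
      have e1 := Real.log_le_sub_one_of_pos (show 0 < Lη + 3 by linarith)
      have e2 : Lη ≤ η ^ θ / θ := Real.log_le_rpow_div hη0.le hθ0
      have e3 : (1 : ℝ) ≤ η ^ θ := Real.one_le_rpow h1' hθ0.le
      have e4 : η ^ θ ≤ 4 * Y1 ^ θ := by
        calc η ^ θ ≤ (4 * Y1) ^ θ :=
              Real.rpow_le_rpow hη0.le (by linarith [le_max_right 1 (Y / 4)]) hθ0.le
          _ = (4 : ℝ) ^ θ * Y1 ^ θ := Real.mul_rpow (by norm_num) (by linarith)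
          _ ≤ _ := mul_le_mul_of_nonneg_right (Real.rpow_le_self_of_one_le (by norm_num)
              (by rw [hθ]; unfold eps; norm_num)) (by positivity)
      calc Real.log (Lη + 3) ≤ Lη + 2 := by linarith
        _ ≤ (1 / θ + 2) * η ^ θ := by
            rw [add_mul, one_div_mul_eq_div]; linarith
        _ ≤ (1 / θ + 2) * (4 * Y1 ^ θ) := mul_le_mul_of_nonneg_left e4 (by positivity)
        _ = _ := by ring
    have hll0 : 0 ≤ Real.log (Lη + 3) := Real.log_nonneg (by linarith)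
    have hZ' := hdsub (fun D : ℕ => 2 * η < (D : ℝ)) (fun D _ h => by linarith)
    have hb : phiBig (Yof η) n * (η + Real.log (Lη + 3) *
        ∑ D ∈ (dset B q r).filter (fun D : ℕ => 2 * η < (D : ℝ)),
          EVi γ A B η D q r / (D.totient : ℝ))
        ≤ (Real.exp 4 + X + 16 * (1 / θ + 2) * (Y1 ^ θ / Y * (Ph n * Z))) * η := by
      have hS0 : 0 ≤ ∑ D ∈ (dset B q r).filter (fun D : ℕ => 2 * η < (D : ℝ)),
          EVi γ A B η D q r / (D.totient : ℝ) :=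
        Finset.sum_nonneg fun D _ => div_nonneg (EVi_nonneg ..) (Nat.cast_nonneg _)
      calc _ ≤ (Real.exp 4 + X) * η + Ph n * (4 * (1 / θ + 2) * Y1 ^ θ * Z) := by
            rw [mul_add]
            exact add_le_add (mul_le_mul_of_nonneg_right hphi hη0.le)
              (mul_le_mul (midPhiBig_le_Ph _ n hn0) (mul_le_mul hll hZ' hS0 (by positivity))
                (by positivity) hP0)
        _ = (Real.exp 4 + X) * η + 16 * (1 / θ + 2) * (Y1 ^ θ / Y * (Ph n * Z)) * (Y / 4) := by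
            field_simp; ring
        _ ≤ _ := by
            rw [add_mul (Real.exp 4 + X)]
            gcongr
            linarith
    calc C1 * phiBig (Yof η) n * (η + Real.log (Lη + 3) *
          ∑ D ∈ (dset B q r).filter (fun D : ℕ => 2 * η < (D : ℝ)),
            EVi γ A B η D q r / (D.totient : ℝ))
        ≤ (|C1| + 1) * (phiBig (Yof η) n * (η + Real.log (Lη + 3) *
          ∑ D ∈ (dset B q r).filter (fun D : ℕ => 2 * η < (D : ℝ)),
            EVi γ A B η D q r / (D.totient : ℝ))) := by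
          rw [mul_assoc]
          refine mul_le_mul_of_nonneg_right (by linarith [le_abs_self C1]) (mul_nonneg hphi0 ?_)
          exact add_nonneg hη0.le (mul_nonneg hll0
            (Finset.sum_nonneg fun D _ => div_nonneg (EVi_nonneg ..) (Nat.cast_nonneg _)))
      _ ≤ (|C1| + 1) * ((Real.exp 4 + X + 16 * (1 / θ + 2) * (Y1 ^ θ / Y * (Ph n * Z))) * η) :=
          mul_le_mul_of_nonneg_left hb (by positivity)
      _ ≤ (|C1| + 1) * ((Real.exp 4 + 1) * (16 * (1 / θ + 2)) *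
          (1 + X + Y1 ^ θ / Y * (Ph n * Z)) * η) := by
          refine mul_le_mul_of_nonneg_left (mul_le_mul_of_nonneg_right ?_ hη0.le) (by positivity)
          have hk2 : 1 ≤ 16 * (1 / θ + 2) := by linarith only [hk1]
          have h41 : 1 ≤ Real.exp 4 + 1 := by linarith only [Real.exp_pos 4]
          have e1 : Real.exp 4 ≤ (Real.exp 4 + 1) * (16 * (1 / θ + 2)) :=
            le_trans (by linarith only) (le_mul_of_one_le_right (zero_le_one.trans h41) hk2)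
          have e2 : 1 ≤ (Real.exp 4 + 1) * (16 * (1 / θ + 2)) := h41.trans
            (le_mul_of_one_le_right (zero_le_one.trans h41) hk2)
          have e3 : 16 * (1 / θ + 2) ≤ (Real.exp 4 + 1) * (16 * (1 / θ + 2)) :=
            le_mul_of_one_le_left (zero_le_one.trans hk2) h41
          linarith only [e1, mul_le_mul_of_nonneg_right e2 hX0.le,
            mul_le_mul_of_nonneg_right e3 hT0]
      _ = _ := by rw [hC]; ring

lemma midProd_le (Y b P r : ℝ) (y1 y2 : ℝ) (hY : 0 < Y) (h1 : 0 < y1) (h2 : 0 < y2)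
    (hP : P = (y1 * y2) ^ b) (hr : r = y1 * y2 / Y ^ 2) : P = r ^ b * Y ^ (2 * b) := by
  rw [hP, hr, Real.rpow_mul hY.le, Real.rpow_two, ← Real.mul_rpow (by positivity) (by positivity)]
  congr 1
  field_simp

/-- Trade a negative power of `Y` for a decaying one. -/
lemma midShift (a b c κ Y E : ℝ) (hY : 0 < Y) (hκ : 0 ≤ κ) (hκ1 : κ ≤ 1)
    (ha : 0 ≤ a + κ) (hb : b ≤ a - κ - κ) (hb1 : -2 + a + κ ≤ b) (hc : 0 ≤ c)
    (hE : 4 ≤ Y → c ≤ E) (hE' : Y < 4 → c * Y ^ (-(a + κ)) ≤ E) :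
    Y ^ (-a) * max 1 (Y / 4) ^ b * c ≤ 16 * E * Real.exp (-κ * |Real.log Y|) := by
  have key : Y ^ (-(a + κ)) * c ≤ max 1 (Y / 4) ^ (-(a + κ)) * E := by
    rcases lt_or_ge Y 4 with h | h
    · rw [max_eq_left (by linarith), Real.one_rpow, one_mul, mul_comm]
      exact hE' h
    · rw [max_eq_right (by linarith)]
      exact mul_le_mul (Real.rpow_le_rpow_of_nonpos (by positivity) (by linarith) (by linarith))
        (hE h) hc (by positivity)
  have hm : (0 : ℝ) < max 1 (Y / 4) := lt_of_lt_of_le one_pos (le_max_left _ _)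
  have hE0 : 0 ≤ E := by
    by_contra hneg
    have h2 : max 1 (Y / 4) ^ (-(a + κ)) * E < 0 :=
      mul_neg_of_pos_of_neg (by positivity) (not_le.1 hneg)
    have h3 : 0 ≤ Y ^ (-(a + κ)) * c := by positivity
    linarith
  calc Y ^ (-a) * max 1 (Y / 4) ^ b * c
      = Y ^ κ * max 1 (Y / 4) ^ b * (Y ^ (-(a + κ)) * c) := by
        rw [show -a = κ + -(a + κ) by ring, Real.rpow_add hY]; ring
    _ ≤ Y ^ κ * max 1 (Y / 4) ^ b * (max 1 (Y / 4) ^ (-(a + κ)) * E) :=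
        mul_le_mul_of_nonneg_left key (by positivity)
    _ = Y ^ κ * max 1 (Y / 4) ^ (b + -(a + κ)) * E := by rw [Real.rpow_add hm]; ring
    _ ≤ 16 * Real.exp (-κ * |Real.log Y|) * E :=
        mul_le_mul_of_nonneg_right (midDelta κ κ _ Y hY hκ le_rfl hκ1 (by linarith) (by linarith))
          hE0
    _ = _ := by ring


/-- The decay attached to the class of `(y1, y2)`. -/
noncomputable def midDel (κ y1 y2 : ℝ) : ℝ :=
  (y1 * y2 / (2 * max y1 y2) ^ 2) ^ (1 / 10 : ℝ) * Real.exp (-κ * |Real.log (2 * max y1 y2)|)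

/-- The bound for the kernel on the class of `(y1, y2)`. -/
noncomputable def midR (γ : ℝ) (ψ : ℕ → ℝ) (A : ℤ) (B : ℕ) (y1 y2 : ℝ) (q r : ℕ) : ℝ :=
  Real.exp (-(2 * (Yof (max 1 (2 * max y1 y2 / 4)) - 2))) *
      (Real.exp (Yof (max 1 (2 * max y1 y2 / 4)) *
        sBig (Yof (max 1 (2 * max y1 y2 / 4))) (uu q r * vv q r)) * clsI ψ y1 y2 q r) +
    max 1 (2 * max y1 y2 / 4) ^ (eps / 4) / (2 * max y1 y2) * (Ph (uu q r * vv q r) *
      (∑ D ∈ (dset B q r).filter (fun D : ℕ => 2 * max y1 y2 ≤ 4 * (D : ℝ)),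
        EVi γ A B (2 * max y1 y2) D q r / D.totient) * clsI ψ y1 y2 q r)

/-- The dyadic index. -/
noncomputable def midIdx (x : ℝ) : ℤ := ⌈Real.logb 2 x⌉

lemma midIdx_spec (x : ℝ) (hx : 0 < x) :
    (2 : ℝ) ^ ((midIdx x : ℤ) : ℝ) / 2 < x ∧ x ≤ (2 : ℝ) ^ ((midIdx x : ℤ) : ℝ) := by
  unfold midIdx
  constructor
  · rw [← Real.rpow_sub_one two_ne_zero, ← Real.lt_logb_iff_rpow_lt one_lt_two hx]
    linarith [Int.ceil_lt_add_one (Real.logb 2 x)]
  · exact (Real.logb_le_iff_le_rpow one_lt_two hx).1 (Int.le_ceil _)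

lemma midCls (ψ : ℕ → ℝ) (hψ : ∀ q, 0 ≤ ψ q) (y1 y2 : ℝ) (q r : ℕ) (h : InCls ψ y1 y2 q r) :
    etaP ψ q r ≤ 2 * max y1 y2 ∧ 2 * max y1 y2 ≤ 4 * etaP ψ q r := by
  obtain ⟨⟨a1, a2⟩, b1, b2⟩ := h
  have := hψ q
  have := hψ r
  have hv : 0 ≤ (vv q r : ℝ) * ψ q := by positivity
  have hu : 0 ≤ (uu q r : ℝ) * ψ r := by positivity
  simp only [etaP]
  constructor
  · linarith [le_max_left y1 y2, le_max_right y1 y2]
  · rcases le_total y1 y2 with h | h
    · rw [max_eq_right h]; linarith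
    · rw [max_eq_left h]; linarith

lemma midRatio (y1 y2 Y : ℝ) (hy1 : 0 < y1) (hy2 : 0 < y2) (hY : Y = 2 * max y1 y2) :
    0 < Y ∧ 0 < y1 * y2 / Y ^ 2 ∧
      (y1 * y2) ^ (1 / 2 - eps) = (y1 * y2 / Y ^ 2) ^ (1 / 2 - eps) * Y ^ (2 * (1 / 2 - eps)) ∧
      (y1 * y2 / Y ^ 2) ^ (1 / 2 - eps) ≤ (y1 * y2 / Y ^ 2) ^ (1 / 10 : ℝ) ∧
      y1 * y2 / Y ^ 2 ≤ 1 := by
  have h1 := le_max_left y1 y2
  have h2 := le_max_right y1 y2
  have hY0 : 0 < Y := by linarith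
  have hr : 0 < y1 * y2 / Y ^ 2 := by positivity
  have hr1 : y1 * y2 / Y ^ 2 ≤ 1 := by
    rw [div_le_one (by positivity), sq]
    exact mul_le_mul (by linarith) (by linarith) hy2.le hY0.le
  refine ⟨hY0, hr, midProd_le Y _ _ _ y1 y2 hY0 hy1 hy2 rfl rfl,
    Real.rpow_le_rpow_of_exponent_ge hr hr1 (by unfold eps; norm_num), hr1⟩

lemma midExcNum (κ y1 y2 Y : ℝ) (hy1 : 0 < y1) (hy2 : 0 < y2) (hY : Y = 2 * max y1 y2)
    (hκ0 : 0 ≤ κ) (hκe : κ ≤ eps / 4) :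
    (y1 * y2) ^ (1 / 2 - eps) * max 1 (Y / 4) ^ (-2 : ℝ) ≤ 16 * midDel κ y1 y2 := by
  obtain ⟨hY0, hr, hP, hrb, -⟩ := midRatio y1 y2 Y hy1 hy2 hY
  have heps : eps = 1 / 100000 := rfl
  unfold midDel
  rw [hP, ← hY, mul_assoc, mul_left_comm (16 : ℝ)]
  exact mul_le_mul hrb (midDelta κ _ _ Y hY0 hκ0
    (by linarith [heps]) (by linarith [heps]) (by linarith [heps]) le_rfl)
    (by positivity) (by positivity)

/-- (b) the excess of the large primes. -/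
lemma midExc :
    ∃ C : ℝ, 0 ≤ C ∧ ∀ (ψ : ℕ → ℝ) (S : Finset ℕ) (y1 y2 κ Y : ℝ),
      (∀ q, 0 ≤ ψ q) → (∀ q ∈ S, 0 < q ∧ 0 < ψ q) → 0 < y1 → 0 < y2 → Y = 2 * max y1 y2 →
      0 ≤ κ → κ ≤ eps / 4 →
      Real.exp (-(2 * (Yof (max 1 (Y / 4)) - 2))) * pairSum (mu ψ) (fun q r =>
          Real.exp (Yof (max 1 (Y / 4)) * sBig (Yof (max 1 (Y / 4))) (uu q r * vv q r)) *
            clsI ψ y1 y2 q r) S S
        ≤ C * midDel κ y1 y2 * (msum (mu ψ) S * msum (mu ψ) S) ^ aE := by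
  obtain ⟨Cexp, hexp⟩ := exp_moment_bound
  refine ⟨max Cexp 0 * Real.exp 4 * 16, by positivity, ?_⟩
  intro ψ S y1 y2 κ Y hψ hpos hy1 hy2 hY hκ0 hκe
  have hd := midExcNum κ y1 y2 Y hy1 hy2 hY hκ0 hκe
  set Y1 := max 1 (Y / 4) with hY1
  have hY10 : 0 < Y1 := lt_of_lt_of_le one_pos (le_max_left _ _)
  have hlog : 0 ≤ Real.log Y1 := Real.log_nonneg (le_max_left _ _)
  have hY2 := midY0_ge
  have hYo : Y0 ^ 2 ≤ Yof Y1 := by
    unfold Yof
    exact pow_le_pow_left₀ (by linarith) (by linarith) 2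
  have hlogle : Real.log Y1 ≤ Yof Y1 := by unfold Yof; nlinarith
  have he : Real.exp (-(2 * (Yof Y1 - 2))) ≤ Real.exp 4 * Y1 ^ (-2 : ℝ) := by
    rw [Real.rpow_def_of_pos hY10, ← Real.exp_add]
    exact Real.exp_le_exp.2 (by linarith)
  have hM0 : 0 ≤ msum (mu ψ) S := Finset.sum_nonneg fun q _ => mu_nonneg' hψ q
  calc _ ≤ Real.exp 4 * Y1 ^ (-2 : ℝ) * (max Cexp 0 * (y1 * y2) ^ (1 / 2 - eps) *
        (msum (mu ψ) S * msum (mu ψ) S) ^ aE) := by
        refine mul_le_mul he ((hexp ψ S y1 y2 _ hψ hpos hy1 hy2 hYo).trans ?_)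
          (Finset.sum_nonneg fun q _ => Finset.sum_nonneg fun r _ =>
            mul_nonneg (mul_nonneg (mu_nonneg' hψ q) (mu_nonneg' hψ r))
              (mul_nonneg (Real.exp_pos _).le (cls_mem ψ y1 y2 q r).1)) (by positivity)
        gcongr
        exact le_max_left _ _
    _ = max Cexp 0 * Real.exp 4 * ((y1 * y2) ^ (1 / 2 - eps) * Y1 ^ (-2 : ℝ)) *
        (msum (mu ψ) S * msum (mu ψ) S) ^ aE := by ring
    _ ≤ max Cexp 0 * Real.exp 4 * (16 * midDel κ y1 y2) *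
        (msum (mu ψ) S * msum (mu ψ) S) ^ aE := by gcongr
    _ = _ := by ring

/-- Pointwise bound for sums over large moduli. -/
lemma midBigD :
    ∃ C : ℝ, 0 ≤ C ∧ ∀ (γ K t : ℝ) (S : Finset ℕ) (ψ : ℕ → ℝ) (A : ℤ) (B : ℕ) (y1 y2 Y lo : ℝ)
      (P' : ℕ → ℕ → Finset ℕ),
      10 ≤ t → (∀ q, 0 ≤ ψ q) → IsCell zeta0 K t S ψ → IsApprox γ (Real.exp (t / 2)) A B →
      0 < y1 → 0 < y2 → Y = 2 * max y1 y2 → Y ≤ 4 * Real.exp (rhoM * t) → 0 < lo →
      (∀ q r, ∀ D ∈ P' q r, lo ≤ (D : ℝ)) →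
      pairSum (mu ψ) (fun q r => Ph (uu q r * vv q r) *
          (∑ D ∈ P' q r, EVi γ A B Y D q r / (D.totient : ℝ)) * clsI ψ y1 y2 q r) S S
        ≤ C * max 1 (Y / 4) * Real.exp (4 * (1 / 10 ^ 12) * t) * lo ^ (eps / 4 - 1) *
            ((y1 * y2) ^ (1 / 2 - eps) * (msum (mu ψ) S * msum (mu ψ) S) ^ aE) := by
  obtain ⟨Cphi, hphi⟩ := phi_moment_bound
  obtain ⟨Cp, hCp0, hpoint⟩ := midPointwise (eps / 4) (1 / 10 ^ 12) (by unfold eps; norm_num)
    (by unfold eps; norm_num) (by norm_num)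
  refine ⟨Cp * max Cphi 0, by positivity, ?_⟩
  intro γ K t S ψ A B y1 y2 Y lo P' ht hψ hS hAB hy1 hy2 hY hYhi hlo hP'
  have hpos : ∀ q ∈ S, 0 < q ∧ 0 < ψ q := fun q hq =>
    ⟨(hS q hq).1, lt_of_lt_of_le (Real.exp_pos _) (hS q hq).2.1⟩
  have hM0 : 0 ≤ msum (mu ψ) S := Finset.sum_nonneg fun q _ => mu_nonneg' hψ q
  calc _ ≤ pairSum (mu ψ) (fun q r => Cp * max 1 (Y / 4) * Real.exp (4 * (1 / 10 ^ 12) * t) *
        lo ^ (eps / 4 - 1) * (Ph (uu q r * vv q r) ^ 2 * clsI ψ y1 y2 q r)) S S := by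
        refine pairSum_mono (mu_nonneg' hψ) fun q hq r hr => ?_
        by_cases hc : clsI ψ y1 y2 q r = 0
        · simp only [hc, mul_zero, le_refl]
        have hle := (midCls ψ hψ y1 y2 q r (cls_inCls hc)).1
        rw [← hY] at hle
        have hz := hpoint γ K t S ψ A B q r Y lo (P' q r) ht hS hAB hq hr hle hYhi hlo (hP' q r)
        rw [← mul_assoc (Cp * max 1 (Y / 4) * _ * _)]
        refine mul_le_mul_of_nonneg_right ?_ (cls_mem ψ y1 y2 q r).1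
        rw [mul_comm (Ph _)]
        exact mul_le_mul hz (le_self_pow₀ (one_le_Ph _
          (uu_mul_vv_pos q r (hpos q hq).1 (hpos r hr).1)) two_ne_zero) (Ph_nonneg _)
          (by positivity)
    _ = Cp * max 1 (Y / 4) * Real.exp (4 * (1 / 10 ^ 12) * t) * lo ^ (eps / 4 - 1) *
        pairSum (mu ψ) (fun q r => Ph (uu q r * vv q r) ^ 2 * clsI ψ y1 y2 q r) S S :=
        midPairSum_smul _ _ _ _ _
    _ ≤ Cp * max 1 (Y / 4) * Real.exp (4 * (1 / 10 ^ 12) * t) * lo ^ (eps / 4 - 1) *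
        (max Cphi 0 * (y1 * y2) ^ (1 / 2 - eps) * (msum (mu ψ) S * msum (mu ψ) S) ^ aE) := by
        refine mul_le_mul_of_nonneg_left ((hphi ψ S y1 y2 hψ hpos hy1 hy2).trans ?_)
          (by positivity)
        gcongr
        exact le_max_left _ _
    _ = _ := by ring

lemma midImbalNum (t κ y1 y2 Y : ℝ) (ht : 0 ≤ t) (hy1 : 0 < y1) (hy2 : 0 < y2)
    (hY : Y = 2 * max y1 y2) (hκ0 : 0 ≤ κ) (hκe : κ ≤ eps / 4)
    (hYlo : Real.exp (-rhoM * t) ≤ Y)
    (hbal : ¬(Y * Real.exp (-nuM * t) ≤ y1 ∧ Y * Real.exp (-nuM * t) ≤ y2)) :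
    max 1 (Y / 4) ^ (eps / 4) / Y * (max 1 (Y / 4) * Real.exp (4 * (1 / 10 ^ 12) * t) *
      max 1 (Y / 4) ^ (eps / 4 - 1) * (y1 * y2) ^ (1 / 2 - eps)) ≤ 16 * midDel κ y1 y2 := by
  obtain ⟨hY0, hr0, hP, -, hr1⟩ := midRatio y1 y2 Y hy1 hy2 hY
  have heps : eps = 1 / 100000 := rfl
  have hm1 := le_max_left y1 y2
  have hm2 := le_max_right y1 y2
  unfold midDel
  rw [← hY]
  set r := y1 * y2 / Y ^ 2 with hrd
  have hrν : r ≤ Real.exp (-nuM * t) := by
    rw [hrd, div_le_iff₀ (by positivity)]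
    rcases not_and_or.1 hbal with h | h
    · have := mul_le_mul (not_le.1 h).le (show y2 ≤ Y by linarith) hy2.le (by positivity)
      linarith
    · have := mul_le_mul (not_le.1 h).le (show y1 ≤ Y by linarith) hy1.le (by positivity)
      linarith
  have hrb' : r ^ (1 / 2 - eps) ≤ r ^ (1 / 10 : ℝ) * Real.exp (-(3 / 10) * nuM * t) := by
    calc r ^ (1 / 2 - eps) ≤ r ^ (1 / 10 + 3 / 10 : ℝ) :=
          Real.rpow_le_rpow_of_exponent_ge hr0 hr1 (by rw [heps]; norm_num)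
      _ = r ^ (1 / 10 : ℝ) * r ^ (3 / 10 : ℝ) := Real.rpow_add hr0 _ _
      _ ≤ r ^ (1 / 10 : ℝ) * Real.exp (-nuM * t) ^ (3 / 10 : ℝ) := by gcongr
      _ = _ := by rw [← Real.exp_mul]; ring_nf
  have hκt : κ * t ≤ eps / 4 * t := mul_le_mul_of_nonneg_right hκe ht
  rw [heps] at hκt
  have hc1 : Real.exp (-(3 / 10) * nuM * t) * Real.exp (4 * (1 / 10 ^ 12) * t) ≤ 1 := by
    rw [← Real.exp_add]
    exact Real.exp_le_one_iff.2 (by unfold nuM; linarith)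
  have hshift := midShift (2 * eps) (eps / 2)
    (Real.exp (-(3 / 10) * nuM * t) * Real.exp (4 * (1 / 10 ^ 12) * t)) κ Y 1 hY0 hκ0
    (by linarith [heps]) (by linarith [heps]) (by linarith [heps]) (by linarith [heps])
    (by positivity) (fun _ => hc1) (fun _ => by
      refine le_trans (mul_le_mul_of_nonneg_left
        (Real.rpow_le_rpow_of_nonpos (Real.exp_pos _) hYlo (by linarith [heps]))
        (by positivity)) ?_
      rw [← Real.exp_add, ← Real.exp_mul, ← Real.exp_add]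
      refine Real.exp_le_one_iff.2 ?_
      unfold nuM rhoM
      rw [heps]
      linarith)
  set Y1 := max 1 (Y / 4) with hY1
  have hY10 : 0 < Y1 := lt_of_lt_of_le one_pos (le_max_left _ _)
  have eY1 : Y1 ^ (eps / 4) * Y1 * Y1 ^ (eps / 4 - 1) = Y1 ^ (eps / 2) := by
    rw [← Real.rpow_add_one hY10.ne', ← Real.rpow_add hY10]; ring_nf
  have hPY : (y1 * y2) ^ (1 / 2 - eps) / Y = r ^ (1 / 2 - eps) * Y ^ (-(2 * eps)) := by
    rw [hP, mul_div_assoc, ← Real.rpow_sub_one hY0.ne']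
    ring_nf
  calc _ = (y1 * y2) ^ (1 / 2 - eps) / Y * (Y1 ^ (eps / 4) * Y1 * Y1 ^ (eps / 4 - 1)) *
        Real.exp (4 * (1 / 10 ^ 12) * t) := by ring
    _ = r ^ (1 / 2 - eps) * Y ^ (-(2 * eps)) * Y1 ^ (eps / 2) *
        Real.exp (4 * (1 / 10 ^ 12) * t) := by rw [hPY, eY1]
    _ ≤ r ^ (1 / 10 : ℝ) * Real.exp (-(3 / 10) * nuM * t) * Y ^ (-(2 * eps)) *
        Y1 ^ (eps / 2) * Real.exp (4 * (1 / 10 ^ 12) * t) := by gcongr
    _ = r ^ (1 / 10 : ℝ) * (Y ^ (-(2 * eps)) * Y1 ^ (eps / 2) *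
        (Real.exp (-(3 / 10) * nuM * t) * Real.exp (4 * (1 / 10 ^ 12) * t))) := by ring
    _ ≤ r ^ (1 / 10 : ℝ) * (16 * 1 * Real.exp (-κ * |Real.log Y|)) := by gcongr
    _ = _ := by ring

lemma midTailNum (t κ y1 y2 Y : ℝ) (ht : 0 ≤ t) (hy1 : 0 < y1) (hy2 : 0 < y2)
    (hY : Y = 2 * max y1 y2) (hκ0 : 0 ≤ κ) (hκe : κ ≤ eps / 4)
    (hYlo : Real.exp (-rhoM * t) ≤ Y) :
    max 1 (Y / 4) ^ (eps / 4) / Y * (max 1 (Y / 4) * Real.exp (4 * (1 / 10 ^ 12) * t) *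
      max (max 1 (Y / 4)) (Real.exp (nuM * t)) ^ (eps / 4 - 1) * (y1 * y2) ^ (1 / 2 - eps))
      ≤ 16 * midDel κ y1 y2 := by
  obtain ⟨hY0, hr0, hP, hrb, -⟩ := midRatio y1 y2 Y hy1 hy2 hY
  have heps : eps = 1 / 100000 := rfl
  unfold midDel
  rw [← hY]
  set r := y1 * y2 / Y ^ 2 with hrd
  set Y1 := max 1 (Y / 4) with hY1
  have hY10 : 0 < Y1 := lt_of_lt_of_le one_pos (le_max_left _ _)
  set lo' := max Y1 (Real.exp (nuM * t)) with hlo'
  have hl0 : 0 < lo' := lt_of_lt_of_le hY10 (le_max_left _ _)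
  set c := Real.exp (4 * (1 / 10 ^ 12) * t) *
    (if 4 ≤ Y then Real.exp (-(nuM * t) * (eps / 2)) else
      Real.exp (-(nuM * t) * (1 - eps / 4))) with hcd
  have hlobound : Y1 ^ (eps / 4) * Y1 * lo' ^ (eps / 4 - 1) *
      Real.exp (4 * (1 / 10 ^ 12) * t) ≤ Y1 ^ eps * c := by
    rw [hcd]
    split_ifs with h4
    · have : lo' ^ (eps / 4 - 1) ≤ Y1 ^ (eps / 4 - 1 + eps / 2) *
          Real.exp (-(nuM * t) * (eps / 2)) := by
        calc lo' ^ (eps / 4 - 1) = lo' ^ (eps / 4 - 1 + eps / 2) * lo' ^ (-(eps / 2)) := by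
              rw [← Real.rpow_add hl0]; ring_nf
          _ ≤ Y1 ^ (eps / 4 - 1 + eps / 2) * Real.exp (nuM * t) ^ (-(eps / 2)) :=
              mul_le_mul (Real.rpow_le_rpow_of_nonpos hY10 (le_max_left _ _)
                  (by linarith [heps]))
                (Real.rpow_le_rpow_of_nonpos (Real.exp_pos _) (le_max_right _ _)
                  (by linarith [heps])) (by positivity) (by positivity)
          _ = _ := by rw [← Real.exp_mul]; ring_nf
      calc _ ≤ Y1 ^ (eps / 4) * Y1 * (Y1 ^ (eps / 4 - 1 + eps / 2) *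
            Real.exp (-(nuM * t) * (eps / 2))) * Real.exp (4 * (1 / 10 ^ 12) * t) := by gcongr
        _ = Y1 ^ (eps / 4) * Y1 ^ (1 : ℝ) * Y1 ^ (eps / 4 - 1 + eps / 2) *
            (Real.exp (4 * (1 / 10 ^ 12) * t) * Real.exp (-(nuM * t) * (eps / 2))) := by
            rw [Real.rpow_one]; ring
        _ = _ := by rw [← Real.rpow_add hY10, ← Real.rpow_add hY10]; ring_nf
    · have hY1e : Y1 = 1 := max_eq_left (by linarith [not_le.1 h4])
      simp only [hY1e, Real.one_rpow, one_mul]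
      rw [mul_comm]
      gcongr
      calc lo' ^ (eps / 4 - 1) ≤ Real.exp (nuM * t) ^ (eps / 4 - 1) :=
            Real.rpow_le_rpow_of_nonpos (Real.exp_pos _) (le_max_right _ _)
              (by linarith [heps])
        _ = _ := by rw [← Real.exp_mul]; ring_nf
  have hκt : κ * t ≤ eps / 4 * t := mul_le_mul_of_nonneg_right hκe ht
  rw [heps] at hκt
  have hshift := midShift (2 * eps) eps c κ Y 1 hY0 hκ0
    (by linarith [heps]) (by linarith [heps]) (by linarith [heps]) (by linarith [heps])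
    (by rw [hcd]; positivity)
    (fun h4 => by
      rw [hcd, if_pos h4, ← Real.exp_add]
      exact Real.exp_le_one_iff.2 (by unfold nuM; rw [heps]; linarith))
    (fun h4 => by
      refine le_trans (mul_le_mul_of_nonneg_left
        (Real.rpow_le_rpow_of_nonpos (Real.exp_pos _) hYlo (by linarith [heps]))
        (by rw [hcd]; positivity)) ?_
      rw [hcd, if_neg (not_le.2 h4), ← Real.exp_add, ← Real.exp_mul, ← Real.exp_add]
      refine Real.exp_le_one_iff.2 ?_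
      unfold nuM rhoM
      rw [heps]
      linarith)
  have hPY : (y1 * y2) ^ (1 / 2 - eps) / Y = r ^ (1 / 2 - eps) * Y ^ (-(2 * eps)) := by
    rw [hP, mul_div_assoc, ← Real.rpow_sub_one hY0.ne']
    ring_nf
  calc _ = (y1 * y2) ^ (1 / 2 - eps) / Y * (Y1 ^ (eps / 4) * Y1 * lo' ^ (eps / 4 - 1) *
        Real.exp (4 * (1 / 10 ^ 12) * t)) := by ring
    _ ≤ r ^ (1 / 10 : ℝ) * Y ^ (-(2 * eps)) * (Y1 ^ eps * c) := by
        rw [hPY]
        exact mul_le_mul (mul_le_mul_of_nonneg_right hrb (by positivity)) hlobound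
          (by positivity) (by positivity)
    _ = r ^ (1 / 10 : ℝ) * (Y ^ (-(2 * eps)) * Y1 ^ eps * c) := by ring
    _ ≤ r ^ (1 / 10 : ℝ) * (16 * 1 * Real.exp (-κ * |Real.log Y|)) := by gcongr
    _ = _ := by ring

lemma midMainNum (κ g y1 y2 Y : ℝ) (hy1 : 0 < y1) (hy2 : 0 < y2) (hY : Y = 2 * max y1 y2)
    (hκ0 : 0 ≤ κ) (hκe : κ ≤ eps / 4) (hκg : κ ≤ g / 2 - 2 * eps) (hg : g ≤ 5 * eps) :
    max 1 (Y / 4) ^ (eps / 4) / Y * ((y1 * y2) ^ (1 / 2 - eps) * Y ^ (g / 2) *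
      max 1 (Y / 4) ^ (-((g / 2 - eps / 4) / 2))) ≤ 16 * midDel κ y1 y2 := by
  obtain ⟨hY0, hr0, hP, hrb, -⟩ := midRatio y1 y2 Y hy1 hy2 hY
  have heps : eps = 1 / 100000 := rfl
  unfold midDel
  rw [← hY]
  set r := y1 * y2 / Y ^ 2 with hrd
  set Y1 := max 1 (Y / 4) with hY1
  have hY10 : 0 < Y1 := lt_of_lt_of_le one_pos (le_max_left _ _)
  have hPY : (y1 * y2) ^ (1 / 2 - eps) / Y = r ^ (1 / 2 - eps) * Y ^ (-(2 * eps)) := by
    rw [hP, mul_div_assoc, ← Real.rpow_sub_one hY0.ne']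
    ring_nf
  have hd := midDelta κ (-(2 * eps) + g / 2) (eps / 4 + -((g / 2 - eps / 4) / 2)) Y hY0 hκ0
    (by linarith) (by linarith [heps]) (by linarith) (by linarith [heps])
  calc _ = (y1 * y2) ^ (1 / 2 - eps) / Y * Y ^ (g / 2) *
        (Y1 ^ (eps / 4) * Y1 ^ (-((g / 2 - eps / 4) / 2))) := by ring
    _ = r ^ (1 / 2 - eps) * (Y ^ (-(2 * eps) + g / 2) *
        Y1 ^ (eps / 4 + -((g / 2 - eps / 4) / 2))) := by
        rw [hPY, Real.rpow_add hY0, Real.rpow_add hY10]; ring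
    _ ≤ r ^ (1 / 10 : ℝ) * (16 * Real.exp (-κ * |Real.log Y|)) :=
        mul_le_mul hrb hd (by positivity) (by positivity)
    _ = _ := by ring

/-- One modulus in the balanced case: Cauchy-Schwarz. -/
lemma midTerm :
    ∃ C t0 g : ℝ, 0 ≤ C ∧ 4 * eps < g ∧ g ≤ 5 * eps ∧
      ∀ (K γ : ℝ) (ψ : ℕ → ℝ) (t : ℝ) (S : Finset ℕ) (A : ℤ) (B : ℕ) (Y y1 y2 : ℝ) (D : ℕ),
      t0 ≤ t → (∀ q, 0 ≤ ψ q) → IsCell zeta0 K t S ψ → IsApprox γ (Real.exp (t / 2)) A B →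
      0 < y1 → 0 < y2 → Y = 2 * max y1 y2 →
      Real.exp (-rhoM * t) ≤ Y → Y ≤ 4 * Real.exp (rhoM * t) → 0 < D →
      (D : ℝ) ≤ Real.exp (nuM * t) → Nat.Coprime D B → Y ≤ 4 * (D : ℝ) →
      Y * Real.exp (-nuM * t) ≤ y1 → Y * Real.exp (-nuM * t) ≤ y2 →
      1 / (D.totient : ℝ) * pairSum (mu ψ)
          (fun q r => Ph (uu q r * vv q r) * EVi γ A B Y D q r * clsI ψ y1 y2 q r) S S
        ≤ C * (y1 * y2) ^ (1 / 2 - eps) * (msum (mu ψ) S * msum (mu ψ) S) ^ aE *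
            Y ^ (g / 2) * (D : ℝ) ^ (-1 - (g / 2 - eps / 4)) := by
  obtain ⟨Cev, tev, g0, hg0, hev⟩ := evD_bound
  obtain ⟨Cphi, hphi⟩ := phi_moment_bound
  have heps : eps = 1 / 100000 := rfl
  obtain ⟨Ct, hCt0, hCt⟩ := midInvTotient (eps / 4) (by rw [heps]; norm_num)
  set g := min g0 (5 * eps) with hg
  have hg1 : 4 * eps < g := lt_min hg0 (by rw [heps]; norm_num)
  set F := max Cphi 0 with hF
  set C4 := Real.sqrt (max Cev 0 * (4 : ℝ) ^ g0) with hC4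
  refine ⟨Ct * C4 * Real.sqrt F, tev, g, by positivity, hg1, min_le_right _ _, ?_⟩
  intro K γ ψ t S A B Y y1 y2 D ht hψ hS hAB hy1 hy2 hY hYlo hYhi hD0 hDν hcop hYD hb1 hb2
  have hY0 : 0 < Y := (Real.exp_pos _).trans_le hYlo
  have hDR : (0 : ℝ) < D := by exact_mod_cast hD0
  have hm1 := le_max_left y1 y2
  have hm2 := le_max_right y1 y2
  have hpos : ∀ q ∈ S, 0 < q ∧ 0 < ψ q := fun q hq =>
    ⟨(hS q hq).1, lt_of_lt_of_le (Real.exp_pos _) (hS q hq).2.1⟩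
  have hμ : ∀ q, 0 ≤ mu ψ q := mu_nonneg' hψ
  set P := (y1 * y2) ^ (1 / 2 - eps) with hP
  set Ω := (msum (mu ψ) S * msum (mu ψ) S) ^ aE with hΩ
  have hM0 : 0 ≤ msum (mu ψ) S := Finset.sum_nonneg fun q _ => hμ q
  have hΩ0 : 0 ≤ Ω := by positivity
  have hP0 : 0 ≤ P := by positivity
  have hev' := hev K γ ψ t S A B Y y1 y2 D ht hψ hS hAB hYlo hYhi
    hD0 hDν hcop hYD hb1 (by linarith) hb2 (by linarith)
  have hPh2 : pairSum (mu ψ) (fun q r => Ph (uu q r * vv q r) ^ 2 * clsI ψ y1 y2 q r) S S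
      ≤ F * P * Ω :=
    (hphi ψ S y1 y2 hψ hpos hy1 hy2).trans (mul_le_mul_of_nonneg_right
      (mul_le_mul_of_nonneg_right (le_max_left _ _) hP0) hΩ0)
  have hyd : (Y / D) ^ g0 ≤ (4 : ℝ) ^ g0 * (Y / D) ^ g := by
    have h1 : Y / D / 4 ≤ 1 := by
      rw [div_div, div_le_one (by positivity)]; linarith
    calc (Y / D) ^ g0 = (4 : ℝ) ^ g0 * (Y / D / 4) ^ g0 := by
          rw [← Real.mul_rpow (by norm_num) (by positivity)]; congr 1; ring
      _ ≤ (4 : ℝ) ^ g0 * (Y / D / 4) ^ g := mul_le_mul_of_nonneg_left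
          (Real.rpow_le_rpow_of_exponent_ge (by positivity) h1 (min_le_left _ _))
          (by positivity)
      _ ≤ _ := mul_le_mul_of_nonneg_left (Real.rpow_le_rpow (by positivity)
          (div_le_self (by positivity) (by norm_num)) (by linarith [heps])) (by positivity)
  have hev2 : pairSum (mu ψ) (fun q r => EVi γ A B Y D q r * clsI ψ y1 y2 q r) S S
      ≤ max Cev 0 * ((4 : ℝ) ^ g0 * (Y / D) ^ g) * P * Ω :=
    hev'.trans (mul_le_mul_of_nonneg_right (mul_le_mul_of_nonneg_right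
      (mul_le_mul (le_max_left Cev 0) hyd (by positivity) (le_max_right _ _)) hP0) hΩ0)
  have hE : ∀ q r, EVi γ A B Y D q r = 0 ∨ EVi γ A B Y D q r = 1 := fun q r => by
    unfold EVi; split_ifs <;> simp
  have hcs := (midCauchy (mu ψ) (fun q r => Ph (uu q r * vv q r)) (fun q r => EVi γ A B Y D q r)
    (fun q r => clsI ψ y1 y2 q r) S hμ (fun q r => (cls_mem ψ y1 y2 q r).1)
    (fun q r => Ph_nonneg _) hE).trans (mul_le_mul (Real.sqrt_le_sqrt hPh2)
      (Real.sqrt_le_sqrt hev2) (Real.sqrt_nonneg _) (Real.sqrt_nonneg _))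
  refine le_trans (mul_le_mul (hCt D hD0) hcs (Finset.sum_nonneg fun q _ =>
    Finset.sum_nonneg fun r _ => mul_nonneg (mul_nonneg (hμ q) (hμ r))
      (mul_nonneg (mul_nonneg (Ph_nonneg _) (EVi_nonneg ..)) (cls_mem ψ y1 y2 q r).1))
    (by positivity)) (le_of_eq ?_)
  have e1 : Real.sqrt (max Cev 0 * ((4 : ℝ) ^ g0 * (Y / D) ^ g) * P * Ω)
      = C4 * (Y / D) ^ (g / 2) * Real.sqrt (P * Ω) := by
    rw [hC4, show max Cev 0 * ((4 : ℝ) ^ g0 * (Y / D) ^ g) * P * Ω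
      = max Cev 0 * (4 : ℝ) ^ g0 * ((Y / D) ^ g * (P * Ω)) by ring,
      Real.sqrt_mul (by positivity), Real.sqrt_mul (by positivity) (P * Ω),
      Real.sqrt_eq_rpow ((Y / D) ^ g), ← Real.rpow_mul (by positivity)]
    ring_nf
  have e2 : Real.sqrt (F * P * Ω) = Real.sqrt F * Real.sqrt (P * Ω) := by
    rw [mul_assoc, Real.sqrt_mul (le_max_right _ _)]
  rw [e1, e2]
  have e3 : (D : ℝ) ^ (eps / 4 - 1) * (Y / D) ^ (g / 2)
      = Y ^ (g / 2) * (D : ℝ) ^ (-1 - (g / 2 - eps / 4)) := by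
    rw [Real.div_rpow hY0.le hDR.le, show -1 - (g / 2 - eps / 4) = eps / 4 - 1 - g / 2 by ring,
      Real.rpow_sub hDR (eps / 4 - 1)]
    ring
  calc Ct * (D : ℝ) ^ (eps / 4 - 1) *
        (Real.sqrt F * Real.sqrt (P * Ω) * (C4 * (Y / D) ^ (g / 2) * Real.sqrt (P * Ω)))
      = Ct * C4 * Real.sqrt F * (Real.sqrt (P * Ω) * Real.sqrt (P * Ω)) *
        ((D : ℝ) ^ (eps / 4 - 1) * (Y / D) ^ (g / 2)) := by ring
    _ = _ := by rw [Real.mul_self_sqrt (by positivity), e3]; ring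

lemma midSplit (γ : ℝ) (ψ : ℕ → ℝ) (hψ : ∀ q, 0 ≤ ψ q) (A : ℤ) (B : ℕ) (y1 y2 Y T : ℝ)
    (S : Finset ℕ) :
    pairSum (mu ψ) (fun q r => Ph (uu q r * vv q r) *
        (∑ D ∈ (dset B q r).filter (fun D : ℕ => Y ≤ 4 * (D : ℝ)),
          EVi γ A B Y D q r / (D.totient : ℝ)) * clsI ψ y1 y2 q r) S S
      ≤ pairSum (mu ψ) (fun q r => Ph (uu q r * vv q r) *
          (∑ D ∈ ((dset B q r).filter (fun D : ℕ => Y ≤ 4 * (D : ℝ))).filter
              (fun D : ℕ => T < (D : ℝ)), EVi γ A B Y D q r / (D.totient : ℝ)) *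
            clsI ψ y1 y2 q r) S S
        + ∑ D ∈ (Finset.Icc 1 ⌊T⌋₊).filter (fun D : ℕ => Nat.Coprime D B ∧ Y ≤ 4 * (D : ℝ)),
            1 / (D.totient : ℝ) * pairSum (mu ψ)
              (fun q r => Ph (uu q r * vv q r) * EVi γ A B Y D q r * clsI ψ y1 y2 q r) S S := by
  simp only [← midPairSum_smul, ← midPairSum_sum]
  rw [← pairSum_add]
  refine pairSum_mono (mu_nonneg' hψ) fun q _ r _ => ?_
  set Ds := (Finset.Icc 1 ⌊T⌋₊).filter (fun D : ℕ => Nat.Coprime D B ∧ Y ≤ 4 * (D : ℝ)) with hDs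
  have e : ∑ D ∈ Ds, 1 / (D.totient : ℝ) *
      (Ph (uu q r * vv q r) * EVi γ A B Y D q r * clsI ψ y1 y2 q r)
      = Ph (uu q r * vv q r) * (∑ D ∈ Ds, EVi γ A B Y D q r / (D.totient : ℝ)) *
        clsI ψ y1 y2 q r := by
    rw [Finset.mul_sum, Finset.sum_mul]
    exact Finset.sum_congr rfl fun D _ => by ring
  rw [e, ← add_mul, ← mul_add]
  refine mul_le_mul_of_nonneg_right (mul_le_mul_of_nonneg_left ?_ (Ph_nonneg _))
    (cls_mem ψ y1 y2 q r).1
  rw [← Finset.sum_filter_add_sum_filter_not ((dset B q r).filter _)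
    (fun D : ℕ => T < (D : ℝ))]
  refine add_le_add le_rfl (Finset.sum_le_sum_of_subset_of_nonneg (fun D hD => ?_)
    fun D _ _ => div_nonneg (EVi_nonneg ..) (Nat.cast_nonneg _))
  obtain ⟨hD', hDle⟩ := Finset.mem_filter.1 hD
  obtain ⟨hDd, hYD⟩ := Finset.mem_filter.1 hD'
  obtain ⟨hdiv, -, hcop⟩ := Finset.mem_filter.1 hDd
  refine Finset.mem_filter.2 ⟨Finset.mem_Icc.2 ⟨Nat.pos_of_mem_divisors hdiv,
    Nat.le_floor (not_lt.1 hDle)⟩, ?_, hYD⟩
  exact hcop.coprime_dvd_right (Dvd.intro_left _ rfl)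

/-- The sum over moduli on one class. -/
lemma midClassZ :
    ∃ C t0 κ : ℝ, 0 ≤ C ∧ 0 < κ ∧ κ ≤ eps / 4 ∧
      ∀ (K γ : ℝ) (ψ : ℕ → ℝ) (t : ℝ) (S : Finset ℕ) (A : ℤ) (B : ℕ) (y1 y2 Y : ℝ),
      t0 ≤ t → (∀ q, 0 ≤ ψ q) → IsCell zeta0 K t S ψ → IsApprox γ (Real.exp (t / 2)) A B →
      0 < y1 → 0 < y2 → Y = 2 * max y1 y2 →
      Real.exp (-rhoM * t) ≤ Y → Y ≤ 4 * Real.exp (rhoM * t) →
      max 1 (Y / 4) ^ (eps / 4) / Y * pairSum (mu ψ) (fun q r => Ph (uu q r * vv q r) *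
          (∑ D ∈ (dset B q r).filter (fun D : ℕ => Y ≤ 4 * (D : ℝ)),
            EVi γ A B Y D q r / (D.totient : ℝ)) * clsI ψ y1 y2 q r) S S
        ≤ C * midDel κ y1 y2 * (msum (mu ψ) S * msum (mu ψ) S) ^ aE := by
  obtain ⟨Cb, hCb0, hbigD⟩ := midBigD
  obtain ⟨Cm, tm, g, hCm0, hg1, hg2, hterm⟩ := midTerm
  have heps : eps = 1 / 100000 := rfl
  obtain ⟨Cs, hCs0, hsum⟩ := midTailSum (g / 2 - eps / 4) (by linarith [heps])
  set κ := min (g / 2 - 2 * eps) (eps / 4) with hκ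
  have hκ0 : 0 < κ := lt_min (by linarith) (by rw [heps]; norm_num)
  have hκe : κ ≤ eps / 4 := min_le_right _ _
  have hκg : κ ≤ g / 2 - 2 * eps := min_le_left _ _
  refine ⟨(Cb + Cm * Cs) * 16, max tm 10, κ, by positivity, hκ0, hκe, ?_⟩
  intro K γ ψ t S A B y1 y2 Y ht hψ hS hAB hy1 hy2 hY hYlo hYhi
  have ht10 : (10 : ℝ) ≤ t := (le_max_right _ _).trans ht
  have ht0 : 0 ≤ t := by linarith
  have hY0 : 0 < Y := (Real.exp_pos _).trans_le hYlo
  set P := (y1 * y2) ^ (1 / 2 - eps) with hP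
  set Ω := (msum (mu ψ) S * msum (mu ψ) S) ^ aE with hΩ
  have hM0 : 0 ≤ msum (mu ψ) S := Finset.sum_nonneg fun q _ => mu_nonneg' hψ q
  have hΩ0 : 0 ≤ Ω := by positivity
  have hδ0 : 0 ≤ midDel κ y1 y2 := by unfold midDel; positivity
  set Y1 := max 1 (Y / 4) with hY1d
  have hY10 : 0 < Y1 := lt_of_lt_of_le one_pos (le_max_left _ _)
  have hD1 : ∀ q r, ∀ D ∈ (dset B q r).filter (fun D : ℕ => Y ≤ 4 * (D : ℝ)),
      Y1 ≤ (D : ℝ) := by
    intro q r D hD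
    obtain ⟨h1, h2⟩ := Finset.mem_filter.1 hD
    have h0 : (1 : ℝ) ≤ D := by
      exact_mod_cast Nat.pos_of_mem_divisors (Finset.mem_filter.1 h1).1
    exact max_le h0 (by linarith)
  have hCs16 : 0 ≤ Cm * Cs * 16 * midDel κ y1 y2 * Ω := by positivity
  by_cases hbal : Y * Real.exp (-nuM * t) ≤ y1 ∧ Y * Real.exp (-nuM * t) ≤ y2
  swap
  · -- imbalanced
    calc _ ≤ Y1 ^ (eps / 4) / Y *
          (Cb * Y1 * Real.exp (4 * (1 / 10 ^ 12) * t) * Y1 ^ (eps / 4 - 1) * (P * Ω)) :=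
          mul_le_mul_of_nonneg_left (hbigD γ K t S ψ A B y1 y2 Y Y1 _ ht10 hψ hS hAB hy1 hy2 hY
            hYhi hY10 hD1) (by positivity)
      _ = Cb * (Y1 ^ (eps / 4) / Y * (Y1 * Real.exp (4 * (1 / 10 ^ 12) * t) *
          Y1 ^ (eps / 4 - 1) * P)) * Ω := by ring
      _ ≤ Cb * (16 * midDel κ y1 y2) * Ω := mul_le_mul_of_nonneg_right
          (mul_le_mul_of_nonneg_left
            (midImbalNum t κ y1 y2 Y ht0 hy1 hy2 hY hκ0.le hκe hYlo hbal) hCb0) hΩ0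
      _ ≤ _ := by linarith
  · -- balanced
    obtain ⟨hb1, hb2⟩ := hbal
    set lo' := max Y1 (Real.exp (nuM * t)) with hlo'
    refine le_trans (mul_le_mul_of_nonneg_left
      (midSplit γ ψ hψ A B y1 y2 Y (Real.exp (nuM * t)) S) (by positivity)) ?_
    rw [mul_add]
    have htail : Y1 ^ (eps / 4) / Y *
        (Cb * Y1 * Real.exp (4 * (1 / 10 ^ 12) * t) * lo' ^ (eps / 4 - 1) * (P * Ω))
        ≤ Cb * (16 * midDel κ y1 y2) * Ω := by
      rw [show Y1 ^ (eps / 4) / Y *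
          (Cb * Y1 * Real.exp (4 * (1 / 10 ^ 12) * t) * lo' ^ (eps / 4 - 1) * (P * Ω))
          = Cb * (Y1 ^ (eps / 4) / Y * (Y1 * Real.exp (4 * (1 / 10 ^ 12) * t) *
          lo' ^ (eps / 4 - 1) * P)) * Ω by ring]
      exact mul_le_mul_of_nonneg_right (mul_le_mul_of_nonneg_left
        (midTailNum t κ y1 y2 Y ht0 hy1 hy2 hY hκ0.le hκe hYlo) hCb0) hΩ0
    set Ds := (Finset.Icc 1 ⌊Real.exp (nuM * t)⌋₊).filter
      (fun D : ℕ => Nat.Coprime D B ∧ Y ≤ 4 * (D : ℝ)) with hDs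
    have hmain : Y1 ^ (eps / 4) / Y * ∑ D ∈ Ds, 1 / (D.totient : ℝ) * pairSum (mu ψ)
        (fun q r => Ph (uu q r * vv q r) * EVi γ A B Y D q r * clsI ψ y1 y2 q r) S S
        ≤ Cm * Cs * (16 * midDel κ y1 y2) * Ω := by
      calc _ ≤ Y1 ^ (eps / 4) / Y * ∑ D ∈ Ds,
            Cm * P * Ω * Y ^ (g / 2) * (D : ℝ) ^ (-1 - (g / 2 - eps / 4)) := by
            refine mul_le_mul_of_nonneg_left (Finset.sum_le_sum fun D hD => ?_) (by positivity)
            obtain ⟨hDI, hcop, hYD⟩ := Finset.mem_filter.1 hD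
            obtain ⟨hD1', hD2⟩ := Finset.mem_Icc.1 hDI
            exact hterm K γ ψ t S A B Y y1 y2 D ((le_max_left _ _).trans ht) hψ hS hAB hy1 hy2 hY
              hYlo hYhi hD1' (le_trans (Nat.cast_le.2 hD2) (Nat.floor_le (Real.exp_pos _).le))
              hcop hYD hb1 hb2
        _ ≤ Y1 ^ (eps / 4) / Y * (Cm * P * Ω * Y ^ (g / 2) *
            (Cs * Y1 ^ (-((g / 2 - eps / 4) / 2)))) := by
            rw [← Finset.mul_sum]
            refine mul_le_mul_of_nonneg_left (mul_le_mul_of_nonneg_left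
              (hsum Ds Y1 (le_max_left _ _) fun D hD => ?_) (by positivity)) (by positivity)
            obtain ⟨hDI, -, hYD⟩ := Finset.mem_filter.1 hD
            have : (1 : ℝ) ≤ D := by exact_mod_cast (Finset.mem_Icc.1 hDI).1
            exact max_le this (by linarith)
        _ = Cm * Cs * (Y1 ^ (eps / 4) / Y * (P * Y ^ (g / 2) *
            Y1 ^ (-((g / 2 - eps / 4) / 2)))) * Ω := by ring
        _ ≤ _ := mul_le_mul_of_nonneg_right (mul_le_mul_of_nonneg_left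
            (midMainNum κ g y1 y2 Y hy1 hy2 hY hκ0.le hκe hκg hg2) (mul_nonneg hCm0 hCs0)) hΩ0
    calc _ ≤ Cb * (16 * midDel κ y1 y2) * Ω + Cm * Cs * (16 * midDel κ y1 y2) * Ω := by
          refine add_le_add (le_trans (mul_le_mul_of_nonneg_left ?_ (by positivity)) htail) hmain
          exact hbigD γ K t S ψ A B y1 y2 Y lo' _ ht10 hψ hS hAB hy1 hy2 hY hYhi
            (lt_of_lt_of_le hY10 (le_max_left _ _))
            (fun q r D hD => max_le (hD1 q r D (Finset.mem_filter.1 hD).1)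
              (Finset.mem_filter.1 hD).2.le)
      _ = _ := by ring

/-- One class. -/
lemma midClass :
    ∃ C t0 κ : ℝ, 0 ≤ C ∧ 0 < κ ∧ κ ≤ 1 / 100 ∧
      ∀ (K γ : ℝ) (ψ : ℕ → ℝ) (t : ℝ) (S : Finset ℕ) (A : ℤ) (B : ℕ) (y1 y2 : ℝ),
      t0 ≤ t → (∀ q, 0 ≤ ψ q) → IsCell zeta0 K t S ψ → IsApprox γ (Real.exp (t / 2)) A B →
      0 < y1 → 0 < y2 →
      Real.exp (-rhoM * t) ≤ 2 * max y1 y2 → 2 * max y1 y2 ≤ 4 * Real.exp (rhoM * t) →
      pairSum (mu ψ) (midR γ ψ A B y1 y2) S S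
        ≤ C * midDel κ y1 y2 * (msum (mu ψ) S * msum (mu ψ) S) ^ aE := by
  obtain ⟨CX, hCX0, hX⟩ := midExc
  obtain ⟨CZ, t0, κ, hCZ0, hκ0, hκe, hZ⟩ := midClassZ
  have heps : eps = 1 / 100000 := rfl
  refine ⟨CX + CZ, t0, κ, by positivity, hκ0, by linarith [heps], ?_⟩
  intro K γ ψ t S A B y1 y2 ht hψ hS hAB hy1 hy2 hlo hhi
  have hpos : ∀ q ∈ S, 0 < q ∧ 0 < ψ q := fun q hq =>
    ⟨(hS q hq).1, lt_of_lt_of_le (Real.exp_pos _) (hS q hq).2.1⟩
  have h1 := hX ψ S y1 y2 κ _ hψ hpos hy1 hy2 rfl hκ0.le hκe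
  have h2 := hZ K γ ψ t S A B y1 y2 _ ht hψ hS hAB hy1 hy2 rfl hlo hhi
  rw [add_mul, add_mul]
  refine le_trans (le_of_eq ?_) (add_le_add h1 h2)
  rw [← midPairSum_smul, ← midPairSum_smul, ← pairSum_add]
  rfl

lemma midR_nonneg (γ : ℝ) (ψ : ℕ → ℝ) (A : ℤ) (B : ℕ) (y1 y2 : ℝ) (hy1 : 0 < y1)
    (q r : ℕ) : 0 ≤ midR γ ψ A B y1 y2 q r := by
  have h1 := (cls_mem ψ y1 y2 q r).1
  have h2 : 0 ≤ ∑ D ∈ (dset B q r).filter (fun D : ℕ => 2 * max y1 y2 ≤ 4 * (D : ℝ)),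
      EVi γ A B (2 * max y1 y2) D q r / (D.totient : ℝ) :=
    Finset.sum_nonneg fun D _ => div_nonneg (EVi_nonneg ..) (Nat.cast_nonneg _)
  have h3 : 0 ≤ 2 * max y1 y2 := by linarith [le_max_left y1 y2]
  have h4 := Ph_nonneg (uu q r * vv q r)
  unfold midR
  exact add_nonneg (mul_nonneg (Real.exp_pos _).le (mul_nonneg (Real.exp_pos _).le h1))
    (mul_nonneg (div_nonneg (Real.rpow_nonneg (le_trans zero_le_one (le_max_left _ _)) _) h3)
      (mul_nonneg (mul_nonneg h4 h2) h1))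

/-- The band is covered by the classes that it meets. -/
lemma midCover :
    ∃ C : ℝ, 0 ≤ C ∧ ∀ (γ K t : ℝ) (ψ : ℕ → ℝ) (S : Finset ℕ) (A : ℤ) (B : ℕ) (lo hi : ℝ)
      (L : Finset (ℤ × ℤ)),
      (∀ q, 0 ≤ ψ q) → IsCell zeta0 K t S ψ → 0 < B →
      (∀ q ∈ S, ∀ r ∈ S, lo ≤ etaP ψ q r → etaP ψ q r < hi →
        (midIdx ((vv q r : ℝ) * ψ q), midIdx ((uu q r : ℝ) * ψ r)) ∈ L) →
      ∀ q ∈ S, ∀ r ∈ S, kernBand γ ψ A B lo hi q r
        ≤ C + C * ∑ l ∈ L, midR γ ψ A B ((2 : ℝ) ^ (l.1 : ℝ)) ((2 : ℝ) ^ (l.2 : ℝ)) q r := by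
  obtain ⟨C, hC0, hkern⟩ := midKern
  refine ⟨C, hC0, fun γ K t ψ S A B lo hi L hψ hS hB hL q hq r hr => ?_⟩
  have hR0 : ∀ l ∈ L, 0 ≤ midR γ ψ A B ((2 : ℝ) ^ (l.1 : ℝ)) ((2 : ℝ) ^ (l.2 : ℝ)) q r :=
    fun l _ => midR_nonneg γ ψ A B _ _ (by positivity) q r
  unfold kernBand
  split_ifs with hb
  swap
  · exact add_nonneg hC0 (mul_nonneg hC0 (Finset.sum_nonneg hR0))
  have hl1 := Finset.single_le_sum hR0 (hL q hq r hr hb.1 hb.2)
  have hq0 := (hS q hq).1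
  have hr0 := (hS r hr).1
  have : 0 < ψ q := lt_of_lt_of_le (Real.exp_pos _) (hS q hq).2.1
  have : 0 < ψ r := lt_of_lt_of_le (Real.exp_pos _) (hS r hr).2.1
  have : (0 : ℝ) < vv q r := by exact_mod_cast vv_pos q r hr0
  have : (0 : ℝ) < uu q r := by exact_mod_cast uu_pos q r hq0
  set y1 := (2 : ℝ) ^ ((midIdx ((vv q r : ℝ) * ψ q) : ℤ) : ℝ) with hy1
  set y2 := (2 : ℝ) ^ ((midIdx ((uu q r : ℝ) * ψ r) : ℤ) : ℝ) with hy2
  have hin : InCls ψ y1 y2 q r :=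
    ⟨midIdx_spec _ (by positivity), midIdx_spec _ (by positivity)⟩
  obtain ⟨hle, hge⟩ := midCls ψ hψ y1 y2 q r hin
  have hη0 := (etaP_bounds K t S ψ hS q r hq hr).1
  refine le_trans (hkern γ ψ A B q r _ hB hq0 hr0 hη0 hle hge) ?_
  have hR : midR γ ψ A B y1 y2 q r
      = Real.exp (-(2 * (Yof (max 1 (2 * max y1 y2 / 4)) - 2))) *
        Real.exp (Yof (max 1 (2 * max y1 y2 / 4)) *
          sBig (Yof (max 1 (2 * max y1 y2 / 4))) (uu q r * vv q r)) +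
      max 1 (2 * max y1 y2 / 4) ^ (eps / 4) / (2 * max y1 y2) * (Ph (uu q r * vv q r) *
        ∑ D ∈ (dset B q r).filter (fun D : ℕ => 2 * max y1 y2 ≤ 4 * (D : ℝ)),
          EVi γ A B (2 * max y1 y2) D q r / D.totient) := by
    simp only [midR, clsI, if_pos hin, mul_one]
  rw [add_assoc, mul_add, mul_one, ← hR]
  exact add_le_add le_rfl (mul_le_mul_of_nonneg_left hl1 hC0)

lemma midClassSum (κ : ℝ) (hκ : 0 < κ) (L : Finset (ℤ × ℤ)) :
    ∑ l ∈ L, Real.exp (-(κ / 4) * |(l.1 : ℝ)|) * Real.exp (-(κ / 4) * |(l.2 : ℝ)|)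
      ≤ (2 * ∑' n : ℕ, Real.exp (-(κ / 4)) ^ n) * (2 * ∑' n : ℕ, Real.exp (-(κ / 4)) ^ n) := by
  refine le_trans (Finset.sum_le_sum_of_subset_of_nonneg
    (t := (L.image Prod.fst) ×ˢ (L.image Prod.snd)) (fun z hz => Finset.mem_product.2
      ⟨Finset.mem_image_of_mem _ hz, Finset.mem_image_of_mem _ hz⟩)
    (fun z _ _ => by positivity)) ?_
  rw [Finset.sum_product]
  simp only [← Finset.sum_mul_sum]
  exact mul_le_mul (midGeom _ (by positivity) _) (midGeom _ (by positivity) _)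
    (Finset.sum_nonneg fun _ _ => (Real.exp_pos _).le)
    (mul_nonneg zero_le_two (tsum_nonneg fun n => by positivity))

lemma midOmega (M : ℝ) (hM : 0 ≤ M) : (M * M) ^ aE ≤ M + M ^ 2 := by
  rw [← sq, ← Real.rpow_two, ← Real.rpow_mul hM]
  rcases le_total M 1 with h | h
  · exact (Real.rpow_le_self_of_le_one hM h (by unfold aE eps; norm_num)).trans
      (le_add_of_nonneg_right (by positivity))
  · exact (Real.rpow_le_rpow_of_exponent_le h (by unfold aE eps; norm_num)).trans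
      (le_add_of_nonneg_left hM)

theorem mid_bound :
    ∃ C t0 : ℝ, ∀ (K γ : ℝ) (ψ : ℕ → ℝ) (t : ℝ) (S : Finset ℕ) (A : ℤ) (B : ℕ),
      t0 ≤ t → (∀ q, 0 ≤ ψ q) → IsCell zeta0 K t S ψ → IsApprox γ (Real.exp (t / 2)) A B →
      pairSum (mu ψ) (kernBand γ ψ A B (Real.exp (-rhoM * t)) (Real.exp (rhoM * t))) S S
        ≤ C * (msum (mu ψ) S + msum (mu ψ) S ^ 2) := by
  obtain ⟨CK, hCK0, hcover⟩ := midCover
  obtain ⟨CC, t0, κ, hCC0, hκ0, hκ1, hclass⟩ := midClass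
  set Tg := 2 * ∑' n : ℕ, Real.exp (-(κ / 4)) ^ n with hTg
  refine ⟨CK + CK * (CC * 4 * (Tg * Tg)), t0, fun K γ ψ t S A B ht hψ hS hAB => ?_⟩
  set M := msum (mu ψ) S with hM
  have hμ : ∀ q, 0 ≤ mu ψ q := mu_nonneg' hψ
  have hM0 : 0 ≤ M := Finset.sum_nonneg fun q _ => hμ q
  set lo := Real.exp (-rhoM * t) with hlo
  set hi := Real.exp (rhoM * t) with hhi
  classical
  set L := ((S ×ˢ S).filter (fun z => lo ≤ etaP ψ z.1 z.2 ∧ etaP ψ z.1 z.2 < hi)).image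
    (fun z => (midIdx ((vv z.1 z.2 : ℝ) * ψ z.1), midIdx ((uu z.1 z.2 : ℝ) * ψ z.2))) with hL
  have hpt := hcover γ K t ψ S A B lo hi L hψ hS hAB.1 (fun q hq r hr h1 h2 =>
    Finset.mem_image.2 ⟨(q, r), Finset.mem_filter.2 ⟨Finset.mem_product.2 ⟨hq, hr⟩, h1, h2⟩,
      rfl⟩)
  have hbound : ∀ l ∈ L,
      pairSum (mu ψ) (midR γ ψ A B ((2 : ℝ) ^ (l.1 : ℝ)) ((2 : ℝ) ^ (l.2 : ℝ))) S S
        ≤ CC * 4 * (Real.exp (-(κ / 4) * |(l.1 : ℝ)|) * Real.exp (-(κ / 4) * |(l.2 : ℝ)|)) *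
          (M * M) ^ aE := by
    intro l hl
    obtain ⟨⟨q, r⟩, hz, rfl⟩ := Finset.mem_image.1 hl
    obtain ⟨hqr, h1, h2⟩ := Finset.mem_filter.1 hz
    obtain ⟨hq, hr⟩ := Finset.mem_product.1 hqr
    have : 0 < ψ q := lt_of_lt_of_le (Real.exp_pos _) (hS q hq).2.1
    have : 0 < ψ r := lt_of_lt_of_le (Real.exp_pos _) (hS r hr).2.1
    have : (0 : ℝ) < vv q r := by exact_mod_cast vv_pos q r (hS r hr).1
    have : (0 : ℝ) < uu q r := by exact_mod_cast uu_pos q r (hS q hq).1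
    obtain ⟨hYη, hY4⟩ := midCls ψ hψ _ _ q r
      ⟨midIdx_spec ((vv q r : ℝ) * ψ q) (by positivity),
        midIdx_spec ((uu q r : ℝ) * ψ r) (by positivity)⟩
    refine (hclass K γ ψ t S A B _ _ ht hψ hS hAB (by positivity) (by positivity)
      (h1.trans hYη) (by linarith)).trans (mul_le_mul_of_nonneg_right ?_ (by positivity))
    rw [mul_assoc CC, ← mul_assoc (4 : ℝ)]
    exact mul_le_mul_of_nonneg_left (midDecay κ hκ0.le hκ1 _ _) hCC0
  have hone : pairSum (mu ψ) (fun _ _ => (1 : ℝ)) S S = M * M := by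
    simp only [pairSum, mul_one, hM, msum, Finset.sum_mul_sum]
  have hMM : M * M ≤ M + M ^ 2 := by rw [sq]; linarith
  calc pairSum (mu ψ) (kernBand γ ψ A B lo hi) S S
      ≤ pairSum (mu ψ) (fun q r => CK * 1 +
          CK * ∑ l ∈ L, midR γ ψ A B ((2 : ℝ) ^ (l.1 : ℝ)) ((2 : ℝ) ^ (l.2 : ℝ)) q r) S S :=
        pairSum_mono hμ (by simpa only [mul_one] using hpt)
    _ = CK * (M * M) + CK *
        ∑ l ∈ L, pairSum (mu ψ) (midR γ ψ A B ((2 : ℝ) ^ (l.1 : ℝ)) ((2 : ℝ) ^ (l.2 : ℝ))) S S := by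
        rw [pairSum_add, midPairSum_smul, midPairSum_smul, midPairSum_sum, hone]
    _ ≤ CK * (M * M) + CK * (CC * 4 * (Tg * Tg) * (M * M) ^ aE) := by
        refine add_le_add le_rfl (mul_le_mul_of_nonneg_left ?_ hCK0)
        refine le_trans (Finset.sum_le_sum hbound) ?_
        rw [← Finset.sum_mul, ← Finset.mul_sum]
        exact mul_le_mul_of_nonneg_right (mul_le_mul_of_nonneg_left (midClassSum κ hκ0 L)
          (by positivity)) (by positivity)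
    _ ≤ CK * (M + M ^ 2) + CK * (CC * 4 * (Tg * Tg) * (M + M ^ 2)) :=
        add_le_add (mul_le_mul_of_nonneg_left hMM hCK0) (mul_le_mul_of_nonneg_left
          (mul_le_mul_of_nonneg_left (midOmega M hM0)
            (mul_nonneg (mul_nonneg hCC0 (by norm_num)) (mul_self_nonneg _))) hCK0)
    _ = _ := by ring

end Vale.Agent.P028
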