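import Vale.Agent.P028.CellBase

/-! P028 module CELLTOP: regimes KILL and TOP (BLUEPRINT 3). -/

namespace Vale.Agent.P028

open Finset

lemma card_le_of_spaced (s : Finset ℤ) (B : ℕ) (hB : 0 < B) (L : ℝ) (hL : 0 ≤ L)
    (h : ∀ x ∈ s, ∀ y ∈ s, (B : ℤ) ∣ x - y ∧ ((x : ℝ) - y) ≤ L) : (s.card : ℝ) ≤ L / B + 1 := by
  rcases s.eq_empty_or_nonempty with rfl | hne
  · simp; positivity
  obtain ⟨m, hm, hmin⟩ := s.exists_min_image id hne
  have hBR : (0 : ℝ) < B := by exact_mod_cast hB
  have hmaps : ∀ x ∈ s, ((x - m) / B).toNat ∈ Finset.range (⌊L / B⌋₊ + 1) := by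
    intro x hx
    obtain ⟨⟨k, hk⟩, hle⟩ := h x hx m hm
    have hmx : m ≤ x := hmin x hx
    rw [Finset.mem_range, Nat.lt_succ_iff]
    refine Nat.le_floor ?_
    rw [hk, Int.mul_ediv_cancel_left _ (by exact_mod_cast hB.ne')]
    have hk0 : 0 ≤ k := by
      by_contra hk'
      have : (B : ℤ) * k < 0 := mul_neg_of_pos_of_neg (by exact_mod_cast hB) (by omega)
      omega
    have hkR : ((k.toNat : ℕ) : ℝ) = (k : ℝ) := by exact_mod_cast Int.toNat_of_nonneg hk0
    rw [hkR, le_div_iff₀ hBR]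
    have : (x : ℝ) - m = (B : ℝ) * k := by exact_mod_cast congrArg (fun z : ℤ => (z : ℝ)) hk
    linarith
  have hinj : Set.InjOn (fun x => ((x - m) / B).toNat) (s : Set ℤ) := by
    intro x hx y hy hxy
    obtain ⟨⟨k, hk⟩, _⟩ := h x hx m hm
    obtain ⟨⟨l, hl⟩, _⟩ := h y hy m hm
    have hx0 : 0 ≤ (x - m) / B := Int.ediv_nonneg (by linarith [hmin x hx, show id m = m from rfl, show id x = x from rfl]) (by positivity)
    have hy0 : 0 ≤ (y - m) / B := Int.ediv_nonneg (by linarith [hmin y hy, show id m = m from rfl, show id y = y from rfl]) (by positivity)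
    have e : (x - m) / (B : ℤ) = (y - m) / B := by
      have := congrArg (fun n : ℕ => (n : ℤ)) hxy
      simp only at this
      rwa [Int.toNat_of_nonneg hx0, Int.toNat_of_nonneg hy0] at this
    rw [hk, hl, Int.mul_ediv_cancel_left _ (by exact_mod_cast hB.ne'),
      Int.mul_ediv_cancel_left _ (by exact_mod_cast hB.ne')] at e
    subst e
    linarith
  have hc := Finset.card_le_card_of_injOn _ hmaps hinj
  rw [Finset.card_range] at hc
  calc (s.card : ℝ) ≤ (⌊L / B⌋₊ : ℝ) + 1 := by exact_mod_cast hc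
    _ ≤ L / B + 1 := by linarith [Nat.floor_le (div_nonneg hL hBR.le)]

/-- Integers `h` in `[-v, v]` with a nonzero coincidence. -/
lemma coinc_count (γ : ℝ) (A : ℤ) (B : ℕ) (hB : 0 < B) (hcop : IsCoprime A (B : ℤ)) (w v : ℝ)
    (hw : 0 ≤ w) (hv : 0 ≤ v) (s : Finset ℤ) (hs : ∀ h ∈ s, |(h : ℝ)| ≤ v ∧
      ∃ n : ℤ, |(n : ℝ) + γ * h| < w ∧ (B : ℤ) * n + A * h ≠ 0) :
    (s.card : ℝ) ≤ 12 * (v * w) + 3 * (B * w) + 3 * (|(B : ℝ) * γ - A| * v) := by
  classical
  set d := (B : ℝ) * γ - A with hd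
  set J := (B : ℝ) * w + |d| * v with hJ
  have hBR : (0 : ℝ) < B := by exact_mod_cast hB
  have hJ0 : 0 ≤ J := by positivity
  rcases s.eq_empty_or_nonempty with rfl | hne
  · simp; positivity
  have key : ∀ h : ℤ, ∀ n : ℤ, |(h : ℝ)| ≤ v → |(n : ℝ) + γ * h| < w →
      |(((B : ℤ) * n + A * h : ℤ) : ℝ) + d * h| < B * w ∧
      |(((B : ℤ) * n + A * h : ℤ) : ℝ)| ≤ J := by
    intro h n hh hn
    have e : (((B : ℤ) * n + A * h : ℤ) : ℝ) + d * h = B * ((n : ℝ) + γ * h) := by
      rw [hd]; push_cast; ring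
    have h1 : |(((B : ℤ) * n + A * h : ℤ) : ℝ) + d * h| < B * w := by
      rw [e, abs_mul, abs_of_pos hBR]; exact mul_lt_mul_of_pos_left hn hBR
    refine ⟨h1, ?_⟩
    have h2 : |d * h| ≤ |d| * v := by
      rw [abs_mul]; exact mul_le_mul_of_nonneg_left hh (abs_nonneg _)
    have h3 := abs_sub ((((B : ℤ) * n + A * h : ℤ) : ℝ) + d * h) (d * h)
    rw [add_sub_cancel_right] at h3
    linarith
  have hJ1 : 1 ≤ J := by
    obtain ⟨h, hh⟩ := hne
    obtain ⟨hhv, n, hn, hn0⟩ := hs h hh
    refine le_trans ?_ (key h n hhv hn).2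
    exact_mod_cast Int.one_le_abs hn0
  obtain ⟨L, hL0, hLv, hLd, hLmin⟩ : ∃ L : ℝ, 0 ≤ L ∧ L ≤ 2 * v ∧ |d| * L ≤ 2 * (B * w) ∧
      ∀ x : ℝ, x ≤ 2 * v → |d| * x ≤ 2 * (B * w) → x ≤ L := by
    rcases eq_or_ne d 0 with h0 | h0
    · exact ⟨2 * v, by linarith, le_rfl, by rw [h0]; simp; positivity, fun x hx _ => hx⟩
    · have hdp : 0 < |d| := abs_pos.2 h0
      refine ⟨min (2 * v) (2 * (B * w) / |d|), le_min (by linarith) (by positivity), min_le_left _ _,
        ?_, fun x hx1 hx2 => le_min hx1 ?_⟩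
      · calc |d| * min (2 * v) (2 * (B * w) / |d|) ≤ |d| * (2 * (B * w) / |d|) :=
              mul_le_mul_of_nonneg_left (min_le_right _ _) hdp.le
          _ = _ := by field_simp
      · rw [le_div_iff₀ hdp]; linarith
  let P : ℤ → ℤ → Prop := fun j h => ∃ n : ℤ, |(n : ℝ) + γ * h| < w ∧ (B : ℤ) * n + A * h = j
  have hsub : s ⊆ (Finset.Icc (-⌊J⌋) ⌊J⌋).biUnion (fun j => s.filter (P j)) := by
    intro h hh
    obtain ⟨hhv, n, hn, hn0⟩ := hs h hh
    have hb := abs_le.1 (key h n hhv hn).2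
    refine Finset.mem_biUnion.2 ⟨(B : ℤ) * n + A * h, Finset.mem_Icc.2 ⟨?_, Int.le_floor.2 hb.2⟩,
      Finset.mem_filter.2 ⟨hh, n, hn, rfl⟩⟩
    have : -((B : ℤ) * n + A * h) ≤ ⌊J⌋ := Int.le_floor.2 (by push_cast at hb ⊢; linarith [hb.1])
    omega
  have hone : ∀ j : ℤ, ((s.filter (P j)).card : ℝ) ≤ L / B + 1 := by
    intro j
    refine card_le_of_spaced _ B hB L hL0 fun x hx y hy => ?_
    obtain ⟨hxs, n, hn, hnj⟩ := Finset.mem_filter.1 hx
    obtain ⟨hys, m, hm, hmj⟩ := Finset.mem_filter.1 hy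
    refine ⟨?_, ?_⟩
    · refine (hcop.symm).dvd_of_dvd_mul_left ?_
      exact ⟨m - n, by linear_combination hnj - hmj⟩
    · have hxv := (hs x hxs).1
      have hyv := (hs y hys).1
      refine hLmin _ (by linarith [(abs_le.1 hxv).2, (abs_le.1 hyv).1]) ?_
      have h1 := (key x n hxv hn).1
      have h2 := (key y m hyv hm).1
      rw [hnj] at h1
      rw [hmj] at h2
      calc |d| * ((x : ℝ) - y) ≤ |d| * |(x : ℝ) - y| :=
            mul_le_mul_of_nonneg_left (le_abs_self _) (abs_nonneg _)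
        _ = |((j : ℝ) + d * x) - ((j : ℝ) + d * y)| := by rw [← abs_mul]; congr 1; ring
        _ ≤ _ := (abs_sub _ _).trans (by linarith)
  have hfl : (⌊J⌋ : ℝ) ≤ J := Int.floor_le J
  have hfl0 : 0 ≤ ⌊J⌋ := Int.floor_nonneg.2 hJ0
  have hIcc : ((Finset.Icc (-⌊J⌋) ⌊J⌋).card : ℝ) ≤ 3 * J := by
    rw [Int.card_Icc]
    have : (((⌊J⌋ + 1 - -⌊J⌋).toNat : ℕ) : ℝ) = ((⌊J⌋ + 1 - -⌊J⌋ : ℤ) : ℝ) := by
      exact_mod_cast Int.toNat_of_nonneg (by omega)
    rw [this]; push_cast; linarith
  calc (s.card : ℝ) ≤ ∑ j ∈ Finset.Icc (-⌊J⌋) ⌊J⌋, ((s.filter (P j)).card : ℝ) := by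
        exact_mod_cast (Finset.card_le_card hsub).trans Finset.card_biUnion_le
    _ ≤ ∑ j ∈ Finset.Icc (-⌊J⌋) ⌊J⌋, (L / B + 1) := Finset.sum_le_sum fun j _ => hone j
    _ ≤ 3 * J * (L / B + 1) := by
        rw [Finset.sum_const, nsmul_eq_mul]
        exact mul_le_mul_of_nonneg_right hIcc (by positivity)
    _ = 3 * (w * L) + 3 * (|d| * L * v / B) + 3 * (B * w) + 3 * (|d| * v) := by
        rw [hJ]; field_simp; ring
    _ ≤ _ := by
        have h1 : w * L ≤ w * (2 * v) := mul_le_mul_of_nonneg_left hLv hw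
        have h2 : |d| * L * v / B ≤ 2 * (w * v) := by
          rw [div_le_iff₀ hBR]
          calc |d| * L * v ≤ 2 * (B * w) * v := mul_le_mul_of_nonneg_right hLd hv
            _ = _ := by ring
        nlinarith

lemma vv_swap (q r : ℕ) : vv r q = uu q r := by rw [uu, vv, Nat.gcd_comm]

lemma uu_swap (q r : ℕ) : uu r q = vv q r := by rw [uu, vv, Nat.gcd_comm]

lemma etaP_swap (ψ : ℕ → ℝ) (q r : ℕ) : etaP ψ r q = etaP ψ q r := by
  unfold etaP; rw [vv_swap q r, uu_swap q r]; ring

lemma hh_swap (q r : ℕ) : hh r q = - hh q r := by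
  unfold hh; rw [vv_swap q r, uu_swap q r]; ring

/-- A nonzero coincidence, with the larger cofactor on the side of `r`. -/
def TopEv (γ : ℝ) (ψ : ℕ → ℝ) (A : ℤ) (B : ℕ) (hi : ℝ) (q r : ℕ) : Prop :=
  uu q r ≤ vv q r ∧ etaP ψ q r < hi ∧
    ∃ n : ℤ, |(n : ℝ) + γ * (hh q r : ℝ)| < etaP ψ q r ∧ D0 A B q r n ≠ 0

lemma th_le_one (n : ℕ) : th n ≤ 1 := by
  unfold th
  rcases Nat.eq_zero_or_pos n with rfl | h
  · simp
  · rw [div_le_one (by exact_mod_cast h)]; exact_mod_cast Nat.totient_le n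

lemma Wn_le (A : ℤ) (B q r : ℕ) (n : ℤ) (hq : 0 < q) (hr : 0 < r) :
    Wn A B q r n ≤ if D0 A B q r n = 0 then 0 else
      Ph (uu q r * vv q r) * ((D0 A B q r n).natAbs.divisors.card : ℝ) := by
  unfold Wn
  split_ifs with h
  · exact le_rfl
  · have hm : 0 < uu q r * vv q r := Nat.mul_pos (uu_pos q r hq) (vv_pos q r hr)
    refine mul_le_mul ?_ ?_ (Finset.sum_nonneg fun D _ => by positivity) (Ph_nonneg _)
    · rw [Ph_eq_prod _ hm]
      calc ∏ p ∈ (uu q r * vv q r).primeFactors.filter (fun p => ¬ p ∣ B),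
            (if (p : ℤ) ∣ D0 A B q r n then 0 else (p : ℝ) / ((p : ℝ) - 1))
          ≤ ∏ p ∈ (uu q r * vv q r).primeFactors.filter (fun p => ¬ p ∣ B),
              (p : ℝ) / ((p : ℝ) - 1) := by
            refine Finset.prod_le_prod (fun p hp => ?_) fun p hp => ?_ <;>
              have := ratio_nonneg (Nat.prime_of_mem_primeFactors (Finset.mem_filter.1 hp).1).two_le
            · split_ifs <;> linarith
            · split_ifs <;> linarith
        _ ≤ _ := by
            refine Finset.prod_le_prod_of_subset_of_one_le (Finset.filter_subset _ _)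
              (fun p hp => ?_) fun p hp _ => ratio_nonneg (Nat.prime_of_mem_primeFactors hp).two_le
            exact le_trans zero_le_one
              (ratio_nonneg (Nat.prime_of_mem_primeFactors (Finset.mem_filter.1 hp).1).two_le)
    · calc ∑ D ∈ (dset B q r).filter (fun D : ℕ => (D : ℤ) ∣ D0 A B q r n), (1 : ℝ) / D.totient
          ≤ ∑ D ∈ (dset B q r).filter (fun D : ℕ => (D : ℤ) ∣ D0 A B q r n), (1 : ℝ) := by
            refine Finset.sum_le_sum fun D hD => ?_
            rw [dset, Finset.mem_filter, Finset.mem_filter] at hD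
            have : 0 < D.totient := Nat.totient_pos.2 (Nat.pos_of_mem_divisors hD.1.1)
            rw [div_le_one (by exact_mod_cast this)]
            exact_mod_cast this
        _ ≤ _ := by
            rw [Finset.sum_const, nsmul_eq_mul, mul_one]
            refine Nat.cast_le.2 (Finset.card_le_card fun D hD => ?_)
            exact Nat.mem_divisors.2 ⟨by simpa using Int.natCast_dvd.1 (Finset.mem_filter.1 hD).2,
              by simpa using h⟩

/-- For `η < e^{-(1/2+2ζ)t}` the kernel vanishes, for `η < e^{-ρt}` a first moment suffices. -/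
theorem top_bound (K : ℝ) :
    ∃ C t0 : ℝ, ∀ (γ : ℝ) (ψ : ℕ → ℝ) (t : ℝ) (S : Finset ℕ) (A : ℤ) (B : ℕ),
      t0 ≤ t → (∀ q, 0 ≤ ψ q) → IsCell zeta0 K t S ψ → IsApprox γ (Real.exp (t / 2)) A B →
      pairSum (mu ψ) (kernBand γ ψ A B 0 (Real.exp (-rhoM * t))) S S ≤ C * msum (mu ψ) S := by
  classical
  set Kp : ℝ := |K| + 5 with hKp
  have hKp0 : 0 < Kp := by positivity
  have hρ : (0 : ℝ) < rhoM := by norm_num [rhoM]
  set θ : ℝ := rhoM / (2 * Kp) with hθdef
  have hθ : 0 < θ := by positivity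
  obtain ⟨Cd, hCd⟩ := card_divisors_le θ hθ
  have hCd1 : 1 ≤ Cd := by simpa using hCd 1 one_pos
  refine ⟨2 * (42 * Cd ^ 3), max 2 (1 / rhoM), fun γ ψ t S A B ht hψ hS hAp => ?_⟩
  obtain ⟨hB, hBQ, hcop, hδ⟩ := hAp
  have ht2 : 2 ≤ t := le_trans (le_max_left _ _) ht
  have htρ : 1 ≤ rhoM * t := by
    have := le_trans (le_max_right _ _) ht
    rw [div_le_iff₀ hρ] at this; linarith
  have hexp2 : (2 : ℝ) ≤ Real.exp (rhoM * t) := by
    linarith [Real.add_one_le_exp (rhoM * t)]
  set hi := Real.exp (-rhoM * t) with hhi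
  have hhi2 : 2 * hi ≤ 1 := by
    rw [hhi, neg_mul, Real.exp_neg, ← div_eq_mul_inv, div_le_one (Real.exp_pos _)]; exact hexp2
  set δ := |(B : ℝ) * γ - A| with hδdef
  have hδ0 : 0 ≤ δ := abs_nonneg _
  have hδ' : δ ≤ Real.exp (-(t / 2)) := by rw [Real.exp_neg, ← one_div]; exact hδ
  -- the bound for one ordered pair
  set E : ℝ := Cd ^ 2 * Real.exp (5 * θ * t) with hE
  have hE0 : 0 ≤ E := by positivity
  let F : ℕ → ℕ → ℝ := fun q r => if TopEv γ ψ A B hi q r then mu ψ r / vv q r else 0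
  have hμ : ∀ q, 0 ≤ mu ψ q := fun q => mul_nonneg (th_nonneg q) (hψ q)
  have hF0 : ∀ q r, 0 ≤ F q r := fun q r => by
    simp only [F]; split_ifs
    · exact div_nonneg (hμ r) (Nat.cast_nonneg _)
    · exact le_rfl
  have hpair : ∀ q ∈ S, ∀ r ∈ S,
      mu ψ q * mu ψ r * kernBand γ ψ A B 0 hi q r ≤ E * (F q r + F r q) := by
    intro q hq r hr
    have hRHS : 0 ≤ E * (F q r + F r q) := mul_nonneg hE0 (add_nonneg (hF0 _ _) (hF0 _ _))
    have hq0 := (hS q hq).1
    have hr0 := (hS r hr).1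
    unfold kernBand
    split_ifs with hband
    swap
    · rw [mul_zero]; exact hRHS
    obtain ⟨hη0, hηhi⟩ := hband
    obtain ⟨hηp, huv, -⟩ := etaP_bounds K t S ψ hS q r hq hr
    unfold kern
    split_ifs with hqr
    · rw [mul_zero]; exact hRHS
    set η := etaP ψ q r with hη
    have hu1 : 1 ≤ uu q r := uu_pos q r hq0
    have hv1 : 1 ≤ vv q r := vv_pos q r hr0
    have huvt : (uu q r : ℝ) + vv q r ≤ Real.exp (2 * t) := by
      refine huv.trans ?_
      calc η * Real.exp ((1 + zeta0) * t) ≤ 1 * Real.exp (2 * t) := by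
            refine mul_le_mul (by linarith) (Real.exp_le_exp.2 ?_) (Real.exp_pos _).le zero_le_one
            exact mul_le_mul_of_nonneg_right (by norm_num [zeta0]) (by linarith)
        _ = _ := one_mul _
    by_cases hev : ∃ n ∈ nWin γ η q r, D0 A B q r n ≠ 0
    swap
    · push Not at hev
      have : ∑ n ∈ nWin γ η q r, Wn A B q r n = 0 :=
        Finset.sum_eq_zero fun n hn => by rw [Wn, if_pos (hev n hn)]
      rw [this, zero_div, mul_zero]; exact hRHS
    obtain ⟨n0, hn0, hn0D⟩ := hev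
    have hwin : ∀ n ∈ nWin γ η q r, |(n : ℝ) + γ * (hh q r : ℝ)| < η := fun n hn =>
      (Finset.mem_filter.1 hn).2
    have huniq : nWin γ η q r = {n0} := by
      refine Finset.eq_singleton_iff_unique_mem.2 ⟨hn0, fun n hn => ?_⟩
      have h1 := abs_lt.1 (hwin n hn)
      have h2 := abs_lt.1 (hwin n0 hn0)
      have h3 : |(((n - n0 : ℤ)) : ℝ)| < 1 := by
        rw [abs_lt]; push_cast; constructor <;> linarith
      have h4 : |n - n0| < 1 := by exact_mod_cast h3
      have := abs_lt.1 h4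
      omega
    have hW : Wn A B q r n0 ≤ E := by
      refine (Wn_le A B q r n0 hq0 hr0).trans ?_
      rw [if_neg hn0D]
      have hm : 0 < uu q r * vv q r := Nat.mul_pos hu1 hv1
      have h1 : Ph (uu q r * vv q r) ≤ Cd * Real.exp (4 * θ * t) := by
        refine (Ph_le_card_divisors _ hm).trans ((hCd _ hm).trans
          (mul_le_mul_of_nonneg_left ?_ (by linarith)))
        refine (Real.rpow_le_rpow (Nat.cast_nonneg _) (?_ : _ ≤ Real.exp (4 * t)) hθ.le).trans ?_
        · push_cast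
          calc (uu q r : ℝ) * vv q r ≤ Real.exp (2 * t) * Real.exp (2 * t) := by
                have a : (0 : ℝ) ≤ uu q r := Nat.cast_nonneg _
                have b : (0 : ℝ) ≤ vv q r := Nat.cast_nonneg _
                exact mul_le_mul (by linarith) (by linarith) b (Real.exp_pos _).le
            _ = _ := by rw [← Real.exp_add]; ring_nf
        · rw [← Real.exp_mul]; exact Real.exp_le_exp.2 (le_of_eq (by ring))
      have h2 : ((D0 A B q r n0).natAbs.divisors.card : ℝ) ≤ Cd * Real.exp (θ * t) := by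
        have hN : 0 < (D0 A B q r n0).natAbs := Int.natAbs_pos.2 hn0D
        refine (hCd _ hN).trans (mul_le_mul_of_nonneg_left ?_ (by linarith))
        rw [mul_comm θ t, Real.exp_mul]
        refine Real.rpow_le_rpow (Nat.cast_nonneg _) ?_ hθ.le
        rw [Nat.cast_natAbs, Int.cast_abs]
        refine (abs_D0_le γ A B q r n0).trans ?_
        have e1 : (B : ℝ) * |(n0 : ℝ) + γ * (hh q r : ℝ)| ≤ Real.exp (t / 2) * 1 :=
          mul_le_mul hBQ (by linarith [hwin n0 hn0]) (abs_nonneg _) (Real.exp_pos _).le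
        have e2 : δ * ((uu q r : ℝ) + vv q r) ≤ Real.exp ((1 / 2 + zeta0) * t) := by
          calc δ * ((uu q r : ℝ) + vv q r)
              ≤ Real.exp (-(t / 2)) * (η * Real.exp ((1 + zeta0) * t)) :=
                mul_le_mul hδ' huv (by positivity) (Real.exp_pos _).le
            _ ≤ Real.exp (-(t / 2)) * (1 * Real.exp ((1 + zeta0) * t)) := by
                gcongr; linarith
            _ = _ := by rw [one_mul, ← Real.exp_add]; ring_nf
        have e3 : Real.exp (t / 2) * 1 + Real.exp ((1 / 2 + zeta0) * t) ≤ Real.exp t := by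
          have f1 : Real.exp (t / 2) * 2 ≤ Real.exp t := by
            calc Real.exp (t / 2) * 2 ≤ Real.exp (t / 2) * Real.exp (t / 2) := by
                  refine mul_le_mul_of_nonneg_left ?_ (Real.exp_pos _).le
                  linarith [Real.add_one_le_exp (t / 2)]
              _ = _ := by rw [← Real.exp_add]; ring_nf
          have f2 : Real.exp ((1 / 2 + zeta0) * t) * 2 ≤ Real.exp t := by
            calc Real.exp ((1 / 2 + zeta0) * t) * 2
                ≤ Real.exp ((1 / 2 + zeta0) * t) * Real.exp ((1 / 2 - zeta0) * t) := by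
                  refine mul_le_mul_of_nonneg_left ?_ (Real.exp_pos _).le
                  have h25 : (2 / 5 : ℝ) * t ≤ (1 / 2 - zeta0) * t :=
                    mul_le_mul_of_nonneg_right (by norm_num [zeta0]) (by linarith)
                  have := Real.add_one_le_exp ((1 / 2 - zeta0) * t)
                  have h3 : (2 : ℝ) ≤ Real.exp ((1 / 2 - zeta0) * t) ∨ t < 5 / 2 := by
                    rcases le_or_gt (5 / 2 : ℝ) t with h | h
                    · left; linarith
                    · right; exact h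
                  rcases h3 with h3 | h3
                  · exact h3
                  · exfalso
                    have : (100000 : ℝ) ≤ t := by
                      have := le_trans (le_max_right _ _) ht
                      norm_num [rhoM] at this; linarith
                    linarith
              _ = _ := by rw [← Real.exp_add]; ring_nf
          linarith
        linarith
      calc Ph (uu q r * vv q r) * ((D0 A B q r n0).natAbs.divisors.card : ℝ)
          ≤ (Cd * Real.exp (4 * θ * t)) * (Cd * Real.exp (θ * t)) :=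
            mul_le_mul h1 h2 (Nat.cast_nonneg _) (by positivity)
        _ = E := by
            rw [hE, show (5 * θ * t) = 4 * θ * t + θ * t by ring, Real.exp_add]; ring
    rw [huniq, Finset.sum_singleton]
    have hW0 := Wn_nonneg A B q r n0
    have hμq : mu ψ q ≤ ψ q := mul_le_of_le_one_left (hψ q) (th_le_one q)
    have hμr : mu ψ r ≤ ψ r := mul_le_of_le_one_left (hψ r) (th_le_one r)
    have hvR : (0 : ℝ) < vv q r := by exact_mod_cast hv1
    have huR : (0 : ℝ) < uu q r := by exact_mod_cast hu1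
    rcases le_or_gt (uu q r) (vv q r) with hle | hlt
    · have hev' : TopEv γ ψ A B hi q r := ⟨hle, hηhi, n0, hwin n0 hn0, hn0D⟩
      refine le_trans ?_ (mul_le_mul_of_nonneg_left (le_add_of_nonneg_right (hF0 r q)) hE0)
      simp only [F, if_pos hev']
      have h1 : mu ψ q / η ≤ 1 / (vv q r : ℝ) := by
        rw [div_le_div_iff₀ hηp hvR, one_mul, hη, etaP]
        nlinarith [mul_le_mul_of_nonneg_left hμq hvR.le, mul_nonneg huR.le (hψ r)]
      calc mu ψ q * mu ψ r * (Wn A B q r n0 / η)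
          = (mu ψ q / η) * (mu ψ r * Wn A B q r n0) := by ring
        _ ≤ (1 / (vv q r : ℝ)) * (mu ψ r * E) :=
            mul_le_mul h1 (mul_le_mul_of_nonneg_left hW (hμ r)) (mul_nonneg (hμ r) hW0)
              (by positivity)
        _ = _ := by ring
    · have hev' : TopEv γ ψ A B hi r q := by
        refine ⟨by rw [uu_swap q r, vv_swap q r]; exact hlt.le, by rw [etaP_swap ψ q r]; exact hηhi, -n0, ?_, ?_⟩
        · rw [etaP_swap ψ q r, hh_swap q r, ← abs_neg]
          push_cast
          rw [show -(-(n0 : ℝ) + γ * -(hh q r : ℝ)) = (n0 : ℝ) + γ * (hh q r : ℝ) by ring]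
          exact hwin n0 hn0
        · intro h; apply hn0D
          unfold D0 at h ⊢; rw [hh_swap q r] at h; linarith
      refine le_trans ?_ (mul_le_mul_of_nonneg_left (le_add_of_nonneg_left (hF0 q r)) hE0)
      simp only [F, if_pos hev', vv_swap q r]
      have h1 : mu ψ r / η ≤ 1 / (uu q r : ℝ) := by
        rw [div_le_div_iff₀ hηp huR, one_mul, hη, etaP]
        nlinarith [mul_le_mul_of_nonneg_left hμr huR.le, mul_nonneg hvR.le (hψ q)]
      calc mu ψ q * mu ψ r * (Wn A B q r n0 / η)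
          = (mu ψ r / η) * (mu ψ q * Wn A B q r n0) := by ring
        _ ≤ (1 / (uu q r : ℝ)) * (mu ψ q * E) :=
            mul_le_mul h1 (mul_le_mul_of_nonneg_left hW (hμ q)) (mul_nonneg (hμ q) hW0)
              (by positivity)
        _ = _ := by ring
  -- the first moment
  have hmom : ∀ r ∈ S, ∑ q ∈ S, F q r ≤ mu ψ r * (42 * Cd * Real.exp (θ * (|K| * t)) * hi) := by
    intro r hr
    obtain ⟨hr0, -, -, hlog⟩ := hS r hr
    set T := S.filter fun q => TopEv γ ψ A B hi q r with hT
    have hsum : ∑ q ∈ S, F q r = mu ψ r * ∑ q ∈ T, (1 : ℝ) / vv q r := by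
      simp only [F, hT]
      rw [Finset.mul_sum, Finset.sum_filter]
      refine Finset.sum_congr rfl fun q _ => ?_
      split_ifs
      · ring
      · rfl
    rw [hsum]
    refine mul_le_mul_of_nonneg_left ?_ (hμ r)
    have hmaps : ∀ q ∈ T, vv q r ∈ r.divisors := fun q _ => Nat.mem_divisors.2
      ⟨Nat.div_dvd_of_dvd (Nat.gcd_dvd_right q r), hr0.ne'⟩
    rw [← Finset.sum_fiberwise_of_maps_to hmaps]
    have hfib : ∀ v ∈ r.divisors, ∑ q ∈ T.filter (fun q => vv q r = v), (1 : ℝ) / vv q r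
        ≤ 42 * hi := by
      intro v hv
      have hv0 : 0 < v := Nat.pos_of_mem_divisors hv
      have hvR : (0 : ℝ) < v := by exact_mod_cast hv0
      set U := T.filter fun q => vv q r = v with hU
      rw [Finset.sum_congr rfl (fun q hq => by rw [(Finset.mem_filter.1 hq).2] :
        ∀ q ∈ U, (1 : ℝ) / vv q r = 1 / v), Finset.sum_const, nsmul_eq_mul, mul_one_div,
        div_le_iff₀ hvR]
      set w := min hi (2 * v * Real.exp (-t)) with hw
      have hw0 : 0 ≤ w := le_min (Real.exp_pos _).le (by positivity)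
      set H := U.image fun q => hh q r with hH
      have hcard : U.card = H.card := by
        refine (Finset.card_image_of_injOn fun q hq q' hq' he => ?_).symm
        obtain ⟨hqT, hqv⟩ := Finset.mem_filter.1 hq
        obtain ⟨hq'T, hq'v⟩ := Finset.mem_filter.1 hq'
        simp only [hh] at he
        have hu : uu q r = uu q' r := by omega
        have hg : Nat.gcd q r = Nat.gcd q' r := by
          have e1 : vv q r * Nat.gcd q r = r := Nat.div_mul_cancel (Nat.gcd_dvd_right q r)
          have e2 : vv q' r * Nat.gcd q' r = r := Nat.div_mul_cancel (Nat.gcd_dvd_right q' r)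
          rw [hqv] at e1; rw [hq'v] at e2
          exact Nat.eq_of_mul_eq_mul_left hv0 (e1.trans e2.symm)
        have e1 : uu q r * Nat.gcd q r = q := Nat.div_mul_cancel (Nat.gcd_dvd_left q r)
        have e2 : uu q' r * Nat.gcd q' r = q' := Nat.div_mul_cancel (Nat.gcd_dvd_left q' r)
        rw [← e1, ← e2, hu, hg]
      have hHs : ∀ h ∈ H, |(h : ℝ)| ≤ v ∧
          ∃ n : ℤ, |(n : ℝ) + γ * h| < w ∧ (B : ℤ) * n + A * h ≠ 0 := by
        intro h hh'
        obtain ⟨q, hqU, rfl⟩ := Finset.mem_image.1 hh'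
        obtain ⟨hqT, hqv⟩ := Finset.mem_filter.1 hqU
        obtain ⟨hqS, hle, hhilt, n, hn, hnD⟩ := Finset.mem_filter.1 hqT
        rw [hqv] at hle
        obtain ⟨-, -, hlow⟩ := etaP_bounds K t S ψ hS q r hqS hr
        have huR : (uu q r : ℝ) ≤ v := by exact_mod_cast hle
        refine ⟨?_, n, lt_of_lt_of_le hn (le_min hhilt.le ?_), hnD⟩
        · have h0 : (0 : ℝ) ≤ uu q r := Nat.cast_nonneg _
          simp only [hh, hqv]; push_cast
          rw [abs_le]; constructor <;> linarith
        · rw [hqv] at hlow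
          rw [Real.exp_neg, ← div_eq_mul_inv, le_div_iff₀ (Real.exp_pos t)]
          linarith
      rw [hcard]
      refine (coinc_count γ A B hB hcop w v hw0 hvR.le H hHs).trans ?_
      have hhi_t : Real.exp (-(t / 2)) ≤ hi := by
        rw [hhi]; refine Real.exp_le_exp.2 ?_
        have : rhoM * t ≤ 1 / 2 * t :=
          mul_le_mul_of_nonneg_right (by norm_num [rhoM]) (by linarith)
        linarith
      have h1 : (v : ℝ) * w ≤ v * hi := mul_le_mul_of_nonneg_left (min_le_left _ _) hvR.le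
      have h2 : (B : ℝ) * w ≤ 2 * v * hi := by
        calc (B : ℝ) * w ≤ Real.exp (t / 2) * (2 * v * Real.exp (-t)) :=
              mul_le_mul hBQ (min_le_right _ _) hw0 (Real.exp_pos _).le
          _ = 2 * v * Real.exp (-(t / 2)) := by
              rw [show -(t / 2) = t / 2 + -t by ring, Real.exp_add]; ring
          _ ≤ _ := mul_le_mul_of_nonneg_left hhi_t (by positivity)
      have h3 : δ * v ≤ v * hi := by
        rw [mul_comm]; exact mul_le_mul_of_nonneg_left (hδ'.trans hhi_t) hvR.le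
      have : 0 ≤ (v : ℝ) * hi := by positivity
      linarith
    calc ∑ v ∈ r.divisors, ∑ q ∈ T.filter (fun q => vv q r = v), (1 : ℝ) / vv q r
        ≤ ∑ v ∈ r.divisors, 42 * hi := Finset.sum_le_sum hfib
      _ = (r.divisors.card : ℝ) * (42 * hi) := by rw [Finset.sum_const, nsmul_eq_mul]
      _ ≤ (Cd * Real.exp (θ * (|K| * t))) * (42 * hi) := by
          refine mul_le_mul_of_nonneg_right ((hCd r hr0).trans
            (mul_le_mul_of_nonneg_left ?_ (by linarith))) (by positivity)
          have hrR : (0 : ℝ) < r := by exact_mod_cast hr0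
          rw [Real.rpow_def_of_pos hrR, mul_comm]
          refine Real.exp_le_exp.2 (mul_le_mul_of_nonneg_left ?_ hθ.le)
          exact hlog.trans (mul_le_mul_of_nonneg_right (le_abs_self K) (by linarith))
      _ = _ := by ring
  have hM : 0 ≤ msum (mu ψ) S := Finset.sum_nonneg fun q _ => hμ q
  have hsmall : Real.exp (5 * θ * t) * Real.exp (θ * (|K| * t)) * hi ≤ 1 := by
    rw [hhi, ← Real.exp_add, ← Real.exp_add, Real.exp_le_one_iff]
    have : θ * Kp = rhoM / 2 := by rw [hθdef]; field_simp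
    have h1 : 5 * θ * t + θ * (|K| * t) = rhoM / 2 * t := by rw [← this, hKp]; ring
    have : 0 ≤ rhoM / 2 * t := by positivity
    linarith
  calc pairSum (mu ψ) (kernBand γ ψ A B 0 hi) S S
      ≤ ∑ q ∈ S, ∑ r ∈ S, E * (F q r + F r q) :=
        Finset.sum_le_sum fun q hq => Finset.sum_le_sum fun r hr => hpair q hq r hr
    _ = 2 * E * ∑ r ∈ S, ∑ q ∈ S, F q r := by
        simp only [mul_add, Finset.sum_add_distrib, ← Finset.mul_sum]
        rw [Finset.sum_comm (f := fun q r => F q r)]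
        ring
    _ ≤ 2 * E * ∑ r ∈ S, mu ψ r * (42 * Cd * Real.exp (θ * (|K| * t)) * hi) :=
        mul_le_mul_of_nonneg_left (Finset.sum_le_sum hmom) (by positivity)
    _ = 2 * (42 * Cd ^ 3) * (Real.exp (5 * θ * t) * Real.exp (θ * (|K| * t)) * hi) *
          msum (mu ψ) S := by rw [← Finset.sum_mul, hE, msum]; ring
    _ ≤ 2 * (42 * Cd ^ 3) * 1 * msum (mu ψ) S := by gcongr
    _ = _ := by ring

end Vale.Agent.P028
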