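import Vale.Agent.P028.CellBase
import Vale.Agent.P028.CellTop
import Vale.Agent.P028.CellHigh
import Vale.Agent.P028.CellMid

/-! P028 module CELL: second moment inside a cell (BLUEPRINT 3). -/

namespace Vale.Agent.P028

open Finset MeasureTheory

theorem cell_mu_nonneg (ψ : ℕ → ℝ) (h : ∀ q, 0 ≤ ψ q) (q : ℕ) : 0 ≤ mu ψ q :=
  mul_nonneg (div_nonneg (Nat.cast_nonneg _) (Nat.cast_nonneg _)) (h q)

theorem integrableOn_fq_mul (γ : ℝ) (ψ : ℕ → ℝ) (A : ℤ) (B q r : ℕ) :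
    IntegrableOn (fun x => fq γ ψ A B q x * fq γ ψ A B r x) (Set.Ico (0 : ℝ) 1) := by
  refine Integrable.mono' (g := fun _ => (1 : ℝ)) ?_ ?_ ?_
  · exact integrableOn_const (by simp)
  · exact ((fq_measurable γ ψ A B q).mul (fq_measurable γ ψ A B r)).aestronglyMeasurable
  · refine Filter.Eventually.of_forall fun x => ?_
    rw [Real.norm_eq_abs, abs_of_nonneg (mul_nonneg (fq_nonneg _ _ _ _ _ _) (fq_nonneg _ _ _ _ _ _))]
    exact mul_le_one₀ (fq_le_one _ _ _ _ _ _) (fq_nonneg _ _ _ _ _ _) (fq_le_one _ _ _ _ _ _)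

/-- The second moment of a cell, given its regime TOP; the constant does not depend on `K`. -/
theorem cell_from (Ct : ℝ) :
    ∃ C t0 : ℝ, ∀ (K γ : ℝ) (ψ : ℕ → ℝ) (t : ℝ) (S : Finset ℕ) (A : ℤ) (B : ℕ),
      t0 ≤ t → (∀ q, 0 ≤ ψ q) → IsCell zeta0 K t S ψ → IsApprox γ (Real.exp (t / 2)) A B →
      pairSum (mu ψ) (kernBand γ ψ A B 0 (Real.exp (-rhoM * t))) S S
        ≤ Ct * (msum (mu ψ) S + msum (mu ψ) S ^ 2) →
      ∫ x in Set.Ico (0 : ℝ) 1, (∑ q ∈ S, fq γ ψ A B q x) ^ 2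
        ≤ C * (msum (mu ψ) S + msum (mu ψ) S ^ 2) := by
  obtain ⟨Ch, th, hCh⟩ := high_bound
  obtain ⟨Cm, tm, hCm⟩ := mid_bound
  refine ⟨2 + 4 * (|Ct| + |Cm| + |Ch|), max th (max tm 1),
    fun K γ ψ t S A B ht hψ hS hAB hCt => ?_⟩
  simp only [max_le_iff] at ht
  obtain ⟨ht2, ht3, ht4⟩ := ht
  set μ := mu ψ
  set M := msum μ S with hM
  have hμ : ∀ q, 0 ≤ μ q := cell_mu_nonneg ψ hψ
  have hM0 : 0 ≤ M := Finset.sum_nonneg fun q _ => hμ q
  have hhalf : ∀ q ∈ S, 0 < ψ q ∧ ψ q ≤ 1 / 2 := by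
    intro q hq
    obtain ⟨_, hl, hu, _⟩ := hS q hq
    refine ⟨lt_of_lt_of_le (Real.exp_pos _) hl, hu.trans ?_⟩
    rw [Real.exp_neg, one_div]
    refine inv_anti₀ two_pos ?_
    linarith [Real.add_one_le_exp t]
  set lo := Real.exp (-rhoM * t)
  set hi := Real.exp (rhoM * t)
  set I := fun q r => ∫ x in Set.Ico (0 : ℝ) 1, fq γ ψ A B q x * fq γ ψ A B r x with hI
  have hpair : ∀ q ∈ S, ∀ r ∈ S, I q r ≤ (if q = r then 2 * μ q else 0)
      + 4 * (μ q * μ r * kernBand γ ψ A B 0 lo q r)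
      + 4 * (μ q * μ r * kernBand γ ψ A B lo hi q r)
      + 4 * |Ch| * (μ q * μ r) := by
    intro q hq r hr
    have hk := kern_nonneg γ ψ A B q r hψ
    have hb1 : 0 ≤ kernBand γ ψ A B 0 lo q r := by unfold kernBand; split_ifs <;> simp [hk]
    have hb2 : 0 ≤ kernBand γ ψ A B lo hi q r := by unfold kernBand; split_ifs <;> simp [hk]
    have hμμ : 0 ≤ μ q * μ r := mul_nonneg (hμ q) (hμ r)
    have hCh0 : 0 ≤ 4 * |Ch| * (μ q * μ r) := by positivity
    have hb1' := mul_nonneg hμμ hb1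
    have hb2' := mul_nonneg hμμ hb2
    by_cases hqr : q = r
    · subst hqr
      rw [if_pos rfl]
      have h : I q q ≤ 2 * μ q := by
        rw [← integral_fq γ ψ A B q hAB.2.2.1 (hS q hq).1 (hψ q) (hhalf q hq).2]
        refine integral_mono_of_nonneg (Filter.Eventually.of_forall fun x =>
          mul_nonneg (fq_nonneg _ _ _ _ _ _) (fq_nonneg _ _ _ _ _ _)) ?_
          (Filter.Eventually.of_forall fun x => mul_le_of_le_one_left (fq_nonneg _ _ _ _ _ _)
            (fq_le_one _ _ _ _ _ _))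
        refine Integrable.mono' (g := fun _ => (1 : ℝ)) (integrableOn_const (by simp))
          (fq_measurable γ ψ A B q).aestronglyMeasurable (Filter.Eventually.of_forall fun x => ?_)
        rw [Real.norm_eq_abs, abs_of_nonneg (fq_nonneg _ _ _ _ _ _)]
        exact fq_le_one _ _ _ _ _ _
      linarith
    · rw [if_neg hqr]
      obtain ⟨hq0, _⟩ := hS q hq
      obtain ⟨hr0, _⟩ := hS r hr
      obtain ⟨hη, _, _⟩ := etaP_bounds K t S ψ hS q r hq hr
      have hov := overlap_le γ ψ A B q r hAB.2.2.1 hAB.1 hq0 hr0 hqr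
        (hhalf q hq).1 (hhalf q hq).2 (hhalf r hr).1 (hhalf r hr).2
      have h1 : I q r ≤ 4 * (μ q * μ r * kern γ ψ A B q r) := by
        refine hov.trans (le_of_eq ?_)
        simp only [kern, if_neg hqr]
        ring
      by_cases c1 : etaP ψ q r < lo
      · have : kernBand γ ψ A B 0 lo q r = kern γ ψ A B q r := by
          unfold kernBand; rw [if_pos ⟨hη.le, c1⟩]
        rw [this]
        linarith
      by_cases c2 : etaP ψ q r < hi
      · have : kernBand γ ψ A B lo hi q r = kern γ ψ A B q r := by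
          unfold kernBand; rw [if_pos ⟨not_lt.1 c1, c2⟩]
        rw [this]
        linarith
      have h2 : kern γ ψ A B q r ≤ |Ch| :=
        (hCh K γ ψ t S A B ht2 hψ hS hAB q hq r hr (not_lt.1 c2)).trans (le_abs_self _)
      have h3 := mul_le_mul_of_nonneg_left h2 hμμ
      linarith
  have hexp : ∫ x in Set.Ico (0 : ℝ) 1, (∑ q ∈ S, fq γ ψ A B q x) ^ 2
      = ∑ q ∈ S, ∑ r ∈ S, I q r := by
    simp_rw [sq, Finset.sum_mul_sum]
    rw [integral_finsetSum _ fun q _ => integrable_finsetSum _ fun r _ =>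
      integrableOn_fq_mul γ ψ A B q r]
    exact Finset.sum_congr rfl fun q _ =>
      integral_finsetSum _ fun r _ => integrableOn_fq_mul γ ψ A B q r
  rw [hexp]
  refine (Finset.sum_le_sum fun q hq => Finset.sum_le_sum fun r hr => hpair q hq r hr).trans ?_
  simp only [Finset.sum_add_distrib, ← Finset.mul_sum]
  have hd : ∑ q ∈ S, ∑ r ∈ S, (if q = r then 2 * μ q else 0) = 2 * M := by
    rw [hM, msum, Finset.mul_sum]
    exact Finset.sum_congr rfl fun q hq => by rw [Finset.sum_ite_eq, if_pos hq]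
  have htot : ∑ q ∈ S, μ q * ∑ r ∈ S, μ r = M ^ 2 := by
    rw [← Finset.sum_mul, sq]; rfl
  have h1 := hCt.trans
    (mul_le_mul_of_nonneg_right (le_abs_self Ct) (by positivity))
  have h2 := (hCm K γ ψ t S A B ht3 hψ hS hAB).trans
    (mul_le_mul_of_nonneg_right (le_abs_self Cm) (by positivity))
  unfold pairSum at h1 h2
  simp only [mul_assoc] at h1 h2 hd htot ⊢
  nlinarith [hd, htot, h1, h2, abs_nonneg Ct, abs_nonneg Cm, abs_nonneg Ch, hM0, sq_nonneg M,
    mul_nonneg (abs_nonneg Ct) (sq_nonneg M), mul_nonneg (abs_nonneg Ch) hM0]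

theorem cell_bound (K : ℝ) :
    ∃ C t0 : ℝ, ∀ (γ : ℝ) (ψ : ℕ → ℝ) (t : ℝ) (S : Finset ℕ) (A : ℤ) (B : ℕ),
      t0 ≤ t → (∀ q, 0 ≤ ψ q) → IsCell zeta0 K t S ψ → IsApprox γ (Real.exp (t / 2)) A B →
      ∫ x in Set.Ico (0 : ℝ) 1, (∑ q ∈ S, fq γ ψ A B q x) ^ 2
        ≤ C * (msum (mu ψ) S + msum (mu ψ) S ^ 2) := by
  obtain ⟨Ct, tt, hCt⟩ := top_bound K
  obtain ⟨C, t0, h⟩ := cell_from |Ct|
  refine ⟨C, max tt t0, fun γ ψ t S A B ht hψ hS hAB =>
    h K γ ψ t S A B ((le_max_right _ _).trans ht) hψ hS hAB ?_⟩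
  have hM : 0 ≤ msum (mu ψ) S := Finset.sum_nonneg fun q _ => cell_mu_nonneg ψ hψ q
  refine (hCt γ ψ t S A B ((le_max_left _ _).trans ht) hψ hS hAB).trans ?_
  exact (mul_le_mul_of_nonneg_right (le_abs_self Ct) hM).trans
    (mul_le_mul_of_nonneg_left (le_add_of_nonneg_right (sq_nonneg _)) (abs_nonneg _))

end Vale.Agent.P028
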