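import Vale.Agent.P028.DensityLocal

/-! P028 module DENSITY, auxiliary bounds: the trivial bound for a dyadic class, the pairs with a
large common factor of `v` and `B*`, and the passage from Schur to the final hypothesis. -/

namespace Vale.Agent.P028

open Finset

lemma mu_nonneg' {ψ : ℕ → ℝ} (hψ : ∀ q, 0 ≤ ψ q) (q : ℕ) : 0 ≤ mu ψ q :=
  mul_nonneg (th_nonneg q) (hψ q)

lemma cls_mem (ψ : ℕ → ℝ) (y1 y2 : ℝ) (q r : ℕ) :
    0 ≤ clsI ψ y1 y2 q r ∧ clsI ψ y1 y2 q r ≤ 1 := by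
  unfold clsI; split_ifs <;> norm_num

lemma cls_inCls {ψ : ℕ → ℝ} {y1 y2 : ℝ} {q r : ℕ} (h : clsI ψ y1 y2 q r ≠ 0) :
    InCls ψ y1 y2 q r := by
  by_contra hn
  exact h (by simp [clsI, hn])

lemma pairSum_mono {μ : ℕ → ℝ} (hμ : ∀ q, 0 ≤ μ q) {G G' : ℕ → ℕ → ℝ} {V W : Finset ℕ}
    (h : ∀ q ∈ V, ∀ r ∈ W, G q r ≤ G' q r) : pairSum μ G V W ≤ pairSum μ G' V W :=
  Finset.sum_le_sum fun q hq => Finset.sum_le_sum fun r hr =>
    mul_le_mul_of_nonneg_left (h q hq r hr) (mul_nonneg (hμ q) (hμ r))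

lemma pairSum_add (μ : ℕ → ℝ) (G G' : ℕ → ℕ → ℝ) (V W : Finset ℕ) :
    pairSum μ (fun q r => G q r + G' q r) V W = pairSum μ G V W + pairSum μ G' V W := by
  simp only [pairSum, mul_add, Finset.sum_add_distrib]

lemma pairSum_swap (μ : ℕ → ℝ) (G : ℕ → ℕ → ℝ) (S : Finset ℕ) :
    pairSum μ (fun q r => G r q) S S = pairSum μ G S S := by
  simp only [pairSum]
  rw [Finset.sum_comm]
  exact Finset.sum_congr rfl fun q _ => Finset.sum_congr rfl fun r _ => by ring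

lemma avgA_const_le {Z : ℝ} (hZ : 0 < Z) : avgA Z (fun _ => (1 : ℝ) ^ 2) ≤ 1 := by
  unfold avgA
  rw [Finset.sum_const, nsmul_eq_mul, one_div_mul_eq_div, div_le_one hZ]
  simpa using card_dyInt_le hZ.le

lemma side_one {N : ℕ} {Z Cρ : ℝ} (hZ : 0 < Z) (hρ : ∑ b ∈ N.divisors, rhoN N b ≤ Cρ) :
    ∑ b ∈ N.divisors, rhoN N b * avgA Z (fun _ => (1 : ℝ) ^ 2) ≤ Cρ :=
  le_trans (Finset.sum_le_sum fun b _ =>
    mul_le_of_le_one_right (rhoN_nonneg N b) (avgA_const_le hZ)) hρ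

/-- From the `L^2` bound to the bound required of good states. -/
lemma to_final (μ : ℕ → ℝ) (G : ℕ → ℕ → ℝ) (V W : Finset ℕ) (c d : ℕ) (K Y : ℝ)
    (hμ : ∀ q, 0 ≤ μ q) (hG : ∀ q r, 0 ≤ G q r ∧ G q r ≤ 1) (hK : 0 ≤ K) (hY : 0 ≤ Y)
    (h : pairSum μ G V W ≤ K * Real.sqrt Y * ((c * d : ℕ) : ℝ) ^ (-(1 / 2 : ℝ))
      * Real.sqrt (msum μ V * msum μ W)) :
    pairSum μ G V W ≤ K ^ (1 - 2 * eps) * Y ^ (1 / 2 - eps) * ((c * d : ℕ) : ℝ) ^ (-(eps / 4))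
      * ((c * d : ℕ) : ℝ) ^ (-tauE) * (msum μ V * msum μ W) ^ aE := by
  have hcd : (0 : ℝ) ≤ ((c * d : ℕ) : ℝ) := Nat.cast_nonneg _
  refine (interp_indicator μ G V W _ hμ hG (by positivity) h).trans (le_of_eq ?_)
  congr 1
  rw [Real.mul_rpow (by positivity) (by positivity), Real.mul_rpow hK (by positivity),
    Real.sqrt_eq_rpow, ← Real.rpow_mul hY, ← Real.rpow_mul hcd,
    mul_assoc (K ^ (1 - 2 * eps) * Y ^ (1 / 2 - eps)),
    ← Real.rpow_add' hcd (by unfold tauE eps; norm_num)]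
  congr 2
  · congr 1; ring
  · unfold tauE; ring

lemma rpow_neg_natCast_le_one (n : ℕ) {x : ℝ} (hx : 0 < x) : (n : ℝ) ^ (-x) ≤ 1 := by
  rcases Nat.eq_zero_or_pos n with rfl | hn
  · rw [Nat.cast_zero, Real.zero_rpow (by linarith)]; norm_num
  · exact Real.rpow_le_one_of_one_le_of_nonpos (by exact_mod_cast hn) (by linarith)

/-- Schur with no gain. -/
lemma cls_schur :
    ∃ C : ℝ, 0 ≤ C ∧ ∀ (ψ : ℕ → ℝ) (P V W : Finset ℕ) (k : ℕ → ℕ) (c d : ℕ) (y1 y2 : ℝ),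
      (∀ q, 0 ≤ ψ q) → (∀ p ∈ P, p.Prime) → (∀ q ∈ V, 0 < q ∧ 0 < ψ q) →
      (∀ r ∈ W, 0 < r ∧ 0 < ψ r) → IsState P V W c d → 0 < y1 → 0 < y2 →
      pairSum (mu ψ) (goodG P k (clsI ψ y1 y2)) V W
        ≤ C * Real.sqrt (y1 * y2) * ((c * d : ℕ) : ℝ) ^ (-(1 / 2 : ℝ))
          * Real.sqrt (msum (mu ψ) V * msum (mu ψ) W) := by
  obtain ⟨Cs, hs⟩ := schur
  obtain ⟨Cρ, hCρ, hρ⟩ := rho_total
  refine ⟨max Cs 0 * Real.sqrt (Cρ * Cρ), by positivity, ?_⟩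
  intro ψ P V W k c d y1 y2 hψ hP hV hW hst hy1 hy2
  by_cases hne : V.Nonempty ∧ W.Nonempty
  swap
  · have h0 : pairSum (mu ψ) (goodG P k (clsI ψ y1 y2)) V W = 0 := by
      rcases not_and_or.1 hne with h | h <;>
        simp [pairSum, Finset.not_nonempty_iff_eq_empty.1 h]
    rw [h0]; positivity
  obtain ⟨⟨q0, hq0⟩, ⟨r0, hr0⟩⟩ := hne
  have hc : 0 < c := (hst.2.2 q0 hq0 r0 hr0).1 ▸ outPart_pos P _
  have hd : 0 < d := (hst.2.2 q0 hq0 r0 hr0).2 ▸ outPart_pos P _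
  have hN : 0 < nMode P k := prod_pow_pos P hP k
  have hcR : (0 : ℝ) < c := by exact_mod_cast hc
  have hdR : (0 : ℝ) < d := by exact_mod_cast hd
  have h := hs ψ P V W k c d y1 y2 (clsI ψ y1 y2) (fun _ _ _ => 1) (fun _ _ _ => 1) Cρ Cρ
    hψ hP hV hW hst hy1 hy2 hCρ.le hCρ.le (fun q r => (cls_mem ψ y1 y2 q r).1)
    (fun _ _ _ => zero_le_one) (fun _ _ _ => zero_le_one) (fun q _ r _ => cls_inCls)
    (fun q _ r _ _ => by simpa using (cls_mem ψ y1 y2 q r).2)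
    (fun q hq => side_one (by
      have := (hV q hq).2
      have : (0 : ℝ) < bPart P k q := by exact_mod_cast prod_pow_pos P hP _
      positivity) (hρ _ hN))
    (fun r hr => side_one (by
      have := (hW r hr).2
      have : (0 : ℝ) < bPart P k r := by exact_mod_cast prod_pow_pos P hP _
      positivity) (hρ _ hN))
  refine h.trans ?_
  gcongr
  exact le_max_left _ _

lemma cls_final :
    ∃ C : ℝ, 0 ≤ C ∧ ∀ (ψ : ℕ → ℝ) (S : Finset ℕ) (y1 y2 : ℝ) (p0 : ℕ),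
      (∀ q, 0 ≤ ψ q) → (∀ q ∈ S, 0 < q ∧ 0 < ψ q) → 0 < y1 → 0 < y2 →
      FinalHyp p0 (mu ψ) (clsI ψ y1 y2) (C * (y1 * y2) ^ (1 / 2 - eps)) S := by
  obtain ⟨C, hC, h⟩ := cls_schur
  refine ⟨C ^ (1 - 2 * eps), by positivity, ?_⟩
  intro ψ S y1 y2 p0 hψ hS hy1 hy2 P V W k c d hV hW hP hst
  refine (to_final _ _ V W c d C _ (mu_nonneg' hψ) (fun q r => ?_) hC (by positivity)
    (h ψ P V W k c d y1 y2 hψ (fun p hp => (hP p hp).1) (fun q hq => hS q (hV hq))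
      (fun q hq => hS q (hW hq)) hst hy1 hy2)).trans ?_
  · unfold goodG
    split_ifs
    · exact cls_mem ψ y1 y2 q r
    · norm_num
  · have hM : 0 ≤ (msum (mu ψ) V * msum (mu ψ) W) ^ aE := Real.rpow_nonneg
      (mul_nonneg (Finset.sum_nonneg fun q _ => mu_nonneg' hψ q)
        (Finset.sum_nonneg fun q _ => mu_nonneg' hψ q)) _
    refine mul_le_mul_of_nonneg_right (mul_le_mul_of_nonneg_right ?_ (by positivity)) hM
    exact mul_le_of_le_one_right (by positivity)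
      (rpow_neg_natCast_le_one _ (by have := eps_pos; linarith))

lemma cls_bound :
    ∃ C : ℝ, 0 ≤ C ∧ ∀ (ψ : ℕ → ℝ) (S : Finset ℕ) (y1 y2 : ℝ),
      (∀ q, 0 ≤ ψ q) → (∀ q ∈ S, 0 < q ∧ 0 < ψ q) → 0 < y1 → 0 < y2 →
      pairSum (mu ψ) (clsI ψ y1 y2) S S
        ≤ C * (y1 * y2) ^ (1 / 2 - eps) * (msum (mu ψ) S * msum (mu ψ) S) ^ aE := by
  obtain ⟨C, hC, h⟩ := cls_final
  obtain ⟨p0, K, hb⟩ := bilinear
  refine ⟨max K 0 * C, by positivity, fun ψ S y1 y2 hψ hS hy1 hy2 => ?_⟩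
  refine (hb (mu ψ) _ _ S (mu_nonneg' hψ) (fun q r => (cls_mem ψ y1 y2 q r).1) (by positivity)
    (fun q hq => (hS q hq).1) (h ψ S y1 y2 p0 hψ hS hy1 hy2)).trans ?_
  have hM : 0 ≤ (msum (mu ψ) S * msum (mu ψ) S) ^ aE := Real.rpow_nonneg (mul_self_nonneg _) _
  rw [← mul_assoc K]
  gcongr
  exact le_max_left _ _

/-- `B*` is large and shares most of itself with `v`. -/
def BigP (T : ℝ) (Bs q r : ℕ) : Prop :=
  T ^ (13 / 100 : ℝ) < (Bs : ℝ) ∧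
    (Bs : ℝ) ≤ T ^ (3 / 50 : ℝ) * (Nat.gcd Bs (vv q r) : ℕ)

/-- The pairs with a large common factor of `B*` and `v`, by splitting first at that factor. -/
lemma big_bound :
    ∃ C : ℝ, 0 ≤ C ∧ ∀ (ψ : ℕ → ℝ) (S : Finset ℕ) (y1 y2 T : ℝ) (Bs : ℕ),
      (∀ q, 0 ≤ ψ q) → (∀ q ∈ S, 0 < q ∧ 0 < ψ q) → 0 < y1 → 0 < y2 → 1 ≤ T → 0 < Bs →
      pairSum (mu ψ) (fun q r => clsI ψ y1 y2 q r * bb (BigP T Bs q r)) S S
        ≤ C * T ^ (-(5 * eps)) * (y1 * y2) ^ (1 / 2 - eps)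
          * (msum (mu ψ) S * msum (mu ψ) S) ^ aE := by
  classical
  obtain ⟨Cc, hCc, hfin⟩ := cls_final
  obtain ⟨p0, K, hsplit⟩ := bilinear_presplit
  obtain ⟨Cd₀, hd₀⟩ := card_divisors_le (1 / 100) (by norm_num)
  set Cd := max Cd₀ 1 with hCd
  have hCd1 : 1 ≤ Cd := le_max_right _ _
  have hd : ∀ n : ℕ, 0 < n → (n.divisors.card : ℝ) ≤ Cd * (n : ℝ) ^ (1 / 100 : ℝ) := fun n hn =>
    (hd₀ n hn).trans (mul_le_mul_of_nonneg_right (le_max_left _ _) (by positivity))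
  refine ⟨max K 0 * Cc * Cd ^ 4, by positivity, ?_⟩
  intro ψ S y1 y2 T Bs hψ hS hy1 hy2 hT hBs
  have hTp : 0 < T := by linarith
  have hBr : (0 : ℝ) < Bs := by exact_mod_cast hBs
  set δ := Cc * (y1 * y2) ^ (1 / 2 - eps) with hδ
  have hδ0 : 0 ≤ δ := by positivity
  set M := (msum (mu ψ) S * msum (mu ψ) S) ^ aE with hM
  have hM0 : 0 ≤ M := Real.rpow_nonneg (mul_self_nonneg _) _
  by_cases hlarge : T ^ (13 / 100 : ℝ) < (Bs : ℝ)
  swap
  · have h0 : pairSum (mu ψ) (fun q r => clsI ψ y1 y2 q r * bb (BigP T Bs q r)) S S = 0 :=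
      Finset.sum_eq_zero fun q _ => Finset.sum_eq_zero fun r _ => by
        simp [bb, BigP, hlarge]
    rw [h0]; positivity
  set E := Bs.divisors.filter (fun e : ℕ => (Bs : ℝ) ≤ T ^ (3 / 50 : ℝ) * (e : ℝ)) with hE
  set X := (Bs : ℝ) / T ^ (3 / 50 : ℝ) with hX
  have hX0 : 0 < X := by positivity
  have hstep : pairSum (mu ψ) (fun q r => clsI ψ y1 y2 q r * bb (BigP T Bs q r)) S S
      ≤ ∑ e ∈ E, pairSum (mu ψ)
          (fun q r => if e ∣ vv q r then clsI ψ y1 y2 q r else 0) S S := by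
    simp only [pairSum]
    conv_rhs => rw [Finset.sum_comm]
    refine Finset.sum_le_sum fun q _ => ?_
    conv_rhs => rw [Finset.sum_comm]
    refine Finset.sum_le_sum fun r _ => ?_
    rw [← Finset.mul_sum]
    refine mul_le_mul_of_nonneg_left ?_ (mul_nonneg (mu_nonneg' hψ q) (mu_nonneg' hψ r))
    have h0 : ∀ e ∈ E, (0 : ℝ) ≤ if e ∣ vv q r then clsI ψ y1 y2 q r else 0 := fun e _ => by
      split_ifs
      · exact (cls_mem ψ y1 y2 q r).1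
      · exact le_rfl
    by_cases hb : BigP T Bs q r
    · have hmem : Nat.gcd Bs (vv q r) ∈ E :=
        Finset.mem_filter.2 ⟨Nat.mem_divisors.2 ⟨Nat.gcd_dvd_left _ _, hBs.ne'⟩, hb.2⟩
      refine le_trans ?_ (Finset.single_le_sum h0 hmem)
      rw [if_pos (Nat.gcd_dvd_right _ _)]
      exact mul_le_of_le_one_right (cls_mem ψ y1 y2 q r).1 (bb_le_one _)
    · simp only [bb, if_neg hb, mul_zero]
      exact Finset.sum_nonneg h0
  have hterm : ∀ e ∈ E, pairSum (mu ψ)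
      (fun q r => if e ∣ vv q r then clsI ψ y1 y2 q r else 0) S S
      ≤ max K 0 * δ * Cd ^ 3 * X ^ (-(45 / 100) : ℝ) * M := by
    intro e he
    obtain ⟨hediv, heX⟩ := Finset.mem_filter.1 he
    have he0 := Nat.pos_of_mem_divisors hediv
    have her : (1 : ℝ) ≤ e := by exact_mod_cast he0
    refine (hsplit (mu ψ) _ δ S e (mu_nonneg' hψ) (fun q r => (cls_mem ψ y1 y2 q r).1) hδ0
      (fun q hq => (hS q hq).1) he0 (hfin ψ S y1 y2 p0 hψ hS hy1 hy2)).trans ?_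
    have h6 : (6 : ℝ) ^ e.primeFactors.card ≤ Cd ^ 3 * (e : ℝ) ^ (3 / 100 : ℝ) := by
      calc (6 : ℝ) ^ e.primeFactors.card ≤ ((2 : ℝ) ^ 3) ^ e.primeFactors.card :=
            pow_le_pow_left₀ (by norm_num) (by norm_num) _
        _ = ((2 : ℝ) ^ e.primeFactors.card) ^ 3 := by rw [← pow_mul, ← pow_mul, mul_comm]
        _ ≤ (Cd * (e : ℝ) ^ (1 / 100 : ℝ)) ^ 3 := by
            refine pow_le_pow_left₀ (by positivity) (le_trans ?_ (hd e he0)) 3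
            exact_mod_cast two_pow_omega_le_divisors e he0
        _ = _ := by
            rw [mul_pow, ← Real.rpow_natCast ((e : ℝ) ^ (1 / 100 : ℝ)),
              ← Real.rpow_mul (by linarith)]
            norm_num
    have hmain : (6 : ℝ) ^ e.primeFactors.card * (e : ℝ) ^ (-tauE)
        ≤ Cd ^ 3 * X ^ (-(45 / 100) : ℝ) := by
      refine (mul_le_mul_of_nonneg_right h6 (by positivity)).trans ?_
      rw [mul_assoc, ← Real.rpow_add (by linarith)]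
      refine mul_le_mul_of_nonneg_left ?_ (by positivity)
      refine le_trans (Real.rpow_le_rpow_of_exponent_le her
        (show 3 / 100 + -tauE ≤ -(45 / 100) by unfold tauE eps; norm_num)) ?_
      refine Real.rpow_le_rpow_of_nonpos hX0 ?_ (by norm_num)
      rw [hX, div_le_iff₀ (by positivity)]
      linarith
    calc K * δ * (6 : ℝ) ^ e.primeFactors.card * (e : ℝ) ^ (-tauE) * M
        ≤ max K 0 * δ * ((6 : ℝ) ^ e.primeFactors.card * (e : ℝ) ^ (-tauE)) * M := by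
          rw [mul_assoc (K * δ)]
          gcongr
          exact le_max_left _ _
      _ ≤ max K 0 * δ * (Cd ^ 3 * X ^ (-(45 / 100) : ℝ)) * M := by gcongr
      _ = _ := by ring
  have hcard : (E.card : ℝ) ≤ Cd * (Bs : ℝ) ^ (1 / 100 : ℝ) :=
    le_trans (by exact_mod_cast Finset.card_le_card (Finset.filter_subset _ _)) (hd Bs hBs)
  refine hstep.trans ((Finset.sum_le_card_nsmul _ _ _ hterm).trans ?_)
  rw [nsmul_eq_mul]
  have hgain : (Bs : ℝ) ^ (1 / 100 : ℝ) * X ^ (-(45 / 100) : ℝ) ≤ T ^ (-(5 * eps)) := by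
    rw [hX, Real.div_rpow hBr.le (by positivity), ← mul_div_assoc, ← Real.rpow_add hBr,
      ← Real.rpow_mul hTp.le, div_le_iff₀ (by positivity), ← Real.rpow_add hTp]
    refine le_trans (Real.rpow_le_rpow_of_nonpos (by positivity) hlarge.le (by norm_num)) ?_
    rw [← Real.rpow_mul hTp.le]
    exact Real.rpow_le_rpow_of_exponent_le hT (by unfold eps; norm_num)
  calc (E.card : ℝ) * (max K 0 * δ * Cd ^ 3 * X ^ (-(45 / 100) : ℝ) * M)
      ≤ Cd * (Bs : ℝ) ^ (1 / 100 : ℝ) * (max K 0 * δ * Cd ^ 3 * X ^ (-(45 / 100) : ℝ) * M) := by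
        gcongr
    _ = max K 0 * Cc * Cd ^ 4 * ((Bs : ℝ) ^ (1 / 100 : ℝ) * X ^ (-(45 / 100) : ℝ))
          * (y1 * y2) ^ (1 / 2 - eps) * M := by rw [hδ]; ring
    _ ≤ _ := by gcongr

end Vale.Agent.P028
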