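import Vale.Agent.P028.Schur

/-! P028 module MOMENTS: bilinear bounds for the multiplicative pair weights. -/

namespace Vale.Agent.P028

open Finset

theorem sum_inv_sq_tail (Y : ℝ) (hY : 2 ≤ Y) (s : Finset ℕ) (hs : ∀ p ∈ s, Y < (p : ℝ)) :
    ∑ p ∈ s, 1 / (p : ℝ) ^ 2 ≤ 2 / Y := by
  set k := ⌊Y⌋₊ with hk
  have hk1 : Y < (k : ℝ) + 1 := Nat.lt_floor_add_one Y
  have hk0 : (k : ℝ) ≤ Y := Nat.floor_le (by linarith)
  have hk2 : k ≠ 0 := by
    intro h
    rw [h] at hk1
    push_cast at hk1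
    linarith
  have hsub : s ⊆ Finset.Ioc k (max k (s.sup id)) := fun p hp =>
    Finset.mem_Ioc.2 ⟨by
      have : (k : ℝ) < (p : ℝ) := lt_of_le_of_lt hk0 (hs p hp)
      exact_mod_cast this, (Finset.le_sup (f := id) hp).trans (le_max_right _ _)⟩
  refine le_trans (Finset.sum_le_sum_of_subset_of_nonneg hsub fun p _ _ => by positivity) ?_
  have h := sum_Ioc_inv_sq_le_sub (α := ℝ) hk2 (le_max_left k (s.sup id))
  simp only [one_div]
  refine h.trans ?_
  have h1 : 0 ≤ ((max k (s.sup id) : ℕ) : ℝ)⁻¹ := by positivity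
  have h2 : (k : ℝ)⁻¹ ≤ 2 / Y := by
    have hkpos : (0 : ℝ) < k := by
      have : 0 < k := Nat.pos_of_ne_zero hk2
      exact_mod_cast this
    rw [inv_eq_one_div, div_le_div_iff₀ hkpos (by linarith)]
    have : (1 : ℝ) ≤ k := by exact_mod_cast Nat.pos_of_ne_zero hk2
    linarith
  linarith

/-- The bilinear bound for a submultiplicative pair weight with bounded moments. -/
theorem moment_general (CH K : ℝ) :
    ∃ C : ℝ, ∀ (F H : ℕ → ℝ) (ψ : ℕ → ℝ) (S : Finset ℕ) (y1 y2 : ℝ),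
      (∀ n, 0 ≤ F n) → (∀ n, 0 ≤ H n) →
      (∀ n, F n ^ (1 / (1 - 2 * eps)) ≤ H n) →
      (∀ n, 0 < n → 1 ≤ H n) →
      (∀ m n, 0 < m → 0 < n → H (m * n) ≤ H m * H n) →
      (∀ n : ℕ, 0 < n → H n ≤ CH * (n : ℝ) ^ (eps / 4)) →
      (∀ n : ℕ, ∑ a ∈ Finset.Icc 1 n, H a ^ 2 ≤ K * n) →
      (∀ N : ℕ, 0 < N → ∑ b ∈ N.divisors, rhoN N b * H b ^ 2 ≤ K) →
      (∀ q, 0 ≤ ψ q) → (∀ q ∈ S, 0 < q ∧ 0 < ψ q) → 0 < y1 → 0 < y2 →
      pairSum (mu ψ) (fun q r => F (uu q r * vv q r) * clsI ψ y1 y2 q r) S S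
        ≤ C * (y1 * y2) ^ (1 / 2 - eps) * (msum (mu ψ) S * msum (mu ψ) S) ^ aE := by
  obtain ⟨p0, Kb, hbil⟩ := bilinear
  obtain ⟨Cs, hschur⟩ := schur
  set Cs' := max Cs 0
  set K' := max K 0
  set CH' := max CH 0
  set A0 : ℝ := Cs' * (K' * K') + 1
  refine ⟨Kb * (A0 * CH'), fun F H ψ S y1 y2 hF0 hH0 hFH hH1 hHmul hHC hHK hHrho hψ hS hy1 hy2 => ?_⟩
  have hμ : ∀ q, 0 ≤ mu ψ q := fun q => mul_nonneg (th_nonneg q) (hψ q)
  have hA0 : 0 ≤ A0 := by positivity
  have hcls : ∀ q r, 0 ≤ clsI ψ y1 y2 q r := fun q r => by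
    unfold clsI
    split_ifs <;> norm_num
  have hy : 0 ≤ y1 * y2 := by positivity
  rw [show Kb * (A0 * CH') * (y1 * y2) ^ (1 / 2 - eps) * (msum (mu ψ) S * msum (mu ψ) S) ^ aE
    = Kb * (A0 * CH' * (y1 * y2) ^ (1 / 2 - eps)) * (msum (mu ψ) S * msum (mu ψ) S) ^ aE by ring]
  refine hbil (mu ψ) _ _ S hμ (fun q r => mul_nonneg (hF0 _) (hcls q r)) (by positivity)
    (fun q hq => (hS q hq).1) ?_
  intro P V W k c d hV hW hP hst
  have hP' : ∀ p ∈ P, p.Prime := fun p hp => (hP p hp).1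
  have hMN : 0 ≤ msum (mu ψ) V * msum (mu ψ) W :=
    mul_nonneg (Finset.sum_nonneg fun q _ => hμ q) (Finset.sum_nonneg fun q _ => hμ q)
  rcases V.eq_empty_or_nonempty with hVe | ⟨q₀, hq₀⟩
  · subst hVe
    simp only [pairSum, Finset.sum_empty]
    positivity
  rcases W.eq_empty_or_nonempty with hWe | ⟨r₀, hr₀⟩
  · subst hWe
    simp only [pairSum, Finset.sum_empty, Finset.sum_const_zero]
    positivity
  obtain ⟨hc₀, hd₀⟩ := hst.2.2 q₀ hq₀ r₀ hr₀
  have hc : 0 < c := hc₀ ▸ outPart_pos P _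
  have hd : 0 < d := hd₀ ▸ outPart_pos P _
  have hcd : 0 < c * d := Nat.mul_pos hc hd
  set Hcd := H (c * d)
  have hHcd : 1 ≤ Hcd := hH1 _ hcd
  have hsch := hschur ψ P V W k c d y1 y2 (fun q r => H (uu q r * vv q r) * clsI ψ y1 y2 q r)
    (fun _ a b => Hcd * (H a * H b)) (fun _ a b => H a * H b) (Hcd ^ 2 * (K' * K')) (K' * K')
    hψ hP' (fun q hq => hS q (hV hq)) (fun r hr => hS r (hW hr)) hst hy1 hy2 (by positivity)
    (by positivity) (fun q r => mul_nonneg (hH0 _) (hcls q r))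
    (fun q a b => by have := hH0 a; have := hH0 b; positivity)
    (fun q a b => by have := hH0 a; have := hH0 b; positivity)
    (fun q _ r _ h => by
      by_contra hc'
      apply h
      simp [clsI, hc'])
    (fun q hq r hr hg => by
      obtain ⟨hu, hv⟩ := uu_eq P k V W c d q r hP' hst hq hr (hS q (hV hq)).1 (hS r (hW hr)).1 hg
      have haq : 0 < aPart P k q := prod_pow_pos P hP' _
      have har : 0 < aPart P k r := prod_pow_pos P hP' _
      have hbq : 0 < bPart P k q := prod_pow_pos P hP' _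
      have hbr : 0 < bPart P k r := prod_pow_pos P hP' _
      have h1 : H (uu q r * vv q r) * clsI ψ y1 y2 q r ≤ H (uu q r * vv q r) := by
        refine mul_le_of_le_one_right (hH0 _) ?_
        unfold clsI
        split_ifs <;> norm_num
      refine h1.trans ?_
      rw [hu, hv, show c * aPart P k q * bPart P k r * (d * aPart P k r * bPart P k q)
        = c * d * (aPart P k r * bPart P k r) * (aPart P k q * bPart P k q) by ring]
      refine (hHmul _ _ (Nat.mul_pos hcd (Nat.mul_pos har hbr)) (Nat.mul_pos haq hbq)).trans ?_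
      refine mul_le_mul ((hHmul _ _ hcd (Nat.mul_pos har hbr)).trans
        (mul_le_mul_of_nonneg_left (hHmul _ _ har hbr) (hH0 _))) (hHmul _ _ haq hbq) (hH0 _) ?_
      have := hH0 (aPart P k r); have := hH0 (bPart P k r); positivity)
    (fun q hq => by
      have hN : 0 < nMode P k := prod_pow_pos P hP' k
      have hbq : (0 : ℝ) < bPart P k q := by exact_mod_cast prod_pow_pos P hP' _
      have hψq := (hS q (hV hq)).2
      have hdR : (0 : ℝ) < d := by exact_mod_cast hd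
      exact side_bound H K (Hcd) (nMode P k) _ hH0 hHK hHrho hN (by positivity))
    (fun r hr => by
      have hN : 0 < nMode P k := prod_pow_pos P hP' k
      have hbr : (0 : ℝ) < bPart P k r := by exact_mod_cast prod_pow_pos P hP' _
      have hψr := (hS r (hW hr)).2
      have hcR : (0 : ℝ) < c := by exact_mod_cast hc
      have := side_bound H K 1 (nMode P k) (y2 / (ψ r * (bPart P k r : ℝ) * (c : ℝ))) hH0 hHK hHrho
        hN (by positivity)
      simpa using this)
  set X := ((c * d : ℕ) : ℝ) with hX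
  have hX1 : 1 ≤ X := by rw [hX]; exact Nat.one_le_cast.2 hcd
  have hX0 : 0 < X := by linarith
  set R : ℝ := Cs' * (Hcd * (K' * K')) * Real.sqrt (y1 * y2) * X ^ (-(1 / 2 : ℝ))
  have hR : 0 ≤ R := by positivity
  have hsqrt : Real.sqrt (Hcd ^ 2 * (K' * K') * (K' * K')) = Hcd * (K' * K') := by
    rw [show Hcd ^ 2 * (K' * K') * (K' * K') = (Hcd * (K' * K')) ^ 2 by ring]
    exact Real.sqrt_sq (by positivity)
  rw [hsqrt] at hsch
  have hlin : pairSum (mu ψ) (goodG P k fun q r => H (uu q r * vv q r) * clsI ψ y1 y2 q r) V W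
      ≤ R * Real.sqrt (msum (mu ψ) V * msum (mu ψ) W) := by
    refine hsch.trans ?_
    simp only [R, ← hX]
    gcongr
    exact le_max_left _ _
  have he : eps = 1 / 100000 := rfl
  have hβ : 1 - 2 * eps ≠ 0 := by rw [he]; norm_num
  have hint := interp_general (mu ψ)
    (goodG P k fun q r => F (uu q r * vv q r) * clsI ψ y1 y2 q r)
    (goodG P k fun q r => H (uu q r * vv q r) * clsI ψ y1 y2 q r) V W R hμ
    (fun q r => by
      unfold goodG
      split_ifs
      · exact mul_nonneg (hF0 _) (hcls q r)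
      · exact le_rfl) hR
    (fun q r => by
      unfold goodG
      split_ifs
      · simp only [clsI]
        split_ifs
        · rw [mul_one, mul_one]
          exact hFH _
        · rw [mul_zero, mul_zero, Real.zero_rpow (one_div_ne_zero hβ)]
      · rw [Real.zero_rpow (one_div_ne_zero hβ)]) hlin
  refine hint.trans (mul_le_mul_of_nonneg_right ?_ (Real.rpow_nonneg hMN _))
  have he1 : 0 ≤ 1 - 2 * eps := by rw [he]; norm_num
  have hsplit : R ^ (1 - 2 * eps) = (Cs' * (K' * K')) ^ (1 - 2 * eps) * Hcd ^ (1 - 2 * eps)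
      * (y1 * y2) ^ (1 / 2 - eps) * X ^ (-(1 / 2) + eps : ℝ) := by
    simp only [R]
    rw [show Cs' * (Hcd * (K' * K')) = (Cs' * (K' * K')) * Hcd by ring,
      Real.mul_rpow (by positivity) (by positivity), Real.mul_rpow (by positivity) (by positivity),
      Real.mul_rpow (by positivity) (by positivity), Real.sqrt_eq_rpow, ← Real.rpow_mul hy,
      ← Real.rpow_mul hX0.le]
    congr 1
    · congr 2
      ring
    · congr 1
      ring
  rw [hsplit]
  have h1 : (Cs' * (K' * K')) ^ (1 - 2 * eps) ≤ A0 :=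
    (Real.rpow_le_rpow (by positivity) (le_add_of_nonneg_right zero_le_one) he1).trans
      (Real.rpow_le_self_of_one_le (le_add_of_nonneg_left (by positivity)) (by rw [he]; norm_num))
  have h2 : Hcd ^ (1 - 2 * eps) ≤ CH' * X ^ (eps / 4) :=
    (Real.rpow_le_self_of_one_le hHcd (by rw [he]; norm_num)).trans
      ((hHC _ hcd).trans (mul_le_mul_of_nonneg_right (le_max_left _ _) (by positivity)))
  calc (Cs' * (K' * K')) ^ (1 - 2 * eps) * Hcd ^ (1 - 2 * eps)
        * (y1 * y2) ^ (1 / 2 - eps) * X ^ (-(1 / 2) + eps : ℝ)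
      ≤ A0 * (CH' * X ^ (eps / 4)) * (y1 * y2) ^ (1 / 2 - eps) * X ^ (-(1 / 2) + eps : ℝ) := by
        gcongr
    _ = A0 * CH' * (y1 * y2) ^ (1 / 2 - eps) * (X ^ (eps / 4) * X ^ (-(1 / 2) + eps : ℝ)) := by
        ring
    _ = _ := by
        rw [← Real.rpow_add hX0]
        congr 2
        unfold tauE
        ring
where
  side_bound (H : ℕ → ℝ) (K c0 : ℝ) (N : ℕ) (Z : ℝ) (hH0 : ∀ n, 0 ≤ H n)
      (hHK : ∀ n : ℕ, ∑ a ∈ Finset.Icc 1 n, H a ^ 2 ≤ K * n)
      (hHrho : ∀ N : ℕ, 0 < N → ∑ b ∈ N.divisors, rhoN N b * H b ^ 2 ≤ K)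
      (hN : 0 < N) (hZ : 0 < Z) :
      ∑ b ∈ N.divisors, rhoN N b * avgA Z (fun a => (c0 * (H a * H b)) ^ 2)
        ≤ c0 ^ 2 * (max K 0 * max K 0) := by
    have havg : ∀ b, avgA Z (fun a => (c0 * (H a * H b)) ^ 2) ≤ c0 ^ 2 * max K 0 * H b ^ 2 := by
      intro b
      unfold avgA
      calc 1 / Z * ∑ a ∈ dyInt Z, (c0 * (H a * H b)) ^ 2
          ≤ 1 / Z * ∑ a ∈ Finset.Icc 1 ⌊Z⌋₊, (c0 * (H a * H b)) ^ 2 := by
            refine mul_le_mul_of_nonneg_left (Finset.sum_le_sum_of_subset_of_nonneg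
              (Finset.filter_subset _ _) fun a _ _ => sq_nonneg _) (by positivity)
        _ = 1 / Z * (c0 ^ 2 * H b ^ 2 * ∑ a ∈ Finset.Icc 1 ⌊Z⌋₊, H a ^ 2) := by
            congr 1
            rw [Finset.mul_sum]
            exact Finset.sum_congr rfl fun a _ => by ring
        _ ≤ 1 / Z * (c0 ^ 2 * H b ^ 2 * (max K 0 * Z)) := by
            refine mul_le_mul_of_nonneg_left (mul_le_mul_of_nonneg_left ?_ (by positivity))
              (by positivity)
            refine (hHK _).trans ?_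
            exact mul_le_mul (le_max_left _ _) (Nat.floor_le hZ.le) (Nat.cast_nonneg _)
              (le_max_right _ _)
        _ = _ := by field_simp
    calc _ ≤ ∑ b ∈ N.divisors, rhoN N b * (c0 ^ 2 * max K 0 * H b ^ 2) :=
          Finset.sum_le_sum fun b _ => mul_le_mul_of_nonneg_left (havg b) (rhoN_nonneg N b)
      _ = c0 ^ 2 * max K 0 * ∑ b ∈ N.divisors, rhoN N b * H b ^ 2 := by
          rw [Finset.mul_sum]
          exact Finset.sum_congr rfl fun b _ => by ring
      _ ≤ c0 ^ 2 * max K 0 * max K 0 :=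
          mul_le_mul_of_nonneg_left ((hHrho N hN).trans (le_max_left _ _)) (by positivity)
      _ = _ := by ring

/-- Bounded averages of a multiplicative weight, from a bound on `∑ g p / p`. -/
theorem prod_weight_moments :
    ∀ G : ℝ, ∃ K : ℝ, ∀ (g : ℕ → ℝ), (∀ p, 0 ≤ g p) →
      (∀ s : Finset ℕ, (∀ p ∈ s, p.Prime) → ∑ p ∈ s, g p / p ≤ G) →
      (∀ n : ℕ, ∑ a ∈ Finset.Icc 1 n, ∏ p ∈ a.primeFactors, (1 + g p) ≤ K * n) ∧
      (∀ N : ℕ, 0 < N →
        ∑ b ∈ N.divisors, rhoN N b * ∏ p ∈ b.primeFactors, (1 + g p) ≤ K) := by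
  obtain ⟨C, hC⟩ := rho_prod_le
  intro G
  refine ⟨max (Real.exp G) (max C 0 * Real.exp (4 * G)), fun g hg hG => ⟨fun n => ?_, fun N hN => ?_⟩⟩
  · refine (sum_prod_primeFactors_le g hg n).trans ?_
    rw [mul_comm]
    refine mul_le_mul_of_nonneg_right ?_ (Nat.cast_nonneg n)
    exact (Real.exp_le_exp.2 (hG _ fun p hp => (Finset.mem_filter.1 hp).2)).trans (le_max_left _ _)
  · refine (hC g N hg hN).trans (le_trans ?_ (le_max_right _ _))
    refine mul_le_mul (le_max_left _ _) (Real.exp_le_exp.2 ?_) (Real.exp_pos _).le (le_max_right _ _)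
    linarith [hG N.primeFactors fun p hp => Nat.prime_of_mem_primeFactors hp]

theorem one_le_Ph (n : ℕ) (hn : 0 < n) : 1 ≤ Ph n := by
  unfold Ph
  rw [le_div_iff₀ (by exact_mod_cast Nat.totient_pos.2 hn), one_mul]
  exact_mod_cast Nat.totient_le n

theorem phi_moment_bound :
    ∃ C : ℝ, ∀ (ψ : ℕ → ℝ) (S : Finset ℕ) (y1 y2 : ℝ),
      (∀ q, 0 ≤ ψ q) → (∀ q ∈ S, 0 < q ∧ 0 < ψ q) → 0 < y1 → 0 < y2 →
      pairSum (mu ψ) (fun q r => Ph (uu q r * vv q r) ^ 2 * clsI ψ y1 y2 q r) S S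
        ≤ C * (y1 * y2) ^ (1 / 2 - eps) * (msum (mu ψ) S * msum (mu ψ) S) ^ aE := by
  obtain ⟨CH, hCH⟩ := Ph_pow_le_rpow 4 (eps / 4) (by unfold eps; norm_num)
  obtain ⟨K, hK⟩ := prod_weight_moments (510 * sumThreeHalf)
  obtain ⟨C, hC⟩ := moment_general CH K
  set g : ℕ → ℝ := fun p => if p.Prime then ((p : ℝ) / ((p : ℝ) - 1)) ^ 8 - 1 else 0 with hg
  have hg0 : ∀ p, 0 ≤ g p := fun p => by
    simp only [hg]
    split_ifs with hp
    · have h2 : (2 : ℝ) ≤ p := by exact_mod_cast hp.two_le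
      have h1 : 1 ≤ (p : ℝ) / ((p : ℝ) - 1) := by rw [le_div_iff₀ (by linarith)]; linarith
      linarith [one_le_pow₀ h1 (n := 8)]
    · exact le_rfl
  have hgsum : ∀ s : Finset ℕ, (∀ p ∈ s, p.Prime) → ∑ p ∈ s, g p / p ≤ 510 * sumThreeHalf := by
    intro s hs
    refine le_trans (Finset.sum_le_sum fun p hp => ?_)
      ((le_of_eq (Finset.mul_sum s (fun p : ℕ => 1 / (p : ℝ) ^ (3 / 2 : ℝ)) 510).symm).trans
        (mul_le_mul_of_nonneg_left (sum_threeHalf_le s) (by norm_num)))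
    have h2 : (2 : ℝ) ≤ p := by exact_mod_cast (hs p hp).two_le
    simp only [hg, if_pos (hs p hp)]
    set x : ℝ := 1 / ((p : ℝ) - 1) with hx
    have hx0 : 0 ≤ x := one_div_nonneg.2 (by linarith)
    have hx1 : x ≤ 1 := by rw [hx, div_le_one (by linarith)]; linarith
    have hpx : (p : ℝ) / ((p : ℝ) - 1) = 1 + x := by
      have : (p : ℝ) - 1 ≠ 0 := by linarith
      rw [hx]
      field_simp
      ring
    have hxp : x ≤ 2 / (p : ℝ) := by
      rw [hx, div_le_div_iff₀ (by linarith) (by linarith)]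
      linarith
    have h8 : (1 + x) ^ 8 - 1 ≤ 255 * x := by
      have hgen : ∀ m : ℕ, (1 + x) ^ m ≤ 1 + ((2 : ℝ) ^ m - 1) * x := by
        intro m
        induction m with
        | zero => simp
        | succ m ih =>
          have h1 : (1 : ℝ) ≤ 2 ^ m := one_le_pow₀ one_le_two
          have h3 := mul_le_mul_of_nonneg_right ih (show 0 ≤ 1 + x by linarith)
          rw [pow_succ, pow_succ]
          nlinarith [mul_nonneg (mul_nonneg (sub_nonneg.2 h1) hx0) (sub_nonneg.2 hx1)]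
      have := hgen 8
      norm_num at this
      linarith
    have h32 : (p : ℝ) ^ (3 / 2 : ℝ) ≤ (p : ℝ) * p := by
      rw [← pow_two, ← Real.rpow_two]
      exact Real.rpow_le_rpow_of_exponent_le (by linarith) (by norm_num)
    rw [hpx]
    calc ((1 + x) ^ 8 - 1) / (p : ℝ) ≤ 255 * (2 / (p : ℝ)) / p :=
          div_le_div_of_nonneg_right (h8.trans (by linarith)) (by linarith)
      _ = 510 / ((p : ℝ) * p) := by ring
      _ ≤ 510 / (p : ℝ) ^ (3 / 2 : ℝ) :=
          div_le_div_of_nonneg_left (by norm_num) (by positivity) h32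
      _ = _ := by ring
  obtain ⟨hK1, hK2⟩ := hK g hg0 hgsum
  have hprod : ∀ a : ℕ, 0 < a → (Ph a ^ 4) ^ 2 = ∏ p ∈ a.primeFactors, (1 + g p) := by
    intro a ha
    rw [← pow_mul, Ph_eq_prod a ha, ← Finset.prod_pow]
    exact Finset.prod_congr rfl fun p hp => by
      simp only [hg, if_pos (Nat.prime_of_mem_primeFactors hp)]
      ring
  refine ⟨C, fun ψ S y1 y2 hψ hS hy1 hy2 =>
    hC (fun n => Ph n ^ 2) (fun n => Ph n ^ 4) ψ S y1 y2 (fun n => sq_nonneg _)
      (fun n => by have := Ph_nonneg n; positivity) (fun n => ?_)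
      (fun n hn => one_le_pow₀ (one_le_Ph n hn)) (fun m n hm hn => ?_) hCH (fun n => ?_)
      (fun N hN => ?_) hψ hS hy1 hy2⟩
  · rcases Nat.eq_zero_or_pos n with rfl | hn
    · have : (0 : ℝ) < 1 - 2 * eps := by unfold eps; norm_num
      have h0 : Ph 0 = 0 := by simp [Ph]
      show (Ph 0 ^ 2) ^ (1 / (1 - 2 * eps)) ≤ Ph 0 ^ 4
      rw [h0, zero_pow two_ne_zero, zero_pow four_ne_zero,
        Real.zero_rpow (one_div_ne_zero this.ne')]
    · have h1 := one_le_Ph n hn
      have h2 : 1 / (1 - 2 * eps) ≤ (2 : ℝ) := by unfold eps; norm_num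
      refine (Real.rpow_le_rpow_of_exponent_le (one_le_pow₀ h1) h2).trans (le_of_eq ?_)
      rw [Real.rpow_two, ← pow_mul]
  · rw [← mul_pow]
    exact pow_le_pow_left₀ (Ph_nonneg _) (Ph_mul_le m n hm hn) 4
  · refine le_trans (le_of_eq (Finset.sum_congr rfl fun a ha => ?_)) (hK1 n)
    exact hprod a (Finset.mem_Icc.1 ha).1
  · refine le_trans (le_of_eq (Finset.sum_congr rfl fun a ha => ?_)) (hK2 N hN)
    show rhoN N a * (Ph a ^ 4) ^ 2 = _
    rw [hprod a (Nat.pos_of_mem_divisors ha)]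

theorem sBig_nonneg (Y : ℝ) (n : ℕ) : 0 ≤ sBig Y n :=
  Finset.sum_nonneg fun p _ => by positivity

theorem sBig_mul_le (Y : ℝ) (m n : ℕ) (hm : 0 < m) (hn : 0 < n) :
    sBig Y (m * n) ≤ sBig Y m + sBig Y n := by
  unfold sBig
  rw [Nat.primeFactors_mul hm.ne' hn.ne', Finset.filter_union, ← Finset.sum_union_inter]
  exact le_add_of_nonneg_right (Finset.sum_nonneg fun p _ => by positivity)

theorem exp_moment_bound :
    ∃ C : ℝ, ∀ (ψ : ℕ → ℝ) (S : Finset ℕ) (y1 y2 Y : ℝ),
      (∀ q, 0 ≤ ψ q) → (∀ q ∈ S, 0 < q ∧ 0 < ψ q) → 0 < y1 → 0 < y2 → Y0 ^ 2 ≤ Y →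
      pairSum (mu ψ)
          (fun q r => Real.exp (Y * sBig Y (uu q r * vv q r)) * clsI ψ y1 y2 q r) S S
        ≤ C * (y1 * y2) ^ (1 / 2 - eps) * (msum (mu ψ) S * msum (mu ψ) S) ^ aE := by
  obtain ⟨K, hK⟩ := prod_weight_moments (8 * Real.exp 4)
  obtain ⟨C, hC⟩ := moment_general 1 K
  refine ⟨C, fun ψ S y1 y2 Y hψ hS hy1 hy2 hY => ?_⟩
  have hY0' : Real.exp (8 / eps) ≤ Y := by
    refine le_trans ?_ hY
    have h1 : 1 ≤ Y0 := Real.one_le_exp (by norm_num)
    calc Real.exp (8 / eps) ≤ Real.exp (10 ^ 8) := Real.exp_le_exp.2 (by unfold eps; norm_num)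
      _ = Y0 := rfl
      _ ≤ Y0 ^ 2 := le_self_pow₀ h1 two_ne_zero
  have hY2 : 2 ≤ Y := by
    have h1 := Real.add_one_le_exp (8 / eps)
    have h2 : (1 : ℝ) ≤ 8 / eps := by unfold eps; norm_num
    linarith
  have hYpos : 0 < Y := by linarith
  set g : ℕ → ℝ := fun p => if Y < (p : ℝ) then Real.exp (4 * (Y / p)) - 1 else 0 with hg
  have hg0 : ∀ p, 0 ≤ g p := fun p => by
    simp only [hg]
    split_ifs
    · have : 0 ≤ 4 * (Y / (p : ℝ)) := by positivity
      linarith [Real.one_le_exp this]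
    · exact le_rfl
  have hgsum : ∀ s : Finset ℕ, (∀ p ∈ s, p.Prime) → ∑ p ∈ s, g p / p ≤ 8 * Real.exp 4 := by
    intro s _
    calc ∑ p ∈ s, g p / p
        ≤ ∑ p ∈ s.filter (fun p : ℕ => Y < (p : ℝ)), 4 * Real.exp 4 * Y * (1 / (p : ℝ) ^ 2) := by
          rw [Finset.sum_filter]
          refine Finset.sum_le_sum fun p _ => ?_
          simp only [hg]
          split_ifs with h
          · have hp0 : (0 : ℝ) < p := by linarith
            set x : ℝ := 4 * (Y / (p : ℝ)) with hx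
            have hx0 : 0 ≤ x := by positivity
            have hx4 : x ≤ 4 := by
              have : Y / (p : ℝ) ≤ 1 := by rw [div_le_one hp0]; linarith
              linarith
            have hexp : Real.exp x - 1 ≤ x * Real.exp x := by
              have h1 := Real.add_one_le_exp (-x)
              have h2 : Real.exp (-x) * Real.exp x = 1 := by rw [← Real.exp_add]; simp
              nlinarith [Real.exp_pos x]
            calc (Real.exp x - 1) / (p : ℝ) ≤ x * Real.exp 4 / p :=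
                  div_le_div_of_nonneg_right
                    (hexp.trans (mul_le_mul_of_nonneg_left (Real.exp_le_exp.2 hx4) hx0)) hp0.le
              _ = _ := by rw [hx]; ring
          · simp
      _ ≤ 4 * Real.exp 4 * Y * (2 / Y) := by
          rw [← Finset.mul_sum]
          exact mul_le_mul_of_nonneg_left
            (sum_inv_sq_tail Y hY2 _ fun p hp => (Finset.mem_filter.1 hp).2) (by positivity)
      _ = _ := by field_simp; ring
  obtain ⟨hK1, hK2⟩ := hK g hg0 hgsum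
  set H : ℕ → ℝ := fun n => Real.exp (2 * (Y * sBig Y n)) with hH
  have hprod : ∀ a : ℕ, H a ^ 2 = ∏ p ∈ a.primeFactors, (1 + g p) := by
    intro a
    simp only [hH]
    rw [← Real.exp_nat_mul, sBig, Finset.mul_sum, Finset.mul_sum, Finset.mul_sum, Real.exp_sum,
      Finset.prod_filter]
    refine Finset.prod_congr rfl fun p _ => ?_
    simp only [hg]
    split_ifs
    · push_cast
      ring_nf
    · ring
  refine hC (fun n => Real.exp (Y * sBig Y n)) H ψ S y1 y2 (fun n => (Real.exp_pos _).le)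
    (fun n => (Real.exp_pos _).le) (fun n => ?_)
    (fun n _ => Real.one_le_exp (by have := sBig_nonneg Y n; positivity))
    (fun m n hm hn => ?_) (fun n hn => ?_) (fun n => ?_) (fun N hN => ?_) hψ hS hy1 hy2
  · have hs : 0 ≤ Y * sBig Y n := by have := sBig_nonneg Y n; positivity
    rw [← Real.exp_mul]
    refine Real.exp_le_exp.2 ?_
    have h2 : 1 / (1 - 2 * eps) ≤ (2 : ℝ) := by unfold eps; norm_num
    nlinarith
  · simp only [hH]
    rw [← Real.exp_add]
    refine Real.exp_le_exp.2 ?_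
    have := mul_le_mul_of_nonneg_left (sBig_mul_le Y m n hm hn) hYpos.le
    linarith
  · rw [one_mul]
    simp only [hH]
    rw [sBig, Finset.mul_sum, Finset.mul_sum, Real.exp_sum]
    set T := n.primeFactors.filter (fun p : ℕ => Y < (p : ℝ))
    calc ∏ p ∈ T, Real.exp (2 * (Y * (1 / (p : ℝ)))) ≤ ∏ p ∈ T, ((p : ℝ) ^ (eps / 4)) := by
          refine Finset.prod_le_prod (fun p _ => (Real.exp_pos _).le) fun p hp => ?_
          have hpY := (Finset.mem_filter.1 hp).2
          have hp0 : (0 : ℝ) < p := by linarith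
          rw [Real.rpow_def_of_pos hp0]
          refine Real.exp_le_exp.2 ?_
          have h1 : 8 / eps ≤ Real.log p := by
            calc 8 / eps = Real.log (Real.exp (8 / eps)) := (Real.log_exp _).symm
              _ ≤ _ := Real.log_le_log (Real.exp_pos _) (hY0'.trans hpY.le)
          have h2 : Y * (1 / (p : ℝ)) ≤ 1 := by
            rw [mul_one_div, div_le_one hp0]
            linarith
          have he : 0 < eps := by unfold eps; norm_num
          rw [div_le_iff₀ he] at h1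
          linarith
      _ = (∏ p ∈ T, (p : ℝ)) ^ (eps / 4) :=
          Real.finsetProd_rpow _ _ (fun p _ => Nat.cast_nonneg p) _
      _ ≤ _ := by
          refine Real.rpow_le_rpow (Finset.prod_nonneg fun p _ => Nat.cast_nonneg p) ?_
            (by unfold eps; norm_num)
          have h3 : ∏ p ∈ T, p ∣ n :=
            (Finset.prod_dvd_prod_of_subset _ _ _ (Finset.filter_subset _ _)).trans
              (Nat.prod_primeFactors_dvd n)
          rw [← Nat.cast_prod]
          exact Nat.cast_le.2 (Nat.le_of_dvd hn h3)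
  · refine le_trans (le_of_eq (Finset.sum_congr rfl fun a _ => ?_)) (hK1 n)
    exact hprod a
  · refine le_trans (le_of_eq (Finset.sum_congr rfl fun a _ => ?_)) (hK2 N hN)
    rw [hprod a]

end Vale.Agent.P028
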