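import Vale.Agent.P028.NSum
import Vale.Agent.P028.MomentBounds
import Vale.Agent.P028.Bohr
import Vale.Agent.P028.BWindow
import Vale.Agent.P028.DensityAux

/-! P028 module DENSITY: bilinear gain for the events `E_D` (BLUEPRINT 6). -/

namespace Vale.Agent.P028

open Finset

/-- Range of the middle regime. -/
noncomputable def rhoM : ℝ := 1 / 100000

/-- Imbalance and truncation exponent. -/
noncomputable def nuM : ℝ := 1 / 100000

noncomputable def zeta0 : ℝ := 1 / 1000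

/-- The event on the half `u ≤ v`. -/
noncomputable def Gh (γ : ℝ) (A : ℤ) (B : ℕ) (y : ℝ) (D : ℕ) (ψ : ℕ → ℝ) (y1 y2 : ℝ)
    (q r : ℕ) : ℝ :=
  EVi γ A B y D q r * clsI ψ y1 y2 q r * bb (uu q r ≤ vv q r)

lemma Gh_mem (γ : ℝ) (A : ℤ) (B : ℕ) (y : ℝ) (D : ℕ) (ψ : ℕ → ℝ) (y1 y2 : ℝ) (q r : ℕ) :
    0 ≤ Gh γ A B y D ψ y1 y2 q r ∧ Gh γ A B y D ψ y1 y2 q r ≤ clsI ψ y1 y2 q r := by
  obtain ⟨hc0, hc1⟩ := cls_mem ψ y1 y2 q r
  have h0 := EVi_nonneg γ A B y D q r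
  have h1 : EVi γ A B y D q r ≤ 1 := by unfold EVi; split_ifs <;> norm_num
  unfold Gh
  exact ⟨mul_nonneg (mul_nonneg h0 hc0) (bb_nonneg _),
    (mul_le_of_le_one_right (mul_nonneg h0 hc0) (bb_le_one _)).trans
      (mul_le_of_le_one_left hc0 h1)⟩

lemma bb_true {p : Prop} (h : p) : bb p = 1 := if_pos h

lemma bb_false {p : Prop} (h : ¬ p) : bb p = 0 := if_neg h

/-- Class A, non-resonant. -/
noncomputable def GA1 (Cb β T : ℝ) (P : Finset ℕ) (k : ℕ → ℕ) (c d q a' b' : ℕ) : ℝ :=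
  bb (T ^ (1 / 100 : ℝ) ≤ (a' : ℝ) ∧
    distInt (β * ((d * bPart P k q : ℕ) : ℝ) * a'
      + -(β * ((c * aPart P k q * b' : ℕ) : ℝ))) < 1 / T ∧
    ¬ ∃ B1, ResAt Cb β T (d * bPart P k q) B1 a')

/-- Class A, coincidence with small `h`. -/
noncomputable def GA3 (T t : ℝ) (P : Finset ℕ) (k : ℕ → ℕ) (c d q a' b' : ℕ) : ℝ :=
  bb (T ^ (1 / 100 : ℝ) ≤ (a' : ℝ) ∧
    Real.exp (99 / 100 * t) ≤ ((d * bPart P k q : ℕ) : ℝ) * a' ∧
    |((d * bPart P k q : ℕ) : ℝ) * a' - ((c * aPart P k q * b' : ℕ) : ℝ)| ≤ 2 * Real.exp (t / 2))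

/-- Class B, non-resonant. -/
noncomputable def GB2 (Cb β T t : ℝ) (P : Finset ℕ) (k : ℕ → ℕ) (c d r a b : ℕ) : ℝ :=
  bb (Real.exp (99 / 100 * t) ≤ ((d * aPart P k r * b : ℕ) : ℝ) ∧
    ((d * aPart P k r * b : ℕ) : ℝ) ≤ Real.exp (101 / 100 * t) ∧
    ¬ RV β T d (d * aPart P k r * b) ∧
    ((T ^ (1 / 100 : ℝ) ≤ (aPart P k r : ℝ) ∧ ∃ B1, ResAt Cb β T (d * b) B1 (aPart P k r)) ∨
      ((aPart P k r : ℝ) < T ^ (1 / 100 : ℝ) ∧
        distInt (β * (d * aPart P k r : ℕ) * b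
          + -(β * ((c * a * bPart P k r : ℕ) : ℝ))) < 1 / T)))

/-- Class B, coincidence with small `h`. -/
noncomputable def GB4 (T t : ℝ) (P : Finset ℕ) (k : ℕ → ℕ) (c d r a b : ℕ) : ℝ :=
  bb ((aPart P k r : ℝ) < T ^ (1 / 100 : ℝ) ∧
    Real.exp (99 / 100 * t) ≤ ((d * aPart P k r : ℕ) : ℝ) * b ∧
    |((d * aPart P k r : ℕ) : ℝ) * b - ((c * a * bPart P k r : ℕ) : ℝ)| ≤ 2 * Real.exp (t / 2))

/-- The four averages. -/
lemma side_bounds :
    ∃ Cb K0 T0 t0 : ℝ, 0 ≤ K0 ∧ 1 ≤ T0 ∧ ∀ (β T t y1 y2 : ℝ) (ψ : ℕ → ℝ) (P V W : Finset ℕ)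
      (k : ℕ → ℕ) (c d : ℕ),
      t0 ≤ t → T0 ≤ T → T ≤ Real.exp (3 / 100000 * t) → (d : ℝ) ≤ T ^ (20 : ℝ) → 0 < c → 0 < d →
      (∀ p ∈ P, p.Prime) → (∀ q ∈ V, 0 < ψ q) → (∀ r ∈ W, 0 < ψ r) → 0 < y1 → 0 < y2 →
      (∀ q ∈ V, ∑ b' ∈ (nMode P k).divisors, rhoN (nMode P k) b' *
        avgA (y1 / (ψ q * (bPart P k q : ℝ) * (d : ℝ))) (fun a' => GA1 Cb β T P k c d q a' b' ^ 2)
          ≤ K0 * T ^ (-(1 / 400) : ℝ)) ∧
      (∀ q ∈ V, ∑ b' ∈ (nMode P k).divisors, rhoN (nMode P k) b' *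
        avgA (y1 / (ψ q * (bPart P k q : ℝ) * (d : ℝ))) (fun a' => GA3 T t P k c d q a' b' ^ 2)
          ≤ K0 * T ^ (-(1 / 400) : ℝ)) ∧
      (∀ r ∈ W, ∑ b ∈ (nMode P k).divisors, rhoN (nMode P k) b *
        avgA (y2 / (ψ r * (bPart P k r : ℝ) * (c : ℝ))) (fun a => GB2 Cb β T t P k c d r a b ^ 2)
          ≤ K0 * T ^ (-(1 / 400) : ℝ)) ∧
      (∀ r ∈ W, ∑ b ∈ (nMode P k).divisors, rhoN (nMode P k) b *
        avgA (y2 / (ψ r * (bPart P k r : ℝ) * (c : ℝ))) (fun a => GB4 T t P k c d r a b ^ 2)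
          ≤ K0 * T ^ (-(1 / 400) : ℝ)) := by
  classical
  obtain ⟨Cρ, hCρ, hρ⟩ := rho_total
  obtain ⟨Cb, hCb, hbohr⟩ := avg_bohr
  obtain ⟨Cw, Tw, tw, hCw, hTw, hwin⟩ := sum_window Cb hCb
  obtain ⟨Cn, hCn, hnear⟩ := sum_near
  set K0 := Cρ * Cb + 2 * Cρ + Cw + 5 * Cn with hK0
  have hK00 : 0 ≤ K0 := by
    have : (0 : ℝ) ≤ Cb := by linarith
    positivity
  refine ⟨Cb, K0, max Tw 10, max tw 1000, hK00, hTw.trans (le_max_left _ _), ?_⟩
  intro β T t y1 y2 ψ P V W k c d ht hT hTt hdT hc hd hPp hV' hW' hy1 hy2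
  have htw : tw ≤ t := (le_max_left _ _).trans ht
  have ht1000 : 1000 ≤ t := (le_max_right _ _).trans ht
  have ht0 : 0 ≤ t := by linarith
  have hTw' : Tw ≤ T := (le_max_left _ _).trans hT
  have hT1 : 1 ≤ T := by linarith [(le_max_right Tw 10).trans hT]
  have hTp : 0 < T := by linarith
  have hcR : (0 : ℝ) < c := by exact_mod_cast hc
  have hdR : (0 : ℝ) < d := by exact_mod_cast hd
  have hN : 0 < nMode P k := prod_pow_pos P hPp k
  have hbpos : ∀ q, 0 < bPart P k q := fun q => prod_pow_pos P hPp _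
  have hapos : ∀ q, 0 < aPart P k q := fun q => prod_pow_pos P hPp _
  set g := T ^ (-(1 / 400) : ℝ) with hg
  have hg0 : 0 < g := by positivity
  have hgexp : Real.exp (-(t / 1000)) ≤ g := le_trans (Real.exp_le_exp.2 (by linarith))
    (T_pow_ge hTp hTt (show (0 : ℝ) ≤ 1 / 400 by norm_num))
  have hρN := hρ _ hN
  have hZA : ∀ q ∈ V, 0 < y1 / (ψ q * (bPart P k q : ℝ) * (d : ℝ)) := fun q hq => by
    have := hV' q hq
    have : (0 : ℝ) < bPart P k q := by exact_mod_cast hbpos q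
    positivity
  have hZB : ∀ r ∈ W, 0 < y2 / (ψ r * (bPart P k r : ℝ) * (c : ℝ)) := fun r hr => by
    have := hW' r hr
    have : (0 : ℝ) < bPart P k r := by exact_mod_cast hbpos r
    positivity
  have hA1 : ∀ q ∈ V, ∑ b' ∈ (nMode P k).divisors, rhoN (nMode P k) b' *
      avgA (y1 / (ψ q * (bPart P k q : ℝ) * (d : ℝ))) (fun a' => GA1 Cb β T P k c d q a' b' ^ 2) ≤ K0 * g := by
    intro q hq
    simp only [GA1, bb_sq]
    refine (side_avg _ _ _ (Cb * g) Cρ (by positivity) hρN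
      (fun b => hbohr β T _ _ _ hT1 (hZA q hq))).trans ?_
    rw [← mul_assoc, hK0]
    gcongr
    linarith
  have hA3 : ∀ q ∈ V, ∑ b' ∈ (nMode P k).divisors, rhoN (nMode P k) b' *
      avgA (y1 / (ψ q * (bPart P k q : ℝ) * (d : ℝ))) (fun a' => GA3 T t P k c d q a' b' ^ 2) ≤ K0 * g := by
    intro q hq
    simp only [GA3, bb_sq]
    refine (side_avg _ _ _ (2 * g) Cρ (by positivity) hρN
      (fun b => avg_near _ _ _ _ (2 * Real.exp (t / 2)) (Real.exp (99 / 100 * t)) g (hZA q hq)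
        (by exact_mod_cast Nat.mul_pos hd (hbpos q)) (by positivity) (Real.exp_pos _)
        (by positivity) ?_ ?_)).trans ?_
    · refine le_trans ?_ hgexp
      rw [div_le_iff₀ (Real.exp_pos _), ← Real.exp_add]
      have h4 : (4 : ℝ) ≤ Real.exp (t / 4) := by
        have := Real.add_one_le_exp (t / 4)
        linarith
      calc 2 * (2 * Real.exp (t / 2)) = 4 * Real.exp (t / 2) := by ring
        _ ≤ Real.exp (t / 4) * Real.exp (t / 2) := by gcongr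
        _ ≤ _ := by rw [← Real.exp_add]; exact Real.exp_le_exp.2 (by linarith)
    · rw [one_div, ← Real.rpow_neg hTp.le]
      exact Real.rpow_le_rpow_of_exponent_le hT1 (by norm_num)
    · rw [hK0, ← mul_assoc]
      gcongr
      linarith [mul_nonneg hCρ.le (show (0 : ℝ) ≤ Cb by linarith)]
  have hB2 : ∀ r ∈ W, ∑ b ∈ (nMode P k).divisors, rhoN (nMode P k) b *
      avgA (y2 / (ψ r * (bPart P k r : ℝ) * (c : ℝ))) (fun a => GB2 Cb β T t P k c d r a b ^ 2) ≤ K0 * g := by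
    intro r hr
    simp only [GB2, bb_sq]
    refine (side_swap _ _ _ (Cw * g) (hZB r hr) (by positivity) fun a _ =>
      hwin β T t _ _ d (aPart P k r) htw hTw' hTt
        (hdT.trans ((T_pow_le hTp hTt (by norm_num)).trans (exp_scale ht0 (by norm_num))))
        hN hd (hapos r)).trans ?_
    rw [hK0]
    gcongr
    linarith [mul_nonneg hCρ.le (show (0 : ℝ) ≤ Cb by linarith)]
  have hB4 : ∀ r ∈ W, ∑ b ∈ (nMode P k).divisors, rhoN (nMode P k) b *
      avgA (y2 / (ψ r * (bPart P k r : ℝ) * (c : ℝ))) (fun a => GB4 T t P k c d r a b ^ 2) ≤ K0 * g := by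
    intro r hr
    simp only [GB4, bb_sq]
    refine (side_swap _ _ _ (5 * Cn * g) (hZB r hr) (by positivity) fun a _ => ?_).trans ?_
    swap
    · rw [hK0]
      gcongr
      linarith [mul_nonneg hCρ.le (show (0 : ℝ) ≤ Cb by linarith)]
    by_cases hsmall : (aPart P k r : ℝ) < T ^ (1 / 100 : ℝ)
    swap
    · refine le_trans (le_of_eq ?_) (show (0 : ℝ) ≤ 5 * Cn * g by positivity)
      exact Finset.sum_eq_zero fun b _ => by rw [bb_false (fun h => hsmall h.1), mul_zero]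
    simp only [hsmall, true_and]
    have hm1 : (1 : ℝ) ≤ ((d * aPart P k r : ℕ) : ℝ) := by
      exact_mod_cast Nat.mul_pos hd (hapos r)
    refine (hnear _ _ _ (2 * Real.exp (t / 2)) (Real.exp (99 / 100 * t)) hN hm1 (by positivity) (Real.exp_pos _)).trans ?_
    have hm2 : ((d * aPart P k r : ℕ) : ℝ) ≤ Real.exp (1 / 1000 * t) := by
      push_cast
      refine (mul_le_mul hdT hsmall.le (Nat.cast_nonneg _) (by positivity)).trans ?_
      rw [← Real.rpow_add hTp]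
      exact (T_pow_le hTp hTt (by norm_num)).trans (exp_scale ht0 (by norm_num))
    have h1 : (Real.exp (99 / 100 * t) / ((d * aPart P k r : ℕ) : ℝ)) ^ (-(9 / 10) : ℝ)
        ≤ Real.exp (-(89 / 100 * t)) := by
      refine (Real.rpow_le_rpow_of_nonpos (Real.exp_pos (989 / 1000 * t)) ?_
        (by norm_num)).trans ?_
      · rw [le_div_iff₀ (lt_of_lt_of_le one_pos hm1)]
        refine (mul_le_mul_of_nonneg_left hm2 (Real.exp_nonneg _)).trans ?_
        rw [← Real.exp_add]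
        exact Real.exp_le_exp.2 (by linarith)
      · rw [← Real.exp_mul]
        exact Real.exp_le_exp.2 (by linarith)
    have h2 : 2 * (2 * Real.exp (t / 2)) + 1 ≤ 5 * Real.exp (t / 2) := by
      have := Real.one_le_exp (show 0 ≤ t / 2 by linarith)
      linarith
    calc Cn * (2 * (2 * Real.exp (t / 2)) + 1) * (Real.exp (99 / 100 * t) / ((d * aPart P k r : ℕ) : ℝ)) ^ (-(9 / 10) : ℝ)
        ≤ Cn * (5 * Real.exp (t / 2)) * Real.exp (-(89 / 100 * t)) := by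
          gcongr
      _ = 5 * Cn * (Real.exp (t / 2) * Real.exp (-(89 / 100 * t))) := by ring
      _ ≤ 5 * Cn * g := by
          refine mul_le_mul_of_nonneg_left (le_trans ?_ hgexp) (by positivity)
          rw [← Real.exp_add]
          exact Real.exp_le_exp.2 (by linarith)
  exact ⟨hA1, hA3, hB2, hB4⟩

/-- Every pair of the half `u ≤ v` outside `BigP` is covered. -/
lemma cover (γ β T t y εs y1 y2 Cb : ℝ) (ψ : ℕ → ℝ) (A As tt k0 : ℤ) (B Bs D c d : ℕ)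
    (P V W : Finset ℕ) (k : ℕ → ℕ)
    (ht1000 : 1000 ≤ t) (hT10 : 10 ≤ T) (hTt : T ≤ Real.exp (3 / 100000 * t)) (hD : 0 < D)
    (hDB : Nat.Coprime D B) (hk0 : A - (B : ℤ) * tt = D * k0) (hβ : (D : ℝ) * β = γ - tt)
    (hTD : (D : ℝ) = T * y) (hA : IsApprox γ (Real.exp (t / 2)) A B) (hBs : 0 < Bs)
    (hBsQ : (Bs : ℝ) ≤ Real.exp (t / 10)) (hcop : IsCoprime As (Bs : ℤ))
    (hβs : β = (As : ℝ) / Bs + εs) (hεs : (Bs : ℝ) * |εs| ≤ (Real.exp (t / 10))⁻¹)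
    (hdT : (d : ℝ) ≤ T ^ (20 : ℝ)) (hd : 0 < d) (hPp : ∀ p ∈ P, p.Prime)
    (hst : IsState P V W c d) (q r : ℕ) (hq : q ∈ V) (hr : r ∈ W) (hV' : ∀ q ∈ V, 0 < q)
    (hW' : ∀ r ∈ W, 0 < r) (hgp : GoodPair P k q r)
    (hvrange : InCls ψ y1 y2 q r → Real.exp (99 / 100 * t) ≤ (vv q r : ℝ) ∧
        (vv q r : ℝ) ≤ Real.exp (101 / 100 * t)) :
    Gh γ A B y D ψ y1 y2 q r * bb (¬ BigP T Bs q r) ≤
      clsI ψ y1 y2 q r * GA1 Cb β T P k c d q (aPart P k r) (bPart P k r)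
      + clsI ψ y1 y2 q r * GB2 Cb β T t P k c d r (aPart P k q) (bPart P k q)
      + (clsI ψ y1 y2 q r * GA3 T t P k c d q (aPart P k r) (bPart P k r)
      + clsI ψ y1 y2 q r * GB4 T t P k c d r (aPart P k q) (bPart P k q)) := by
  set H := 2 * Real.exp (t / 2) with hH
  obtain ⟨hc0, _⟩ := cls_mem ψ y1 y2 q r
  have hF0 : 0 ≤ (clsI ψ y1 y2 q r * GA1 Cb β T P k c d q (aPart P k r) (bPart P k r)) ∧ 0 ≤ (clsI ψ y1 y2 q r * GB2 Cb β T t P k c d r (aPart P k q) (bPart P k q)) ∧ 0 ≤ (clsI ψ y1 y2 q r * GA3 T t P k c d q (aPart P k r) (bPart P k r)) ∧ 0 ≤ (clsI ψ y1 y2 q r * GB4 T t P k c d r (aPart P k q) (bPart P k q)) :=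
    ⟨mul_nonneg hc0 (bb_nonneg _), mul_nonneg hc0 (bb_nonneg _),
      mul_nonneg hc0 (bb_nonneg _), mul_nonneg hc0 (bb_nonneg _)⟩
  by_cases hzero : Gh γ A B y D ψ y1 y2 q r * bb (¬ BigP T Bs q r) = 0
  · rw [hzero]; linarith [hF0.1, hF0.2.1, hF0.2.2.1, hF0.2.2.2]
  have hle1 := (mul_le_of_le_one_right (Gh_mem γ A B y D ψ y1 y2 q r).1
    (bb_le_one (¬ BigP T Bs q r))).trans (Gh_mem γ A B y D ψ y1 y2 q r).2
  obtain ⟨hGh, hbigne⟩ := mul_ne_zero_iff.1 hzero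
  obtain ⟨hEC, huv⟩ := mul_ne_zero_iff.1 hGh
  obtain ⟨hE, hC⟩ := mul_ne_zero_iff.1 hEC
  have hnb : ¬ BigP T Bs q r := fun h => hbigne (bb_false (not_not.2 h))
  have huv' : uu q r ≤ vv q r := by_contra fun h => huv (bb_false h)
  have hEV : EV γ A B y D q r := by_contra fun h => hE (by simp [EVi, h])
  obtain ⟨hvlo, hvhi⟩ := hvrange (cls_inCls hC)
  obtain ⟨hu, hv⟩ := uu_eq P k V W c d q r hPp hst hq hr (hV' q hq) (hW' r hr) hgp
  obtain ⟨n, hn, hdvd, hne⟩ := hEV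
  set a' := aPart P k r with ha'
  set b := bPart P k q with hb
  set hR' : ℝ := (vv q r : ℝ) - (uu q r : ℝ) with hhR
  have hhh : (hh q r : ℝ) = hR' := by simp [hh, hhR]
  have habs : |(hh q r : ℝ)| ≤ (vv q r : ℝ) := by
    rw [hhh, hhR, abs_le]
    have : (uu q r : ℝ) ≤ vv q r := by exact_mod_cast huv'
    have : (0 : ℝ) ≤ uu q r := Nat.cast_nonneg _
    have : (0 : ℝ) ≤ vv q r := Nat.cast_nonneg _
    constructor <;> linarith
  have hres : RV β T d (vv q r) → |(hh q r : ℝ)| ≤ H := fun hRV =>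
    resonant_small γ β T t y εs A As tt k0 B Bs D d (vv q r) n (hh q r) ht1000 hT10 hTt hD hDB
      hk0 hβ hTD hA hBs hBsQ hcop hβs hεs hdT hd
      (hv ▸ Dvd.intro _ (Nat.mul_assoc d a' b).symm) hvlo habs hnb hn hdvd hne hRV
  have hdist : distInt (β * (hh q r : ℝ)) < 1 / T := by
    obtain ⟨m, hm⟩ : (D : ℤ) ∣ n + tt * hh q r := by
      have h1 : (D : ℤ) ∣ (B : ℤ) * (n + tt * hh q r) := by
        have h := dvd_sub hdvd ((Dvd.intro k0 rfl : (D : ℤ) ∣ D * k0).mul_right (hh q r))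
        rwa [← hk0, show D0 A B q r n - (A - (B : ℤ) * tt) * hh q r
          = (B : ℤ) * (n + tt * hh q r) by simp only [D0]; ring] at h
      exact (Int.isCoprime_iff_nat_coprime.2 (by simpa using hDB)).dvd_of_dvd_mul_left h1
    have hDr : (0 : ℝ) < D := by exact_mod_cast hD
    have h1 : (n : ℝ) + tt * hh q r = D * m := by exact_mod_cast hm
    refine lt_of_le_of_lt (distInt_le_abs _ (-m)) ?_
    push_cast
    rw [sub_neg_eq_add]
    have e : (n : ℝ) + γ * hh q r = (D : ℝ) * (β * hh q r + m) := by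
      linear_combination h1 - (hh q r : ℝ) * hβ
    rw [e, abs_mul, abs_of_pos hDr, ← lt_div_iff₀' hDr] at hn
    refine lt_of_lt_of_eq hn ?_
    have hy : y ≠ 0 := by
      intro h0; rw [hTD, h0, mul_zero] at hDr; exact lt_irrefl _ hDr
    rw [hTD]; field_simp
  have hvR : (vv q r : ℝ) = (d : ℝ) * a' * b := by rw [hv]; push_cast; rfl
  have huR : (uu q r : ℝ) = (c : ℝ) * aPart P k q * bPart P k r := by rw [hu]; push_cast; rfl
  by_cases ha : T ^ (1 / 100 : ℝ) ≤ (a' : ℝ)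
  · by_cases hresA : ∃ B1, ResAt Cb β T (d * b) B1 a'
    · by_cases hRV : RV β T d (vv q r)
      · have : GA3 T t P k c d q a' (bPart P k r) = 1 := bb_true ⟨ha, by
          rw [← hb]; push_cast; linarith, by
          have := hres hRV
          rw [hhh, hhR, hvR, huR] at this
          rw [← hb]; push_cast
          rwa [mul_right_comm (d : ℝ)]⟩
        have : clsI ψ y1 y2 q r ≤ (clsI ψ y1 y2 q r * GA3 T t P k c d q (aPart P k r) (bPart P k r)) := by simp only [← ha', this, mul_one, le_refl]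
        linarith [hF0.1, hF0.2.1, hF0.2.2.2]
      · have : GB2 Cb β T t P k c d r (aPart P k q) b = 1 :=
          bb_true ⟨by rw [← hv]; exact hvlo, by rw [← hv]; exact hvhi, by rwa [← hv],
            Or.inl ⟨ha, hresA⟩⟩
        have : clsI ψ y1 y2 q r ≤ (clsI ψ y1 y2 q r * GB2 Cb β T t P k c d r (aPart P k q) (bPart P k q)) := by simp only [← hb, this, mul_one, le_refl]
        linarith [hF0.1, hF0.2.2.1, hF0.2.2.2]
    · have : GA1 Cb β T P k c d q a' (bPart P k r) = 1 := bb_true ⟨ha, by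
        refine lt_of_eq_of_lt ?_ hdist
        congr 1
        rw [hhh, hhR, hvR, huR, ← hb]; push_cast; ring, by rw [← hb]; exact hresA⟩
      have : clsI ψ y1 y2 q r ≤ (clsI ψ y1 y2 q r * GA1 Cb β T P k c d q (aPart P k r) (bPart P k r)) := by simp only [← ha', this, mul_one, le_refl]
      linarith [hF0.2.1, hF0.2.2.1, hF0.2.2.2]
  · push Not at ha
    by_cases hRV : RV β T d (vv q r)
    · have : GB4 T t P k c d r (aPart P k q) b = 1 := bb_true ⟨ha, by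
        rw [← ha']; push_cast; linarith, by
        have := hres hRV
        rw [hhh, hhR, hvR, huR] at this
        rw [← ha']; push_cast; exact this⟩
      have : clsI ψ y1 y2 q r ≤ (clsI ψ y1 y2 q r * GB4 T t P k c d r (aPart P k q) (bPart P k q)) := by simp only [← hb, this, mul_one, le_refl]
      linarith [hF0.1, hF0.2.1, hF0.2.2.1]
    · have : GB2 Cb β T t P k c d r (aPart P k q) b = 1 :=
        bb_true ⟨by rw [← hv]; exact hvlo, by rw [← hv]; exact hvhi, by rwa [← hv],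
          Or.inr ⟨ha, by
            refine lt_of_eq_of_lt ?_ hdist
            congr 1
            rw [hhh, hhR, hvR, huR, ← ha']; push_cast; ring⟩⟩
      have : clsI ψ y1 y2 q r ≤ (clsI ψ y1 y2 q r * GB2 Cb β T t P k c d r (aPart P k q) (bPart P k q)) := by simp only [← hb, this, mul_one, le_refl]
      linarith [hF0.1, hF0.2.2.1, hF0.2.2.2]

/-- The half `u ≤ v` without the pairs of `BigP`, for good states. -/
lemma good_final :
    ∃ C T0 t0 : ℝ, 0 ≤ C ∧ 1 ≤ T0 ∧ ∀ (γ β T t y εs y1 y2 : ℝ) (ψ : ℕ → ℝ) (S : Finset ℕ)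
      (A As tt k0 : ℤ) (B Bs D p0 : ℕ),
      t0 ≤ t → T0 ≤ T → T ≤ Real.exp (3 / 100000 * t) → 0 < D → Nat.Coprime D B →
      A - (B : ℤ) * tt = D * k0 → (D : ℝ) * β = γ - tt → (D : ℝ) = T * y →
      IsApprox γ (Real.exp (t / 2)) A B → 0 < Bs → (Bs : ℝ) ≤ Real.exp (t / 10) →
      IsCoprime As (Bs : ℤ) → β = (As : ℝ) / Bs + εs →
      (Bs : ℝ) * |εs| ≤ (Real.exp (t / 10))⁻¹ →
      (∀ q, 0 ≤ ψ q) → (∀ q ∈ S, 0 < q ∧ 0 < ψ q) → 0 < y1 → 0 < y2 →
      (∀ q ∈ S, ∀ r ∈ S, InCls ψ y1 y2 q r → Real.exp (99 / 100 * t) ≤ (vv q r : ℝ) ∧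
        (vv q r : ℝ) ≤ Real.exp (101 / 100 * t)) →
      FinalHyp p0 (mu ψ) (fun q r => Gh γ A B y D ψ y1 y2 q r * bb (¬ BigP T Bs q r))
        (C * T ^ (-(5 * eps)) * (y1 * y2) ^ (1 / 2 - eps)) S := by
  classical
  obtain ⟨Cs₀, hs⟩ := schur
  set Cs := max Cs₀ 0 with hCs
  obtain ⟨Cc, hCc, hcls⟩ := cls_schur
  obtain ⟨Cρ, hCρ, hρ⟩ := rho_total
  obtain ⟨Cb, K0, Tw, tw, hK00, hTw, hsides⟩ := side_bounds
  set C4 := 4 * (Cs * Real.sqrt (K0 * Cρ)) with hC4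
  refine ⟨C4 ^ (1 - 2 * eps) + Cc ^ (1 - 2 * eps), max Tw 10, max tw 1000, by positivity,
    hTw.trans (le_max_left _ _), ?_⟩
  intro γ β T t y εs y1 y2 ψ S A As tt k0 B Bs D p0 ht hT hTt hD hDB hk0 hβ hTD hA hBs hBsQ hcop
    hβs hεs hψ hS hy1 hy2 hvrange P V W k c d hV hW hP hst
  have htw : tw ≤ t := (le_max_left _ _).trans ht
  have ht1000 : 1000 ≤ t := (le_max_right _ _).trans ht
  have ht0 : 0 ≤ t := by linarith
  have hTw' : Tw ≤ T := (le_max_left _ _).trans hT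
  have hT10 : 10 ≤ T := (le_max_right _ _).trans hT
  have hT1 : 1 ≤ T := by linarith
  have hTp : 0 < T := by linarith
  have hμ := mu_nonneg' hψ
  set Y := (y1 * y2) ^ (1 / 2 - eps) with hY
  set X := (msum (mu ψ) V * msum (mu ψ) W) ^ aE with hX
  have hX0 : 0 ≤ X := Real.rpow_nonneg
    (mul_nonneg (Finset.sum_nonneg fun q _ => hμ q) (Finset.sum_nonneg fun q _ => hμ q)) _
  set G1 : ℕ → ℕ → ℝ := fun q r => Gh γ A B y D ψ y1 y2 q r * bb (¬ BigP T Bs q r) with hG1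
  have hG1le : ∀ q r, 0 ≤ G1 q r ∧ G1 q r ≤ clsI ψ y1 y2 q r := fun q r => by
    obtain ⟨h0, h1⟩ := Gh_mem γ A B y D ψ y1 y2 q r
    exact ⟨mul_nonneg h0 (bb_nonneg _), (mul_le_of_le_one_right h0 (bb_le_one _)).trans h1⟩
  have hgood : ∀ G : ℕ → ℕ → ℝ, (∀ q r, 0 ≤ G q r ∧ G q r ≤ 1) →
      ∀ q r, 0 ≤ goodG P k G q r ∧ goodG P k G q r ≤ 1 := fun G hG q r => by
    unfold goodG
    split_ifs
    · exact hG q r
    · norm_num
  have hG1one : ∀ q r, 0 ≤ G1 q r ∧ G1 q r ≤ 1 := fun q r =>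
    ⟨(hG1le q r).1, (hG1le q r).2.trans (cls_mem ψ y1 y2 q r).2⟩
  have hPp : ∀ p ∈ P, p.Prime := fun p hp => (hP p hp).1
  have hV' : ∀ q ∈ V, 0 < q ∧ 0 < ψ q := fun q hq => hS q (hV hq)
  have hW' : ∀ q ∈ W, 0 < q ∧ 0 < ψ q := fun q hq => hS q (hW hq)
  have heps := eps_pos
  have hexp0 : (0 : ℝ) < 1 - 2 * eps := by unfold eps; norm_num
  by_cases hbig : T ^ (20 : ℝ) < ((c * d : ℕ) : ℝ)
  · have hle : pairSum (mu ψ) (goodG P k G1) V W
        ≤ pairSum (mu ψ) (goodG P k (clsI ψ y1 y2)) V W :=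
      pairSum_mono hμ fun q _ r _ => by
        unfold goodG
        split_ifs
        · exact (hG1le q r).2
        · exact le_rfl
    refine (to_final _ _ V W c d Cc _ hμ (hgood G1 hG1one) hCc (by positivity)
      (hle.trans (hcls ψ P V W k c d y1 y2 hψ hPp hV' hW' hst hy1 hy2))).trans ?_
    refine mul_le_mul_of_nonneg_right (mul_le_mul_of_nonneg_right ?_ (by positivity)) hX0
    rw [mul_assoc, mul_assoc (C4 ^ _ + _), mul_comm (T ^ (-(5 * eps)))]
    refine mul_le_mul (le_add_of_nonneg_left (by positivity)) (mul_le_mul_of_nonneg_left ?_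
      (by positivity)) (by positivity) (by positivity)
    refine (Real.rpow_le_rpow_of_nonpos (by positivity) hbig.le (by linarith)).trans (le_of_eq ?_)
    rw [← Real.rpow_mul hTp.le]
    ring_nf
  push Not at hbig
  by_cases hne : V.Nonempty ∧ W.Nonempty
  swap
  · have h0 : pairSum (mu ψ) (goodG P k G1) V W = 0 := by
      rcases not_and_or.1 hne with h | h <;>
        simp [pairSum, Finset.not_nonempty_iff_eq_empty.1 h]
    rw [h0]; positivity
  obtain ⟨⟨q0, hq0⟩, ⟨r0, hr0⟩⟩ := hne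
  have hc : 0 < c := (hst.2.2 q0 hq0 r0 hr0).1 ▸ outPart_pos P _
  have hd : 0 < d := (hst.2.2 q0 hq0 r0 hr0).2 ▸ outPart_pos P _
  have hcR : (0 : ℝ) < c := by exact_mod_cast hc
  have hdR : (0 : ℝ) < d := by exact_mod_cast hd
  have hdT : (d : ℝ) ≤ T ^ (20 : ℝ) :=
    le_trans (by exact_mod_cast Nat.le_mul_of_pos_left d hc) hbig
  have hN : 0 < nMode P k := prod_pow_pos P hPp k
  have hbpos : ∀ q, 0 < bPart P k q := fun q => prod_pow_pos P hPp _
  have hapos : ∀ q, 0 < aPart P k q := fun q => prod_pow_pos P hPp _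
  set g := T ^ (-(1 / 400) : ℝ) with hg
  have hg0 : 0 < g := by positivity
  have hone : ∀ q a b : ℕ, (0 : ℝ) ≤ (fun _ _ _ => (1 : ℝ)) q a b := fun _ _ _ => zero_le_one
  have hZA : ∀ q ∈ V, 0 < y1 / (ψ q * (bPart P k q : ℝ) * (d : ℝ)) := fun q hq => by
    have := (hV' q hq).2
    have : (0 : ℝ) < bPart P k q := by exact_mod_cast hbpos q
    positivity
  have hZB : ∀ r ∈ W, 0 < y2 / (ψ r * (bPart P k r : ℝ) * (c : ℝ)) := fun r hr => by
    have := (hW' r hr).2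
    have : (0 : ℝ) < bPart P k r := by exact_mod_cast hbpos r
    positivity
  have hρN := hρ _ hN
  obtain ⟨hA1, hA3, hB2, hB4⟩ := hsides β T t y1 y2 ψ P V W k c d htw hTw' hTt hdT hc hd hPp
    (fun q hq => (hV' q hq).2) (fun q hq => (hW' q hq).2) hy1 hy2
  have hK0' : 0 ≤ K0 * g := by positivity
  set R := Cs * Real.sqrt (K0 * g * Cρ) * Real.sqrt (y1 * y2)
    * ((c * d : ℕ) : ℝ) ^ (-(1 / 2 : ℝ)) * Real.sqrt (msum (mu ψ) V * msum (mu ψ) W) with hR
  have hR0 : ∀ e : ℝ, 0 ≤ Real.sqrt e * Real.sqrt (y1 * y2) * ((c * d : ℕ) : ℝ) ^ (-(1 / 2 : ℝ))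
      * Real.sqrt (msum (mu ψ) V * msum (mu ψ) W) := fun e => by positivity
  set F1 : ℕ → ℕ → ℝ := fun q r =>
    clsI ψ y1 y2 q r * GA1 Cb β T P k c d q (aPart P k r) (bPart P k r) with hF1
  set F2 : ℕ → ℕ → ℝ := fun q r =>
    clsI ψ y1 y2 q r * GB2 Cb β T t P k c d r (aPart P k q) (bPart P k q) with hF2
  set F3 : ℕ → ℕ → ℝ := fun q r =>
    clsI ψ y1 y2 q r * GA3 T t P k c d q (aPart P k r) (bPart P k r) with hF3
  set F4 : ℕ → ℕ → ℝ := fun q r =>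
    clsI ψ y1 y2 q r * GB4 T t P k c d r (aPart P k q) (bPart P k q) with hF4
  have sideA : ∀ GA : ℕ → ℕ → ℕ → ℝ, (∀ q a b, 0 ≤ GA q a b) →
      (∀ q ∈ V, ∑ b' ∈ (nMode P k).divisors, rhoN (nMode P k) b' *
        avgA (y1 / (ψ q * (bPart P k q : ℝ) * (d : ℝ))) (fun a' => GA q a' b' ^ 2) ≤ K0 * g) →
      pairSum (mu ψ) (goodG P k (fun q r =>
        clsI ψ y1 y2 q r * GA q (aPart P k r) (bPart P k r))) V W ≤ R := by
    intro GA hGA hbd
    refine (hs ψ P V W k c d y1 y2 _ GA (fun _ _ _ => 1) (K0 * g) Cρ hψ hPp hV' hW' hst hy1 hy2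
      hK0' hCρ.le (fun q r => mul_nonneg (cls_mem ψ y1 y2 q r).1 (hGA _ _ _)) hGA hone
      (fun q _ r _ h => cls_inCls (left_ne_zero_of_mul h))
      (fun q _ r _ _ => ?_) hbd (fun r hr => side_one (hZB r hr) hρN)).trans ?_
    · rw [mul_one]
      exact mul_le_of_le_one_left (hGA _ _ _) (cls_mem ψ y1 y2 q r).2
    · rw [hR, mul_assoc Cs₀, mul_assoc Cs₀, mul_assoc Cs₀, mul_assoc Cs, mul_assoc Cs,
        mul_assoc Cs]
      exact mul_le_mul_of_nonneg_right (le_max_left _ _) (hR0 _)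
  have sideB : ∀ GB : ℕ → ℕ → ℕ → ℝ, (∀ r a b, 0 ≤ GB r a b) →
      (∀ r ∈ W, ∑ b ∈ (nMode P k).divisors, rhoN (nMode P k) b *
        avgA (y2 / (ψ r * (bPart P k r : ℝ) * (c : ℝ))) (fun a => GB r a b ^ 2) ≤ K0 * g) →
      pairSum (mu ψ) (goodG P k (fun q r =>
        clsI ψ y1 y2 q r * GB r (aPart P k q) (bPart P k q))) V W ≤ R := by
    intro GB hGB hbd
    refine (hs ψ P V W k c d y1 y2 _ (fun _ _ _ => 1) GB Cρ (K0 * g) hψ hPp hV' hW' hst hy1 hy2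
      hCρ.le hK0' (fun q r => mul_nonneg (cls_mem ψ y1 y2 q r).1 (hGB _ _ _)) hone hGB
      (fun q _ r _ h => cls_inCls (left_ne_zero_of_mul h))
      (fun q _ r _ _ => ?_) (fun q hq => side_one (hZA q hq) hρN) hbd).trans ?_
    · rw [one_mul]
      exact mul_le_of_le_one_left (hGB _ _ _) (cls_mem ψ y1 y2 q r).2
    · rw [hR, mul_comm Cρ, mul_assoc Cs₀, mul_assoc Cs₀, mul_assoc Cs₀, mul_assoc Cs,
        mul_assoc Cs, mul_assoc Cs]
      exact mul_le_mul_of_nonneg_right (le_max_left _ _) (hR0 _)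
  have hcover : ∀ q ∈ V, ∀ r ∈ W, goodG P k G1 q r
      ≤ goodG P k F1 q r + goodG P k F2 q r + (goodG P k F3 q r + goodG P k F4 q r) := by
    intro q hq r hr
    unfold goodG
    split_ifs with hgp
    swap
    · norm_num
    exact cover γ β T t y εs y1 y2 Cb ψ A As tt k0 B Bs D c d P V W k ht1000 hT10 hTt hD hDB hk0
      hβ hTD hA hBs hBsQ hcop hβs hεs hdT hd hPp hst q r hq hr (fun q hq => (hV' q hq).1)
      (fun q hq => (hW' q hq).1) hgp (hvrange q (hV hq) r (hW hr))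
  have hsum : pairSum (mu ψ) (goodG P k G1) V W ≤ C4 * T ^ (-(1 / 800) : ℝ)
      * Real.sqrt (y1 * y2) * ((c * d : ℕ) : ℝ) ^ (-(1 / 2 : ℝ))
      * Real.sqrt (msum (mu ψ) V * msum (mu ψ) W) := by
    refine (pairSum_mono hμ hcover).trans ?_
    rw [pairSum_add, pairSum_add, pairSum_add]
    have e : Real.sqrt (K0 * g * Cρ) = Real.sqrt (K0 * Cρ) * T ^ (-(1 / 800) : ℝ) := by
      rw [mul_right_comm, Real.sqrt_mul' _ hg0.le, hg, Real.sqrt_eq_rpow (T ^ _),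
        ← Real.rpow_mul hTp.le]
      norm_num
    have hb1 := sideA (GA1 Cb β T P k c d) (fun _ _ _ => bb_nonneg _) hA1
    have hb2 := sideB (GB2 Cb β T t P k c d) (fun _ _ _ => bb_nonneg _) hB2
    have hb3 := sideA (GA3 T t P k c d) (fun _ _ _ => bb_nonneg _) hA3
    have hb4 := sideB (GB4 T t P k c d) (fun _ _ _ => bb_nonneg _) hB4
    refine le_trans (add_le_add (add_le_add hb1 hb2) (add_le_add hb3 hb4)) (le_of_eq ?_)
    rw [hR, e, hC4]; ring
  have hC40 : 0 ≤ C4 := by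
    have : 0 ≤ Cs := le_max_right _ _
    positivity
  refine (to_final _ _ V W c d (C4 * T ^ (-(1 / 800) : ℝ)) _ hμ (hgood G1 hG1one) (by positivity)
    (by positivity) hsum).trans ?_
  refine mul_le_mul_of_nonneg_right (mul_le_mul_of_nonneg_right ?_ (by positivity)) hX0
  refine (mul_le_of_le_one_right (by positivity)
    (rpow_neg_natCast_le_one _ (by linarith))).trans ?_
  refine mul_le_mul_of_nonneg_right ?_ (by positivity)
  rw [Real.mul_rpow hC40 (by positivity), ← Real.rpow_mul hTp.le]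
  refine mul_le_mul (le_add_of_nonneg_right (by positivity))
    (Real.rpow_le_rpow_of_exponent_le hT1 (by unfold eps; norm_num)) (by positivity) (by positivity)

/-- The half `u ≤ v`. -/
lemma half_bound :
    ∃ C T0 t0 : ℝ, 0 ≤ C ∧ 1 ≤ T0 ∧ ∀ (γ T t y y1 y2 : ℝ) (ψ : ℕ → ℝ) (S : Finset ℕ)
      (A : ℤ) (B D : ℕ),
      t0 ≤ t → T0 ≤ T → T ≤ Real.exp (3 / 100000 * t) → 0 < D → Nat.Coprime D B →
      (D : ℝ) = T * y → IsApprox γ (Real.exp (t / 2)) A B →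
      (∀ q, 0 ≤ ψ q) → (∀ q ∈ S, 0 < q ∧ 0 < ψ q) → 0 < y1 → 0 < y2 →
      (∀ q ∈ S, ∀ r ∈ S, InCls ψ y1 y2 q r → Real.exp (99 / 100 * t) ≤ (vv q r : ℝ) ∧
        (vv q r : ℝ) ≤ Real.exp (101 / 100 * t)) →
      pairSum (mu ψ) (Gh γ A B y D ψ y1 y2) S S
        ≤ C * T ^ (-(5 * eps)) * (y1 * y2) ^ (1 / 2 - eps)
          * (msum (mu ψ) S * msum (mu ψ) S) ^ aE := by
  obtain ⟨Cg, T0, t0, hCg, hT0, hgoodf⟩ := good_final
  obtain ⟨Cbig, hCbig, hbigb⟩ := big_bound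
  obtain ⟨p0, K, hb⟩ := bilinear
  refine ⟨max K 0 * Cg + Cbig, T0, max t0 0, by positivity, hT0, ?_⟩
  intro γ T t y y1 y2 ψ S A B D ht hT hTt hD hDB hTD hA hψ hS hy1 hy2 hv
  have ht0 : 0 ≤ t := (le_max_right _ _).trans ht
  have hTp : 0 < T := by linarith
  obtain ⟨s, r, hsr⟩ : IsCoprime (B : ℤ) (D : ℤ) :=
    (Int.isCoprime_iff_nat_coprime.2 (by simpa using hDB)).symm
  have hDr : (0 : ℝ) < D := by exact_mod_cast hD
  set tt : ℤ := A * s with htt
  set β := (γ - tt) / D with hβdef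
  have hβ : (D : ℝ) * β = γ - tt := by rw [hβdef]; field_simp
  obtain ⟨As, Bs, εs, hBs, hBsQ, hcop, hβs, hεs⟩ :=
    exists_approx' β (Real.exp (t / 10)) (Real.one_le_exp (by linarith))
  have hfin := hgoodf γ β T t y εs y1 y2 ψ S A As tt (A * r) B Bs D p0
    ((le_max_left _ _).trans ht) hT hTt hD hDB
    (by rw [htt]; linear_combination (-A) * hsr) hβ hTD hA hBs hBsQ hcop hβs hεs hψ hS hy1 hy2 hv
  have h1 := hb (mu ψ) _ _ S (mu_nonneg' hψ)
    (fun q r => mul_nonneg (Gh_mem γ A B y D ψ y1 y2 q r).1 (bb_nonneg _)) (by positivity)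
    (fun q hq => (hS q hq).1) hfin
  have h2 := hbigb ψ S y1 y2 T Bs hψ hS hy1 hy2 (by linarith) hBs
  have hsplit : pairSum (mu ψ) (Gh γ A B y D ψ y1 y2) S S
      ≤ pairSum (mu ψ) (fun q r => Gh γ A B y D ψ y1 y2 q r * bb (¬ BigP T Bs q r)) S S
        + pairSum (mu ψ) (fun q r => clsI ψ y1 y2 q r * bb (BigP T Bs q r)) S S := by
    rw [← pairSum_add]
    refine pairSum_mono (mu_nonneg' hψ) fun q _ r _ => ?_
    obtain ⟨h0, hle⟩ := Gh_mem γ A B y D ψ y1 y2 q r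
    by_cases hbp : BigP T Bs q r
    · rw [bb_true hbp, bb_false (not_not.2 hbp)]
      simpa using hle
    · rw [bb_false hbp, bb_true hbp]
      simp
  refine hsplit.trans ((add_le_add h1 h2).trans ?_)
  have hM : 0 ≤ (msum (mu ψ) S * msum (mu ψ) S) ^ aE := Real.rpow_nonneg (mul_self_nonneg _) _
  have hPY : 0 ≤ T ^ (-(5 * eps)) * (y1 * y2) ^ (1 / 2 - eps)
      * (msum (mu ψ) S * msum (mu ψ) S) ^ aE := by positivity
  have := mul_le_mul_of_nonneg_right (le_max_left K 0) (mul_nonneg hCg hPY)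
  linarith

lemma evD_hh_swap (q r : ℕ) : hh r q = -hh q r := by
  simp only [hh, uu, vv, Nat.gcd_comm r q]
  ring

lemma evD_EVi_swap (γ : ℝ) (A : ℤ) (B : ℕ) (y : ℝ) (D q r : ℕ) :
    EVi γ A B y D r q = EVi γ A B y D q r := by
  have key : ∀ q r : ℕ, EV γ A B y D q r → EV γ A B y D r q := by
    rintro q r ⟨n, h1, h2, h3⟩
    refine ⟨-n, ?_, ?_, ?_⟩
    · rw [evD_hh_swap]; push_cast
      rwa [mul_neg, ← neg_add, abs_neg]
    · rw [show D0 A B r q (-n) = -D0 A B q r n by simp only [D0, evD_hh_swap q r]; ring]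
      exact dvd_neg.2 h2
    · rw [show D0 A B r q (-n) = -D0 A B q r n by simp only [D0, evD_hh_swap q r]; ring]
      exact neg_ne_zero.2 h3
  classical
  unfold EVi
  exact if_congr ⟨key r q, key q r⟩ rfl rfl

lemma evD_clsI_swap (ψ : ℕ → ℝ) (y1 y2 : ℝ) (q r : ℕ) :
    clsI ψ y2 y1 r q = clsI ψ y1 y2 q r := by
  classical
  unfold clsI
  refine if_congr ?_ rfl rfl
  simp only [InCls, uu, vv, Nat.gcd_comm r q]
  exact and_comm

theorem evD_bound :
    ∃ C t0 g : ℝ, 4 * eps < g ∧ ∀ (K γ : ℝ) (ψ : ℕ → ℝ) (t : ℝ) (S : Finset ℕ) (A : ℤ) (B : ℕ)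
      (y y1 y2 : ℝ) (D : ℕ),
      t0 ≤ t → (∀ q, 0 ≤ ψ q) → IsCell zeta0 K t S ψ → IsApprox γ (Real.exp (t / 2)) A B →
      Real.exp (-rhoM * t) ≤ y → y ≤ 4 * Real.exp (rhoM * t) → 0 < D →
      (D : ℝ) ≤ Real.exp (nuM * t) → Nat.Coprime D B → y ≤ 4 * (D : ℝ) →
      y * Real.exp (-nuM * t) ≤ y1 → y1 ≤ y → y * Real.exp (-nuM * t) ≤ y2 → y2 ≤ y →
      pairSum (mu ψ) (fun q r => EVi γ A B y D q r * clsI ψ y1 y2 q r) S S
        ≤ C * (y / D) ^ g * (y1 * y2) ^ (1 / 2 - eps) * (msum (mu ψ) S * msum (mu ψ) S) ^ aE := by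
  obtain ⟨Ch, T0, th0, hCh, hT0, hhalf⟩ := half_bound
  obtain ⟨Cc, hCc, hcls⟩ := cls_bound
  refine ⟨2 * Ch + Cc * T0 ^ (5 * eps), max th0 1000, 5 * eps, by linarith [eps_pos], ?_⟩
  intro K γ ψ t S A B y y1 y2 D ht hψ hcell hA hylo hyhi hD hDnu hDB hyD h1lo h1hi h2lo h2hi
  have ht1000 : 1000 ≤ t := (le_max_right _ _).trans ht
  have hy : 0 < y := lt_of_lt_of_le (Real.exp_pos _) hylo
  have hy1 : 0 < y1 := lt_of_lt_of_le (mul_pos hy (Real.exp_pos _)) h1lo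
  have hy2 : 0 < y2 := lt_of_lt_of_le (mul_pos hy (Real.exp_pos _)) h2lo
  have hDr : (0 : ℝ) < D := by exact_mod_cast hD
  have hS : ∀ q ∈ S, 0 < q ∧ 0 < ψ q := fun q hq =>
    ⟨(hcell q hq).1, lt_of_lt_of_le (Real.exp_pos _) (hcell q hq).2.1⟩
  set M := (msum (mu ψ) S * msum (mu ψ) S) ^ aE with hM
  have hM0 : 0 ≤ M := Real.rpow_nonneg (mul_self_nonneg _) _
  set T := (D : ℝ) / y with hT
  have hTp : 0 < T := by positivity
  have hyT : y / D = T⁻¹ := by rw [hT, inv_div]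
  rw [hyT, Real.inv_rpow hTp.le, ← Real.rpow_neg hTp.le]
  have hG : ∀ q r, EVi γ A B y D q r * clsI ψ y1 y2 q r ≤ clsI ψ y1 y2 q r := fun q r =>
    mul_le_of_le_one_left (cls_mem ψ y1 y2 q r).1 (by unfold EVi; split_ifs <;> norm_num)
  have he := eps_pos
  by_cases hsmall : T < T0
  · refine ((pairSum_mono (mu_nonneg' hψ) fun q _ r _ => hG q r).trans
      (hcls ψ S y1 y2 hψ hS hy1 hy2)).trans ?_
    refine mul_le_mul_of_nonneg_right (mul_le_mul_of_nonneg_right ?_ (by positivity)) hM0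
    have h1 : T0 ^ (-(5 * eps)) ≤ T ^ (-(5 * eps)) :=
      Real.rpow_le_rpow_of_nonpos hTp hsmall.le (by linarith)
    calc Cc = Cc * T0 ^ (5 * eps) * T0 ^ (-(5 * eps)) := by
          rw [mul_assoc, ← Real.rpow_add (by linarith), add_neg_cancel, Real.rpow_zero, mul_one]
      _ ≤ (2 * Ch + Cc * T0 ^ (5 * eps)) * T ^ (-(5 * eps)) := by
          refine mul_le_mul ?_ h1 (Real.rpow_nonneg (by linarith) _) (by positivity)
          linarith
  push Not at hsmall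
  have hTt : T ≤ Real.exp (3 / 100000 * t) := by
    rw [hT, div_le_iff₀ hy]
    refine le_trans ?_ (mul_le_mul_of_nonneg_left hylo (Real.exp_nonneg _))
    rw [← Real.exp_add]
    exact hDnu.trans (Real.exp_le_exp.2 (by unfold nuM rhoM; linarith))
  have hTD : (D : ℝ) = T * y := by rw [hT]; field_simp
  have hrange : ∀ z w : ℝ, y * Real.exp (-nuM * t) ≤ z → z ≤ y → ∀ q ∈ S,
      z / 2 < w * ψ q → w * ψ q ≤ z →
      Real.exp (99 / 100 * t) ≤ w ∧ w ≤ Real.exp (101 / 100 * t) := by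
    intro z w hz1 hz2 q hq hw1 hw2
    obtain ⟨_, hψlo, hψhi, _⟩ := hcell q hq
    have hz : 0 < z := lt_of_lt_of_le (mul_pos hy (Real.exp_pos _)) hz1
    have hw : 0 < w := pos_of_mul_pos_left (lt_trans (by linarith) hw1) (hψ q)
    constructor
    · have h4 : (2 : ℝ) ≤ Real.exp (t / 200) := by
        have := Real.add_one_le_exp (t / 200); linarith
      have h5 : Real.exp (-(3 / 100000 * t)) ≤ z := by
        refine le_trans ?_ ((mul_le_mul_of_nonneg_right hylo (Real.exp_nonneg _)).trans hz1)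
        rw [← Real.exp_add]
        exact Real.exp_le_exp.2 (by unfold nuM rhoM; linarith)
      have h6 : Real.exp (-(3 / 100000 * t)) < w * Real.exp (-t) * Real.exp (t / 200) := by
        have h7 : z < w * Real.exp (-t) * 2 := by
          have := mul_le_mul_of_nonneg_left hψhi hw.le
          linarith
        have h8 := mul_le_mul_of_nonneg_left h4 (mul_nonneg hw.le (Real.exp_nonneg (-t)))
        linarith
      rw [mul_assoc, ← Real.exp_add] at h6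
      refine le_of_mul_le_mul_right ?_ (Real.exp_pos (-t + t / 200))
      refine le_trans ?_ h6.le
      rw [← Real.exp_add]
      exact Real.exp_le_exp.2 (by linarith)
    · have h4 : (4 : ℝ) ≤ Real.exp (t / 200) := by
        have := Real.add_one_le_exp (t / 200); linarith
      have h7 : w * Real.exp (-(1 + zeta0) * t) ≤ 4 * Real.exp (rhoM * t) :=
        ((mul_le_mul_of_nonneg_left hψlo hw.le).trans hw2).trans (hz2.trans hyhi)
      refine le_of_mul_le_mul_right ?_ (Real.exp_pos (-(1 + zeta0) * t))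
      refine h7.trans ((mul_le_mul_of_nonneg_right h4 (Real.exp_nonneg _)).trans ?_)
      rw [← Real.exp_add, ← Real.exp_add]
      exact Real.exp_le_exp.2 (by unfold zeta0 rhoM; linarith)
  have hv1 : ∀ q ∈ S, ∀ r ∈ S, InCls ψ y1 y2 q r → Real.exp (99 / 100 * t) ≤ (vv q r : ℝ) ∧
      (vv q r : ℝ) ≤ Real.exp (101 / 100 * t) := fun q hq r _ h =>
    hrange y1 _ h1lo h1hi q hq h.1.1 h.1.2
  have hv2 : ∀ q ∈ S, ∀ r ∈ S, InCls ψ y2 y1 q r → Real.exp (99 / 100 * t) ≤ (vv q r : ℝ) ∧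
      (vv q r : ℝ) ≤ Real.exp (101 / 100 * t) := fun q hq r _ h =>
    hrange y2 _ h2lo h2hi q hq h.1.1 h.1.2
  have hth : th0 ≤ t := (le_max_left _ _).trans ht
  have ha := hhalf γ T t y y1 y2 ψ S A B D hth hsmall hTt hD hDB hTD hA hψ hS hy1 hy2 hv1
  have hb := hhalf γ T t y y2 y1 ψ S A B D hth hsmall hTt hD hDB hTD hA hψ hS hy2 hy1 hv2
  rw [mul_comm y2 y1] at hb
  rw [← pairSum_swap] at hb
  have hsplit : pairSum (mu ψ) (fun q r => EVi γ A B y D q r * clsI ψ y1 y2 q r) S S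
      ≤ pairSum (mu ψ) (Gh γ A B y D ψ y1 y2) S S
        + pairSum (mu ψ) (fun q r => Gh γ A B y D ψ y2 y1 r q) S S := by
    rw [← pairSum_add]
    refine pairSum_mono (mu_nonneg' hψ) fun q _ r _ => ?_
    have h0 := (Gh_mem γ A B y D ψ y1 y2 q r).1
    have h0' := (Gh_mem γ A B y D ψ y2 y1 r q).1
    by_cases huv : uu q r ≤ vv q r
    · refine le_add_of_le_of_nonneg ?_ h0'
      simp [Gh, bb_true huv]
    · refine le_add_of_nonneg_of_le h0 ?_
      have huv' : uu r q ≤ vv r q := by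
        simp only [uu, vv, Nat.gcd_comm r q] at huv ⊢
        omega
      simp [Gh, bb_true huv', evD_EVi_swap, evD_clsI_swap]
  refine hsplit.trans ((add_le_add ha hb).trans ?_)
  have hX : 0 ≤ T ^ (-(5 * eps)) * (y1 * y2) ^ (1 / 2 - eps) * M := by positivity
  have := mul_nonneg (mul_nonneg hCc (Real.rpow_nonneg (show 0 ≤ T0 by linarith) (5 * eps))) hX
  linarith

end Vale.Agent.P028
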