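import Vale.Agent.P028.Basic
import Vale.Agent.P028.Arith

/-! P028 module NSUM: the sum over coincidences `n` (periodic counting only, no sieve). -/

namespace Vale.Agent.P028

open Finset

open Classical in
noncomputable def EVi (γ : ℝ) (A : ℤ) (B : ℕ) (y : ℝ) (D : ℕ) (q r : ℕ) : ℝ :=
  if EV γ A B y D q r then 1 else 0

theorem EVi_nonneg (γ : ℝ) (A : ℤ) (B : ℕ) (y : ℝ) (D : ℕ) (q r : ℕ) :
    0 ≤ EVi γ A B y D q r := by
  unfold EVi
  split_ifs <;> norm_num

theorem EVi_mono (γ : ℝ) (A : ℤ) (B : ℕ) (y y' : ℝ) (D q r : ℕ) (h : y ≤ y') :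
    EVi γ A B y D q r ≤ EVi γ A B y' D q r := by
  by_cases h1 : EV γ A B y D q r
  · obtain ⟨n, h2, h3, h4⟩ := h1
    have h5 : EV γ A B y' D q r := ⟨n, h2.trans_le h, h3, h4⟩
    have h1 : EV γ A B y D q r := ⟨n, h2, h3, h4⟩
    simp [EVi, h1, h5]
  · have := EVi_nonneg γ A B y' D q r
    simpa [EVi, h1] using this

theorem mem_nWin (γ η : ℝ) (q r : ℕ) (n : ℤ) :
    n ∈ nWin γ η q r ↔ |(n : ℝ) + γ * (hh q r : ℝ)| < η := by
  simp only [nWin, Finset.mem_filter, Finset.mem_Icc]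
  refine ⟨fun h => h.2, fun h => ⟨?_, h⟩⟩
  obtain ⟨h1, h2⟩ := abs_lt.1 h
  exact ⟨Int.ceil_le.2 (by linarith), Int.le_floor.2 (by linarith)⟩

/-- Coincidences in a residue class. -/
theorem card_class (γ η : ℝ) (q r : ℕ) (B K : ℤ) (M : ℕ) (hη : 0 < η) (hM : 0 < M)
    (hcop : IsCoprime B (M : ℤ)) :
    |(((nWin γ η q r).filter (fun n : ℤ => (M : ℤ) ∣ B * n + K)).card : ℝ) - 2 * η / M| ≤ 1 := by
  obtain ⟨s, t, hst⟩ := hcop
  set n0 : ℤ := -(s * K) with hn0
  have hiff : ∀ n : ℤ, (M : ℤ) ∣ B * n + K ↔ (M : ℤ) ∣ n - n0 := by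
    intro n
    constructor
    · intro h
      have e : n - n0 = s * (B * n + K) + (t * n) * M := by
        rw [hn0]
        linear_combination (-n) * hst
      rw [e]
      exact dvd_add (h.mul_left s) (Dvd.intro_left _ rfl)
    · intro h
      have e : B * n + K = B * (n - n0) + (t * K) * M := by
        rw [hn0]
        linear_combination (-K) * hst
      rw [e]
      exact dvd_add (h.mul_left B) (Dvd.intro_left _ rfl)
  set c : ℝ := -γ * (hh q r : ℝ) with hc
  have hMR : (0 : ℝ) < M := by exact_mod_cast hM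
  set a : ℝ := (c - η - n0) / M with ha
  set b : ℝ := (c + η - n0) / M with hb
  have hab : b - a = 2 * η / M := by rw [ha, hb]; ring
  have hset : (nWin γ η q r).filter (fun n : ℤ => (M : ℤ) ∣ B * n + K)
      = (Finset.Icc (⌊a⌋ + 1) (⌈b⌉ - 1)).image (fun j : ℤ => n0 + M * j) := by
    have key : ∀ j : ℤ, (⌊a⌋ + 1 ≤ j ∧ j ≤ ⌈b⌉ - 1) ↔
        |((n0 + M * j : ℤ) : ℝ) + γ * (hh q r : ℝ)| < η := by
      intro j
      have h1 : ⌊a⌋ + 1 ≤ j ↔ a < (j : ℝ) := by rw [Int.add_one_le_iff, Int.floor_lt]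
      have h2 : j ≤ ⌈b⌉ - 1 ↔ (j : ℝ) < b := by rw [Int.le_sub_one_iff, Int.lt_ceil]
      rw [h1, h2, ha, hb, div_lt_iff₀ hMR, lt_div_iff₀ hMR, abs_lt, hc]
      push_cast
      constructor <;> rintro ⟨h3, h4⟩ <;> constructor <;> linarith
    ext n
    simp only [Finset.mem_filter, mem_nWin, Finset.mem_image, Finset.mem_Icc, hiff]
    constructor
    · rintro ⟨h1, j, hj⟩
      have hn : n = n0 + M * j := by omega
      exact ⟨j, (key j).2 (by rw [← hn]; exact h1), hn.symm⟩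
    · rintro ⟨j, hj, rfl⟩
      exact ⟨(key j).1 hj, ⟨j, by ring⟩⟩
  have hinj : Function.Injective (fun j : ℤ => n0 + M * j) := by
    intro x y hxy
    have hM' : (M : ℤ) ≠ 0 := by exact_mod_cast hM.ne'
    exact mul_left_cancel₀ hM' (add_left_cancel hxy)
  rw [hset, Finset.card_image_of_injective _ hinj, Int.card_Icc]
  have hab' : a < b := by
    have : 0 < 2 * η / M := by positivity
    linarith
  have hlt : ⌊a⌋ < ⌈b⌉ := by
    have h3 : ((⌊a⌋ : ℤ) : ℝ) < (⌈b⌉ : ℤ) := by linarith [Int.floor_le a, Int.le_ceil b]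
    exact_mod_cast h3
  have hcast : (((⌈b⌉ - 1 + 1 - (⌊a⌋ + 1)).toNat : ℕ) : ℝ) = (⌈b⌉ : ℝ) - ⌊a⌋ - 1 := by
    have h4 : ((⌈b⌉ - 1 + 1 - (⌊a⌋ + 1)).toNat : ℤ) = ⌈b⌉ - ⌊a⌋ - 1 := by omega
    exact_mod_cast h4
  rw [hcast, ← hab, abs_le]
  constructor <;>
    linarith [Int.floor_le a, Int.le_ceil b, Int.lt_floor_add_one a, Int.ceil_lt_add_one b]

/-- The primes entering `Wn`. -/
def uvPrimes (B q r : ℕ) : Finset ℕ := (uu q r * vv q r).primeFactors.filter (fun p => ¬ p ∣ B)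

/-- The `uv`-factor of `Wn`, restricted to the primes of `s`. -/
noncomputable def primeFactor (s : Finset ℕ) (x : ℤ) : ℝ :=
  ∏ p ∈ s, if (p : ℤ) ∣ x then 0 else (p : ℝ) / ((p : ℝ) - 1)

theorem ratio_nonneg {p : ℕ} (hp : 2 ≤ p) : 1 ≤ (p : ℝ) / ((p : ℝ) - 1) := by
  have : (2 : ℝ) ≤ p := by exact_mod_cast hp
  rw [le_div_iff₀ (by linarith)]
  linarith

theorem primeFactor_nonneg (s : Finset ℕ) (x : ℤ) (hs : ∀ p ∈ s, 2 ≤ p) :
    0 ≤ primeFactor s x := by
  refine Finset.prod_nonneg fun p hp => ?_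
  have := ratio_nonneg (hs p hp)
  split_ifs <;> linarith

theorem primeFactor_le (s : Finset ℕ) (x : ℤ) (hs : ∀ p ∈ s, 2 ≤ p) :
    primeFactor s x ≤ ∏ p ∈ s, (p : ℝ) / ((p : ℝ) - 1) := by
  refine Finset.prod_le_prod (fun p hp => ?_) (fun p hp => ?_) <;>
    · have := ratio_nonneg (hs p hp)
      split_ifs <;> linarith

theorem uvPrimes_two_le (B q r : ℕ) : ∀ p ∈ uvPrimes B q r, 2 ≤ p := fun _ hp =>
  (Nat.prime_of_mem_primeFactors (Finset.mem_filter.1 hp).1).two_le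

theorem uu_mul_vv_pos (q r : ℕ) (hq : 0 < q) (hr : 0 < r) : 0 < uu q r * vv q r :=
  Nat.mul_pos (Nat.div_pos (Nat.gcd_le_left r hq) (Nat.gcd_pos_of_pos_left r hq))
    (Nat.div_pos (Nat.gcd_le_right q hr) (Nat.gcd_pos_of_pos_left r hq))

theorem Wn_eq (A : ℤ) (B q r : ℕ) (n : ℤ) :
    Wn A B q r n = ∑ D ∈ dset B q r,
      (if (D : ℤ) ∣ D0 A B q r n ∧ D0 A B q r n ≠ 0 then
        primeFactor (uvPrimes B q r) (D0 A B q r n) else 0) / (D.totient : ℝ) := by
  unfold Wn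
  by_cases h : D0 A B q r n = 0
  · simp [h]
  · rw [if_neg h, Finset.mul_sum, Finset.sum_filter]
    refine Finset.sum_congr rfl fun D _ => ?_
    simp only [primeFactor, uvPrimes, h, ne_eq, not_false_iff, and_true]
    split_ifs <;> simp [div_eq_mul_inv]

theorem sum_Wn_small (γ : ℝ) (A : ℤ) (B q r : ℕ) (η : ℝ)
    (hB : 0 < B) (hq : 0 < q) (hr : 0 < r) (hη0 : 0 < η) (hη : η < 1) :
    ∑ n ∈ nWin γ η q r, Wn A B q r n
      ≤ 2 * Ph (uu q r * vv q r) * ∑ D ∈ dset B q r, EVi γ A B η D q r / D.totient := by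
  set PU := Ph (uu q r * vv q r)
  set S := ∑ D ∈ dset B q r, EVi γ A B η D q r / (D.totient : ℝ)
  have hS : 0 ≤ S := Finset.sum_nonneg fun D _ => div_nonneg (EVi_nonneg ..) (Nat.cast_nonneg _)
  have hle : ∀ n ∈ nWin γ η q r, Wn A B q r n ≤ PU * S := by
    intro n hn
    rw [Wn_eq, Finset.mul_sum]
    refine Finset.sum_le_sum fun D _ => ?_
    rw [← mul_div_assoc]
    refine div_le_div_of_nonneg_right ?_ (Nat.cast_nonneg _)
    split_ifs with h
    · have hev : EV γ A B η D q r := ⟨n, (mem_nWin γ η q r n).1 hn, h.1, h.2⟩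
      simp only [EVi, if_pos hev, mul_one, PU, Ph_eq_prod _ (uu_mul_vv_pos q r hq hr)]
      refine (primeFactor_le _ _ (uvPrimes_two_le B q r)).trans ?_
      refine Finset.prod_le_prod_of_subset_of_one_le (Finset.filter_subset _ _)
        (fun p hp => ?_) (fun p hp _ => ratio_nonneg (Nat.prime_of_mem_primeFactors hp).two_le)
      linarith [ratio_nonneg (uvPrimes_two_le B q r p hp)]
    · exact mul_nonneg (Ph_nonneg _) (EVi_nonneg ..)
  have hcard : ((nWin γ η q r).card : ℝ) ≤ 2 := by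
    have h := card_class γ η q r 1 0 1 hη0 one_pos isCoprime_one_left
    simp at h
    have h2 : ((nWin γ η q r).card : ℝ) < (3 : ℕ) := by
      push_cast
      linarith [(abs_le.1 h).2]
    have h3 : (nWin γ η q r).card < 3 := by exact_mod_cast h2
    have h4 : (nWin γ η q r).card ≤ 2 := by omega
    exact_mod_cast h4
  calc _ ≤ ∑ n ∈ nWin γ η q r, PU * S := Finset.sum_le_sum hle
    _ ≤ 2 * (PU * S) := by
        rw [Finset.sum_const, nsmul_eq_mul]
        exact mul_le_mul_of_nonneg_right hcard (mul_nonneg (Ph_nonneg _) hS)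
    _ = _ := by ring

/-- Inclusion–exclusion over a set of primes, inside a residue class modulo `D`. -/
theorem sieve_class (γ η : ℝ) (A : ℤ) (B q r D : ℕ) (s : Finset ℕ) (hη : 0 < η) (hD : 0 < D)
    (hDB : Nat.Coprime D B) (hs : ∀ p ∈ s, p.Prime ∧ ¬ p ∣ B ∧ ¬ p ∣ D) :
    ∑ n ∈ (nWin γ η q r).filter (fun n : ℤ => (D : ℤ) ∣ D0 A B q r n),
        primeFactor s (D0 A B q r n)
      ≤ 2 * η / D + 2 ^ s.card * ∏ p ∈ s, (p : ℝ) / ((p : ℝ) - 1) := by
  set R := ∏ p ∈ s, (p : ℝ) / ((p : ℝ) - 1)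
  have hR : 0 ≤ R := Finset.prod_nonneg fun p hp => by linarith [ratio_nonneg (hs p hp).1.two_le]
  have hpt : ∀ x : ℤ, primeFactor s x = R *
      ∑ T ∈ s.powerset, (-1 : ℝ) ^ T.card * (if ((∏ p ∈ T, p : ℕ) : ℤ) ∣ x then 1 else 0) := by
    intro x
    have h1 : primeFactor s x = R * ∏ p ∈ s, (1 + -(if (p : ℤ) ∣ x then (1 : ℝ) else 0)) := by
      rw [primeFactor, ← Finset.prod_mul_distrib]
      refine Finset.prod_congr rfl fun p _ => ?_
      split_ifs <;> ring
    rw [h1, Finset.prod_one_add]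
    congr 1
    refine Finset.sum_congr rfl fun T hT => ?_
    rw [Finset.prod_neg, Finset.prod_boole]
    congr 1
    refine if_congr ?_ rfl rfl
    simp only [Int.natCast_dvd]
    refine ⟨fun h => ?_, fun h p hp => (Finset.dvd_prod_of_mem _ hp).trans h⟩
    exact Finset.prod_primes_dvd _
      (fun p hp => (hs p (Finset.mem_powerset.1 hT hp)).1.prime) h
  simp only [hpt, ← Finset.mul_sum]
  rw [Finset.sum_comm]
  have hterm : ∀ T ∈ s.powerset,
      ∑ n ∈ (nWin γ η q r).filter (fun n : ℤ => (D : ℤ) ∣ D0 A B q r n),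
        (-1 : ℝ) ^ T.card * (if ((∏ p ∈ T, p : ℕ) : ℤ) ∣ D0 A B q r n then 1 else 0)
      ≤ 2 * η / D * ∏ p ∈ T, (-(1 / (p : ℝ))) + 1 := by
    intro T hT
    have hT' := fun p hp => hs p (Finset.mem_powerset.1 hT hp)
    set m := ∏ p ∈ T, p with hm
    have hm0 : 0 < m := Finset.prod_pos fun p hp => (hT' p hp).1.pos
    have hDm : Nat.Coprime D m :=
      Nat.Coprime.prod_right fun p hp => ((hT' p hp).1.coprime_iff_not_dvd.2 (hT' p hp).2.2).symm
    have hBm : Nat.Coprime B m :=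
      Nat.Coprime.prod_right fun p hp => ((hT' p hp).1.coprime_iff_not_dvd.2 (hT' p hp).2.1).symm
    have hBM : IsCoprime (B : ℤ) ((D * m : ℕ) : ℤ) :=
      Nat.isCoprime_iff_coprime.2 (Nat.Coprime.mul_right hDB.symm hBm)
    have hcl := card_class γ η q r B (A * hh q r) (D * m) hη (Nat.mul_pos hD hm0) hBM
    have hset : (nWin γ η q r).filter
          (fun n : ℤ => ((D * m : ℕ) : ℤ) ∣ (B : ℤ) * n + A * hh q r)
        = ((nWin γ η q r).filter (fun n : ℤ => (D : ℤ) ∣ D0 A B q r n)).filter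
            (fun n : ℤ => (m : ℤ) ∣ D0 A B q r n) := by
      rw [Finset.filter_filter]
      refine Finset.filter_congr fun n _ => ?_
      simp only [D0, Int.natCast_dvd]
      exact ⟨fun h => ⟨(Nat.dvd_mul_right D m).trans h, (Nat.dvd_mul_left m D).trans h⟩,
        fun h => hDm.mul_dvd_of_dvd_of_dvd h.1 h.2⟩
    rw [hset] at hcl
    rw [← Finset.mul_sum, Finset.sum_boole]
    have he : ∏ p ∈ T, (-(1 / (p : ℝ))) = (-1 : ℝ) ^ T.card / (m : ℝ) := by
      rw [Finset.prod_neg, hm]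
      simp only [one_div, Finset.prod_inv_distrib]
      push_cast
      ring
    rw [he]
    push_cast at hcl ⊢
    have hb : |(-1 : ℝ) ^ T.card| = 1 := by rw [abs_pow, abs_neg, abs_one, one_pow]
    set X : ℝ := ((((nWin γ η q r).filter (fun n : ℤ => (D : ℤ) ∣ D0 A B q r n)).filter
            (fun n : ℤ => (m : ℤ) ∣ D0 A B q r n)).card : ℝ)
    have := le_abs_self ((-1 : ℝ) ^ T.card * (X - 2 * η / ((D : ℝ) * m)))
    rw [abs_mul, hb, one_mul] at this
    have e : 2 * η / (D : ℝ) * ((-1 : ℝ) ^ T.card / (m : ℝ))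
        = (-1 : ℝ) ^ T.card * (2 * η / ((D : ℝ) * m)) := by ring
    rw [e]
    linarith
  calc R * _ ≤ R * ∑ T ∈ s.powerset, (2 * η / D * ∏ p ∈ T, (-(1 / (p : ℝ))) + 1) :=
        mul_le_mul_of_nonneg_left (Finset.sum_le_sum hterm) hR
    _ = _ := by
        rw [Finset.sum_add_distrib, ← Finset.mul_sum, ← Finset.prod_one_add, Finset.sum_const,
          Finset.card_powerset, nsmul_eq_mul, mul_one, mul_add]
        have h1 : R * ∏ p ∈ s, (1 + -(1 / (p : ℝ))) = 1 := by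
          rw [← Finset.prod_mul_distrib]
          refine Finset.prod_eq_one fun p hp => ?_
          have hp2 : (2 : ℝ) ≤ p := by exact_mod_cast (hs p hp).1.two_le
          have h2 : (p : ℝ) - 1 ≠ 0 := by linarith
          have h3 : (p : ℝ) ≠ 0 := by linarith
          field_simp
          ring
        rw [mul_left_comm, h1]
        push_cast
        ring

theorem inv_mul_totient_le :
    ∃ C : ℝ, 0 ≤ C ∧ ∀ D : ℕ, 0 < D →
      1 / ((D : ℝ) * D.totient) ≤ C * (1 / (D : ℝ) ^ (7 / 4 : ℝ)) := by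
  obtain ⟨C, hC⟩ := Ph_pow_le_rpow 1 (1 / 4) (by norm_num)
  have hC0 : 0 ≤ C := by
    have := hC 1 one_pos
    simp [Ph] at this
    linarith
  refine ⟨C, hC0, fun D hD => ?_⟩
  have hD0 : (0 : ℝ) < D := by exact_mod_cast hD
  have hφ : (0 : ℝ) < D.totient := by exact_mod_cast Nat.totient_pos.2 hD
  have h := hC D hD
  rw [pow_one] at h
  calc 1 / ((D : ℝ) * D.totient) = Ph D / (D : ℝ) ^ (2 : ℝ) := by
        rw [Ph, Real.rpow_two]
        field_simp
    _ ≤ C * (D : ℝ) ^ (1 / 4 : ℝ) / (D : ℝ) ^ (2 : ℝ) :=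
        div_le_div_of_nonneg_right h (by positivity)
    _ = _ := by
        rw [mul_div_assoc, ← Real.rpow_sub hD0, one_div ((D : ℝ) ^ _), ← Real.rpow_neg hD0.le]
        norm_num

theorem sum_Wn_big :
    ∃ C : ℝ, ∀ (γ : ℝ) (A : ℤ) (B q r : ℕ) (η : ℝ),
      0 < B → 0 < q → 0 < r → 1 ≤ η →
      ∑ n ∈ nWin γ η q r, Wn A B q r n
        ≤ C * phiBig (Yof η) (uu q r * vv q r) *
            (η + Real.log (Real.log η + 3) *
              ∑ D ∈ (dset B q r).filter (fun D : ℕ => 2 * η < (D : ℝ)),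
                EVi γ A B η D q r / D.totient) := by
  have hY0 : (10 : ℝ) ≤ Y0 := by
    have h := Real.add_one_le_exp ((10 : ℝ) ^ 8)
    have : (10 : ℝ) ≤ 10 ^ 8 + 1 := by norm_num
    unfold Y0
    linarith
  obtain ⟨Cb, hCb⟩ := mertens_band (2 + 2 * Real.log Y0 / Real.log 2) (by
    have h1 : 0 < Real.log 2 := Real.log_pos one_lt_two
    have h2 : 0 ≤ Real.log Y0 := Real.log_nonneg (by linarith)
    have : 0 ≤ 2 * Real.log Y0 / Real.log 2 := by positivity
    linarith)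
  obtain ⟨Cu, hCu⟩ := mertens_upto
  have hCb1 : 1 ≤ Cb := by
    have := hCb 2 le_rfl ∅ (by simp)
    simpa using this
  have hCu0 : 0 < Cu := by
    have h := hCu 2 le_rfl ∅ (by simp)
    rw [Finset.prod_empty] at h
    by_contra hc
    have := mul_nonpos_of_nonpos_of_nonneg (not_lt.1 hc) (Real.log_nonneg (one_le_two (α := ℝ)))
    linarith
  obtain ⟨Ct, hCt0, hCt⟩ := inv_mul_totient_le
  have hs74 := Real.summable_one_div_nat_rpow.2 (show (1 : ℝ) < 7 / 4 by norm_num)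
  have hs54 := Real.summable_one_div_nat_rpow.2 (show (1 : ℝ) < 5 / 4 by norm_num)
  set T74 : ℝ := ∑' n : ℕ, 1 / (n : ℝ) ^ (7 / 4 : ℝ)
  set T54 : ℝ := ∑' n : ℕ, 1 / (n : ℝ) ^ (5 / 4 : ℝ)
  have hT74 : 0 ≤ T74 := tsum_nonneg fun n => by positivity
  have hT54 : 0 ≤ T54 := tsum_nonneg fun n => by positivity
  refine ⟨Cb * (2 * Ct * T74 + 48 * Cu + 12 * Cu * Ct * T54 + 2 * Cu + 1),
    fun γ A B q r η hB hq hr hη => ?_⟩
  have hη0 : 0 < η := by linarith
  set L := Real.log η with hL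
  have hL0 : 0 ≤ L := Real.log_nonneg hη
  set z : ℝ := L / 10 + 2 with hz
  have hz2 : 2 ≤ z := by linarith
  set Y := Yof η
  set Ps := uvPrimes B q r
  set sz := Ps.filter (fun p : ℕ => (p : ℝ) ≤ z)
  set sm := Ps.filter (fun p : ℕ => z < (p : ℝ) ∧ (p : ℝ) ≤ Y)
  set sY := Ps.filter (fun p : ℕ => z < (p : ℝ) ∧ Y < (p : ℝ))
  set FB := phiBig Y (uu q r * vv q r)
  have hFB : 0 ≤ FB := Finset.prod_nonneg fun p hp => by
    linarith [ratio_nonneg (Nat.prime_of_mem_primeFactors (Finset.mem_filter.1 hp).1).two_le]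
  set Rz := ∏ p ∈ sz, (p : ℝ) / ((p : ℝ) - 1)
  have hPs2 := uvPrimes_two_le B q r
  have hsz2 : ∀ p ∈ sz, 2 ≤ p := fun p hp => hPs2 p (Finset.mem_filter.1 hp).1
  have hPsprime : ∀ p ∈ Ps, p.Prime := fun p hp =>
    Nat.prime_of_mem_primeFactors (Finset.mem_filter.1 hp).1
  have hlogz0 : 0 ≤ Real.log z := Real.log_nonneg (by linarith)
  have hRz : Rz ≤ Cu * Real.log z :=
    hCu z hz2 sz fun p hp => ⟨hPsprime p (Finset.mem_filter.1 hp).1, (Finset.mem_filter.1 hp).2⟩
  have hRz0 : 0 ≤ Rz := Finset.prod_nonneg fun p hp => by linarith [ratio_nonneg (hsz2 p hp)]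
  have hz10 : z ≤ 3 * η ^ (1 / 10 : ℝ) := by
    have h1 := Real.log_le_rpow_div hη0.le (show (0 : ℝ) < 1 / 10 by norm_num)
    rw [← hL] at h1
    have h2 : (1 : ℝ) ≤ η ^ (1 / 10 : ℝ) := Real.one_le_rpow hη (by norm_num)
    linarith
  have hlogz : Real.log z ≤ z := by linarith [Real.log_le_sub_one_of_pos (show 0 < z by linarith)]
  -- pointwise splitting
  have hsplit : ∀ x : ℤ, primeFactor Ps x ≤ FB * Cb * primeFactor sz x := by
    intro x
    have hu : Ps = sz ∪ (sm ∪ sY) := by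
      ext p
      simp only [sz, sm, sY, Finset.mem_union, Finset.mem_filter]
      constructor
      · intro hp
        by_cases h1 : (p : ℝ) ≤ z
        · exact Or.inl ⟨hp, h1⟩
        · by_cases h2 : (p : ℝ) ≤ Y
          · exact Or.inr (Or.inl ⟨hp, not_le.1 h1, h2⟩)
          · exact Or.inr (Or.inr ⟨hp, not_le.1 h1, not_le.1 h2⟩)
      · rintro (h | h | h) <;> exact h.1
    have hd1 : Disjoint sz (sm ∪ sY) := by
      rw [Finset.disjoint_left]
      intro p hp hp2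
      simp only [sz, sm, sY, Finset.mem_union, Finset.mem_filter] at hp hp2
      rcases hp2 with h | h <;> linarith [hp.2, h.2.1]
    have hd2 : Disjoint sm sY := by
      rw [Finset.disjoint_left]
      intro p hp hp2
      simp only [sm, sY, Finset.mem_filter] at hp hp2
      linarith [hp.2.2, hp2.2.2]
    have hm2 : ∀ p ∈ sm, 2 ≤ p := fun p hp => hPs2 p (Finset.mem_filter.1 hp).1
    have hY2 : ∀ p ∈ sY, 2 ≤ p := fun p hp => hPs2 p (Finset.mem_filter.1 hp).1
    have hm : primeFactor sm x ≤ Cb := by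
      refine (primeFactor_le _ _ hm2).trans (hCb z hz2 sm fun p hp => ?_)
      obtain ⟨h1, h2, h3⟩ := Finset.mem_filter.1 hp
      refine ⟨hPsprime p h1, h2, h3.trans ?_⟩
      have hl2 : 0 < Real.log 2 := Real.log_pos one_lt_two
      have hzk : Y0 ^ 2 * z ^ 2 ≤ z ^ (2 + 2 * Real.log Y0 / Real.log 2) := by
        rw [Real.rpow_add (by linarith), Real.rpow_two, mul_comm]
        refine mul_le_mul_of_nonneg_left ?_ (by positivity)
        calc Y0 ^ 2 = Real.exp (2 * Real.log Y0) := by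
              rw [show (2 : ℝ) * Real.log Y0 = ((2 : ℕ) : ℝ) * Real.log Y0 by norm_num,
                Real.exp_nat_mul, Real.exp_log (by linarith)]
          _ = (2 : ℝ) ^ (2 * Real.log Y0 / Real.log 2) := by
              rw [Real.rpow_def_of_pos two_pos]
              congr 1
              field_simp
          _ ≤ _ := Real.rpow_le_rpow two_pos.le hz2 (by
              have : 0 ≤ Real.log Y0 := Real.log_nonneg (by linarith)
              positivity)
      refine le_trans ?_ hzk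
      show (Real.log η + Y0) ^ 2 ≤ _
      rw [← mul_pow, ← hL]
      exact pow_le_pow_left₀ (by linarith) (by rw [hz]; nlinarith) 2
    have hY : primeFactor sY x ≤ FB := by
      refine (primeFactor_le _ _ hY2).trans ?_
      refine Finset.prod_le_prod_of_subset_of_one_le (fun p hp => ?_)
        (fun p hp => by linarith [ratio_nonneg (hY2 p hp)])
        (fun p hp _ => ratio_nonneg (Nat.prime_of_mem_primeFactors (Finset.mem_filter.1 hp).1).two_le)
      obtain ⟨h1, _, h3⟩ := Finset.mem_filter.1 hp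
      exact Finset.mem_filter.2 ⟨(Finset.mem_filter.1 h1).1, h3⟩
    have hprod : primeFactor Ps x = primeFactor sz x * (primeFactor sm x * primeFactor sY x) := by
      rw [hu]
      unfold primeFactor
      rw [Finset.prod_union hd1, Finset.prod_union hd2]
    rw [hprod]
    calc primeFactor sz x * (primeFactor sm x * primeFactor sY x)
        ≤ primeFactor sz x * (Cb * FB) :=
          mul_le_mul_of_nonneg_left (mul_le_mul hm hY (primeFactor_nonneg _ _ hY2) (by linarith))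
            (primeFactor_nonneg _ _ hsz2)
      _ = _ := by ring
  set J : ℕ → ℝ := fun D => ∑ n ∈ (nWin γ η q r).filter
    (fun n : ℤ => (D : ℤ) ∣ D0 A B q r n ∧ D0 A B q r n ≠ 0), primeFactor sz (D0 A B q r n)
  have hmain : ∑ n ∈ nWin γ η q r, Wn A B q r n
      ≤ FB * Cb * ∑ D ∈ dset B q r, J D / (D.totient : ℝ) := by
    rw [Finset.mul_sum, Finset.sum_congr rfl (fun n _ => Wn_eq A B q r n), Finset.sum_comm]
    refine Finset.sum_le_sum fun D _ => ?_
    rw [← Finset.sum_div, ← mul_div_assoc]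
    refine div_le_div_of_nonneg_right ?_ (Nat.cast_nonneg _)
    rw [← Finset.sum_filter, Finset.mul_sum]
    exact Finset.sum_le_sum fun n _ => hsplit _
  have hdset : ∀ D ∈ dset B q r,
      0 < D ∧ Nat.Coprime D B ∧ ∀ p ∈ sz, p.Prime ∧ ¬ p ∣ B ∧ ¬ p ∣ D := by
    intro D hD
    obtain ⟨h1, _, h3⟩ := Finset.mem_filter.1 hD
    refine ⟨Nat.pos_of_mem_divisors h1,
      Nat.Coprime.coprime_dvd_right (Nat.dvd_mul_left B _) h3, fun p hp => ?_⟩
    obtain ⟨h4, h5⟩ := Finset.mem_filter.1 (Finset.mem_filter.1 hp).1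
    have hpp := Nat.prime_of_mem_primeFactors h4
    refine ⟨hpp, h5, fun hpD => ?_⟩
    have h6 : p ∣ Nat.gcd D (uu q r * vv q r * B) :=
      Nat.dvd_gcd hpD ((Nat.dvd_of_mem_primeFactors h4).trans (Nat.dvd_mul_right _ B))
    rw [h3] at h6
    exact hpp.one_lt.ne' (Nat.dvd_one.1 h6)
  have hcount : ∀ D ∈ dset B q r, J D ≤ Rz *
      (((nWin γ η q r).filter
        (fun n : ℤ => (D : ℤ) ∣ D0 A B q r n ∧ D0 A B q r n ≠ 0)).card : ℝ) := by
    intro D _
    rw [mul_comm, ← nsmul_eq_mul, ← Finset.sum_const]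
    exact Finset.sum_le_sum fun n _ => primeFactor_le _ _ hsz2
  have hclass : ∀ D ∈ dset B q r, (((nWin γ η q r).filter
      (fun n : ℤ => (D : ℤ) ∣ D0 A B q r n ∧ D0 A B q r n ≠ 0)).card : ℝ) ≤ 2 * η / D + 1 := by
    intro D hD
    obtain ⟨hD0, hDB, _⟩ := hdset D hD
    have h1 := card_class γ η q r B (A * hh q r) D hη0 hD0 (Nat.isCoprime_iff_coprime.2 hDB.symm)
    have h2 : (((nWin γ η q r).filter
      (fun n : ℤ => (D : ℤ) ∣ D0 A B q r n ∧ D0 A B q r n ≠ 0)).card : ℝ) ≤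
      (((nWin γ η q r).filter (fun n : ℤ => (D : ℤ) ∣ (B : ℤ) * n + A * hh q r)).card : ℝ) := by
      refine Nat.cast_le.2 (Finset.card_le_card fun n hn => ?_)
      obtain ⟨h3, h4, _⟩ := Finset.mem_filter.1 hn
      exact Finset.mem_filter.2 ⟨h3, h4⟩
    linarith [(abs_le.1 h1).2]
  set big := (dset B q r).filter (fun D : ℕ => 2 * η < (D : ℝ))
  set S := ∑ D ∈ big, EVi γ A B η D q r / (D.totient : ℝ)
  have hS0 : 0 ≤ S := Finset.sum_nonneg fun D _ => div_nonneg (EVi_nonneg ..) (Nat.cast_nonneg _)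
  have hlast : ∑ D ∈ big, J D / (D.totient : ℝ) ≤ 2 * Cu * Real.log (L + 3) * S := by
    rw [Finset.mul_sum]
    refine Finset.sum_le_sum fun D hD => ?_
    obtain ⟨hD1, hD2⟩ := Finset.mem_filter.1 hD
    rw [← mul_div_assoc]
    refine div_le_div_of_nonneg_right ?_ (Nat.cast_nonneg _)
    have hl3 : Real.log z ≤ Real.log (L + 3) := Real.log_le_log (by linarith) (by linarith)
    have hCl : 0 ≤ Cu * Real.log (L + 3) := mul_nonneg hCu0.le (by linarith)
    refine (hcount D hD1).trans ?_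
    rcases Finset.eq_empty_or_nonempty ((nWin γ η q r).filter
        (fun n : ℤ => (D : ℤ) ∣ D0 A B q r n ∧ D0 A B q r n ≠ 0)) with h | ⟨n, hn⟩
    · rw [h]
      simp only [Finset.card_empty, Nat.cast_zero, mul_zero]
      exact mul_nonneg (by linarith) (EVi_nonneg ..)
    · obtain ⟨h1, h2, h3⟩ := Finset.mem_filter.1 hn
      have hev : EV γ A B η D q r := ⟨n, (mem_nWin γ η q r n).1 h1, h2, h3⟩
      have hc2 := hclass D hD1
      have h21 : 2 * η / (D : ℝ) ≤ 1 := by rw [div_le_one (by linarith)]; linarith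
      simp only [EVi, if_pos hev, mul_one]
      calc Rz * _ ≤ (Cu * Real.log (L + 3)) * 2 :=
            mul_le_mul (hRz.trans (mul_le_mul_of_nonneg_left hl3 hCu0.le)) (by linarith)
              (Nat.cast_nonneg _) hCl
        _ = _ := by ring
  have hmid : ∀ D ∈ dset B q r, Real.sqrt η < (D : ℝ) → (D : ℝ) ≤ 2 * η →
      J D / (D.totient : ℝ) ≤ (12 * Cu * Ct * η) * (1 / (D : ℝ) ^ (5 / 4 : ℝ)) := by
    intro D hD h1 h2
    obtain ⟨hD0, _, _⟩ := hdset D hD
    have hD0' : (0 : ℝ) < D := by exact_mod_cast hD0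
    have hφ : (0 : ℝ) < D.totient := by exact_mod_cast Nat.totient_pos.2 hD0
    have h41 : (((nWin γ η q r).filter
        (fun n : ℤ => (D : ℤ) ∣ D0 A B q r n ∧ D0 A B q r n ≠ 0)).card : ℝ) ≤ 4 * η / D := by
      have h5 : 1 ≤ 2 * η / (D : ℝ) := by rw [le_div_iff₀ hD0']; linarith
      have h6 : 4 * η / (D : ℝ) = 2 * η / D + 2 * η / D := by ring
      linarith [hclass D hD]
    have hR3 : Rz ≤ Cu * (3 * η ^ (1 / 10 : ℝ)) :=
      hRz.trans (mul_le_mul_of_nonneg_left (hlogz.trans hz10) hCu0.le)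
    have hJ : J D ≤ Cu * (3 * η ^ (1 / 10 : ℝ)) * (4 * η / D) :=
      (hcount D hD).trans (mul_le_mul hR3 h41 (Nat.cast_nonneg _) (by positivity))
    calc J D / (D.totient : ℝ)
        ≤ Cu * (3 * η ^ (1 / 10 : ℝ)) * (4 * η / D) / (D.totient : ℝ) :=
          div_le_div_of_nonneg_right hJ hφ.le
      _ = 12 * Cu * η * η ^ (1 / 10 : ℝ) * (1 / ((D : ℝ) * D.totient)) := by
          field_simp
          ring
      _ ≤ 12 * Cu * η * η ^ (1 / 10 : ℝ) * (Ct * (1 / (D : ℝ) ^ (7 / 4 : ℝ))) :=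
          mul_le_mul_of_nonneg_left (hCt D hD0) (by positivity)
      _ = 12 * Cu * Ct * η * (1 / (D : ℝ) ^ (5 / 4 : ℝ)) *
            (η ^ (1 / 10 : ℝ) / (D : ℝ) ^ (1 / 2 : ℝ)) := by
          rw [show (7 / 4 : ℝ) = 5 / 4 + 1 / 2 by norm_num, Real.rpow_add hD0']
          field_simp
      _ ≤ _ := by
          refine mul_le_of_le_one_right (by positivity) ?_
          rw [div_le_one (by positivity)]
          calc η ^ (1 / 10 : ℝ) ≤ η ^ (1 / 4 : ℝ) :=
                Real.rpow_le_rpow_of_exponent_le hη (by norm_num)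
            _ = (Real.sqrt η) ^ (1 / 2 : ℝ) := by
                rw [Real.sqrt_eq_rpow, ← Real.rpow_mul hη0.le]
                norm_num
            _ ≤ _ := Real.rpow_le_rpow (Real.sqrt_nonneg η) h1.le (by norm_num)
  have hsmall : ∀ D ∈ dset B q r, (D : ℝ) ≤ Real.sqrt η →
      J D / (D.totient : ℝ)
        ≤ 2 * η * Ct * (1 / (D : ℝ) ^ (7 / 4 : ℝ)) + 24 * Cu * η ^ (1 / 5 : ℝ) := by
    intro D hD h1
    obtain ⟨hD0, hDB, hDs⟩ := hdset D hD
    have hφ : (1 : ℝ) ≤ D.totient := by exact_mod_cast Nat.totient_pos.2 hD0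
    have hJ : J D ≤ 2 * η / D + 2 ^ sz.card * Rz := by
      refine le_trans ?_ (sieve_class γ η A B q r D sz hη0 hD0 hDB hDs)
      refine Finset.sum_le_sum_of_subset_of_nonneg (fun n hn => ?_)
        (fun n _ _ => primeFactor_nonneg _ _ hsz2)
      obtain ⟨h3, h4, _⟩ := Finset.mem_filter.1 hn
      exact Finset.mem_filter.2 ⟨h3, h4⟩
    have hcard : (sz.card : ℝ) ≤ z + 1 := by
      have h2 : sz ⊆ Finset.range (⌊z⌋₊ + 1) := fun p hp =>
        Finset.mem_range.2 (Nat.lt_succ_of_le (Nat.le_floor (Finset.mem_filter.1 hp).2))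
      have h3 := Finset.card_le_card h2
      rw [Finset.card_range] at h3
      calc (sz.card : ℝ) ≤ (⌊z⌋₊ : ℝ) + 1 := by exact_mod_cast h3
        _ ≤ z + 1 := by linarith [Nat.floor_le (show 0 ≤ z by linarith)]
    have hpow : (2 : ℝ) ^ sz.card ≤ 8 * η ^ (1 / 10 : ℝ) := by
      rw [← Real.rpow_natCast]
      refine (Real.rpow_le_rpow_of_exponent_le one_le_two hcard).trans ?_
      rw [show z + 1 = L / 10 + 3 by rw [hz]; ring, Real.rpow_add two_pos,
        Real.rpow_def_of_pos hη0, Real.rpow_def_of_pos two_pos, ← hL, mul_comm]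
      have : (2 : ℝ) ^ (3 : ℝ) = 8 := by norm_num
      rw [this]
      refine mul_le_mul_of_nonneg_left (Real.exp_le_exp.2 ?_) (by norm_num)
      have := Real.log_two_lt_d9
      nlinarith
    have hE : 2 ^ sz.card * Rz ≤ 24 * Cu * η ^ (1 / 5 : ℝ) := by
      calc 2 ^ sz.card * Rz ≤ 8 * η ^ (1 / 10 : ℝ) * (Cu * (3 * η ^ (1 / 10 : ℝ))) :=
            mul_le_mul hpow (hRz.trans (mul_le_mul_of_nonneg_left (hlogz.trans hz10) hCu0.le))
              hRz0 (by positivity)
        _ = 24 * Cu * (η ^ (1 / 10 : ℝ) * η ^ (1 / 10 : ℝ)) := by ring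
        _ = _ := by
            rw [← Real.rpow_add hη0]
            norm_num
    calc J D / (D.totient : ℝ) ≤ (2 * η / D + 2 ^ sz.card * Rz) / (D.totient : ℝ) :=
          div_le_div_of_nonneg_right hJ (by linarith)
      _ = 2 * η * (1 / ((D : ℝ) * D.totient)) + 2 ^ sz.card * Rz / (D.totient : ℝ) := by ring
      _ ≤ _ := by
          have h5 := mul_le_mul_of_nonneg_left (hCt D hD0) (show 0 ≤ 2 * η by linarith)
          have h6 := (div_le_self (by positivity : 0 ≤ 2 ^ sz.card * Rz) hφ).trans hE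
          linarith
  have htot : ∑ D ∈ dset B q r, J D / (D.totient : ℝ)
      ≤ (2 * Ct * T74 + 48 * Cu + 12 * Cu * Ct * T54) * η + 2 * Cu * Real.log (L + 3) * S := by
    rw [← Finset.sum_filter_add_sum_filter_not (dset B q r) (fun D : ℕ => 2 * η < (D : ℝ)),
      ← Finset.sum_filter_add_sum_filter_not
        ((dset B q r).filter (fun D : ℕ => ¬ 2 * η < (D : ℝ)))
        (fun D : ℕ => (D : ℝ) ≤ Real.sqrt η)]
    have hA : ∑ D ∈ ((dset B q r).filter (fun D : ℕ => ¬ 2 * η < (D : ℝ))).filter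
        (fun D : ℕ => (D : ℝ) ≤ Real.sqrt η), J D / (D.totient : ℝ)
        ≤ 2 * η * Ct * T74 + 48 * Cu * η := by
      set s := ((dset B q r).filter (fun D : ℕ => ¬ 2 * η < (D : ℝ))).filter
        (fun D : ℕ => (D : ℝ) ≤ Real.sqrt η) with hs
      have hmem : ∀ D ∈ s, D ∈ dset B q r ∧ (D : ℝ) ≤ Real.sqrt η := fun D hD =>
        ⟨(Finset.mem_filter.1 (Finset.mem_filter.1 hD).1).1, (Finset.mem_filter.1 hD).2⟩
      refine (Finset.sum_le_sum fun D hD => hsmall D (hmem D hD).1 (hmem D hD).2).trans ?_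
      rw [Finset.sum_add_distrib, ← Finset.mul_sum, Finset.sum_const, nsmul_eq_mul]
      refine add_le_add (mul_le_mul_of_nonneg_left
        (hs74.sum_le_tsum _ fun n _ => by positivity) (by positivity)) ?_
      have hc : (s.card : ℝ) ≤ Real.sqrt η + 1 := by
        have h2 : s ⊆ Finset.range (⌊Real.sqrt η⌋₊ + 1) := fun p hp =>
          Finset.mem_range.2 (Nat.lt_succ_of_le (Nat.le_floor (hmem p hp).2))
        have h3 := Finset.card_le_card h2
        rw [Finset.card_range] at h3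
        calc (s.card : ℝ) ≤ (⌊Real.sqrt η⌋₊ : ℝ) + 1 := by exact_mod_cast h3
          _ ≤ _ := by linarith [Nat.floor_le (Real.sqrt_nonneg η)]
      calc (s.card : ℝ) * (24 * Cu * η ^ (1 / 5 : ℝ))
          ≤ (Real.sqrt η + 1) * (24 * Cu * η ^ (1 / 5 : ℝ)) :=
            mul_le_mul_of_nonneg_right hc (by positivity)
        _ ≤ (2 * η ^ (4 / 5 : ℝ)) * (24 * Cu * η ^ (1 / 5 : ℝ)) := by
            refine mul_le_mul_of_nonneg_right ?_ (by positivity)
            have h4 : Real.sqrt η ≤ η ^ (4 / 5 : ℝ) := by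
              rw [Real.sqrt_eq_rpow]
              exact Real.rpow_le_rpow_of_exponent_le hη (by norm_num)
            have h5 : (1 : ℝ) ≤ η ^ (4 / 5 : ℝ) := Real.one_le_rpow hη (by norm_num)
            linarith
        _ = 48 * Cu * (η ^ (4 / 5 : ℝ) * η ^ (1 / 5 : ℝ)) := by ring
        _ = _ := by
            rw [← Real.rpow_add hη0]
            norm_num
    have hB' : ∑ D ∈ ((dset B q r).filter (fun D : ℕ => ¬ 2 * η < (D : ℝ))).filter
        (fun D : ℕ => ¬ (D : ℝ) ≤ Real.sqrt η), J D / (D.totient : ℝ)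
        ≤ 12 * Cu * Ct * η * T54 := by
      refine (Finset.sum_le_sum fun D hD => ?_).trans ?_
        (b := ∑ D ∈ ((dset B q r).filter (fun D : ℕ => ¬ 2 * η < (D : ℝ))).filter
        (fun D : ℕ => ¬ (D : ℝ) ≤ Real.sqrt η), 12 * Cu * Ct * η * (1 / (D : ℝ) ^ (5 / 4 : ℝ)))
      · obtain ⟨h1, h2⟩ := Finset.mem_filter.1 hD
        obtain ⟨h3, h4⟩ := Finset.mem_filter.1 h1
        exact hmid D h3 (not_le.1 h2) (not_lt.1 h4)
      · rw [← Finset.mul_sum]
        exact mul_le_mul_of_nonneg_left (hs54.sum_le_tsum _ fun n _ => by positivity) (by positivity)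
    linarith
  have hlS : 0 ≤ Real.log (L + 3) * S := mul_nonneg (Real.log_nonneg (by linarith)) hS0
  refine hmain.trans ((mul_le_mul_of_nonneg_left htot (by positivity)).trans ?_)
  have ha : 0 ≤ 2 * Ct * T74 + 48 * Cu + 12 * Cu * Ct * T54 := by positivity
  calc FB * Cb * ((2 * Ct * T74 + 48 * Cu + 12 * Cu * Ct * T54) * η
        + 2 * Cu * Real.log (L + 3) * S)
      ≤ FB * Cb * ((2 * Ct * T74 + 48 * Cu + 12 * Cu * Ct * T54 + 2 * Cu + 1)
          * (η + Real.log (L + 3) * S)) := by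
        refine mul_le_mul_of_nonneg_left ?_ (by positivity)
        nlinarith [mul_nonneg ha hlS, mul_nonneg hCu0.le hη0.le, mul_nonneg hCu0.le hlS]
    _ = _ := by ring

end Vale.Agent.P028
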