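import Vale.Agent.P028.Overlap
import Vale.Agent.P028.NSum
import Vale.Agent.P028.Density

/-! P028 module CELLBASE: the normalised overlap kernel and elementary bounds inside a cell. -/

namespace Vale.Agent.P028

open Finset

/-- `(∑ W) / η`, the overlap normalised by `μ q μ r` (zero on the diagonal). -/
noncomputable def kern (γ : ℝ) (ψ : ℕ → ℝ) (A : ℤ) (B : ℕ) (q r : ℕ) : ℝ :=
  if q = r then 0 else (∑ n ∈ nWin γ (etaP ψ q r) q r, Wn A B q r n) / etaP ψ q r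

/-- The kernel restricted to `lo ≤ η < hi`. -/
noncomputable def kernBand (γ : ℝ) (ψ : ℕ → ℝ) (A : ℤ) (B : ℕ) (lo hi : ℝ) (q r : ℕ) : ℝ :=
  if lo ≤ etaP ψ q r ∧ etaP ψ q r < hi then kern γ ψ A B q r else 0

theorem abs_D0_le (γ : ℝ) (A : ℤ) (B q r : ℕ) (n : ℤ) :
    |(D0 A B q r n : ℝ)|
      ≤ (B : ℝ) * |(n : ℝ) + γ * (hh q r : ℝ)|
        + |(B : ℝ) * γ - A| * ((uu q r : ℝ) + vv q r) := by
  have h1 : (D0 A B q r n : ℝ)
      = (B : ℝ) * ((n : ℝ) + γ * (hh q r : ℝ)) - ((B : ℝ) * γ - A) * (hh q r : ℝ) := by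
    simp only [D0]
    push_cast
    ring
  have h2 : |(hh q r : ℝ)| ≤ (uu q r : ℝ) + vv q r := by
    have hu : (0 : ℝ) ≤ (uu q r : ℝ) := Nat.cast_nonneg _
    have hv : (0 : ℝ) ≤ (vv q r : ℝ) := Nat.cast_nonneg _
    simp only [hh]
    push_cast
    exact abs_le.2 ⟨by linarith, by linarith⟩
  rw [h1]
  refine (abs_sub _ _).trans ?_
  rw [abs_mul, abs_mul, abs_of_nonneg (Nat.cast_nonneg B : (0 : ℝ) ≤ B)]
  gcongr

theorem Wn_nonneg (A : ℤ) (B q r : ℕ) (n : ℤ) : 0 ≤ Wn A B q r n := by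
  unfold Wn
  split_ifs
  · exact le_rfl
  · refine mul_nonneg (Finset.prod_nonneg fun p hp => ?_)
      (Finset.sum_nonneg fun D _ => by positivity)
    split_ifs
    · exact le_rfl
    · exact le_trans zero_le_one
        (ratio_nonneg (Nat.prime_of_mem_primeFactors (Finset.mem_filter.1 hp).1).two_le)

theorem kern_nonneg (γ : ℝ) (ψ : ℕ → ℝ) (A : ℤ) (B q r : ℕ) (hψ : ∀ n, 0 ≤ ψ n) :
    0 ≤ kern γ ψ A B q r := by
  unfold kern
  split_ifs
  · exact le_rfl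
  · refine div_nonneg (Finset.sum_nonneg fun n _ => Wn_nonneg A B q r n) ?_
    unfold etaP
    have := hψ q
    have := hψ r
    positivity

theorem etaP_bounds (K t : ℝ) (S : Finset ℕ) (ψ : ℕ → ℝ) (hS : IsCell zeta0 K t S ψ)
    (q r : ℕ) (hq : q ∈ S) (hr : r ∈ S) :
    0 < etaP ψ q r ∧ (uu q r : ℝ) + vv q r ≤ etaP ψ q r * Real.exp ((1 + zeta0) * t) ∧
      etaP ψ q r * Real.exp t ≤ (uu q r : ℝ) + vv q r := by
  obtain ⟨hq0, hql, hqu, _⟩ := hS q hq
  obtain ⟨hr0, hrl, hru, _⟩ := hS r hr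
  have hu : (0 : ℝ) < uu q r := by exact_mod_cast uu_pos q r hq0
  have hv : (0 : ℝ) < vv q r := by exact_mod_cast vv_pos q r hr0
  have hψq : 0 < ψ q := lt_of_lt_of_le (Real.exp_pos _) hql
  have hψr : 0 < ψ r := lt_of_lt_of_le (Real.exp_pos _) hrl
  have e1 : Real.exp (-(1 + zeta0) * t) * Real.exp ((1 + zeta0) * t) = 1 := by
    rw [← Real.exp_add, ← Real.exp_zero]
    ring_nf
  have e2 : Real.exp (-t) * Real.exp t = 1 := by
    rw [← Real.exp_add, ← Real.exp_zero]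
    ring_nf
  refine ⟨by unfold etaP; positivity, ?_, ?_⟩
  · calc (uu q r : ℝ) + vv q r
        = ((vv q r : ℝ) * Real.exp (-(1 + zeta0) * t) + (uu q r : ℝ) * Real.exp (-(1 + zeta0) * t))
            * Real.exp ((1 + zeta0) * t) := by rw [← add_mul, mul_assoc, e1]; ring
      _ ≤ etaP ψ q r * Real.exp ((1 + zeta0) * t) := by unfold etaP; gcongr
  · calc etaP ψ q r * Real.exp t
        ≤ ((vv q r : ℝ) * Real.exp (-t) + (uu q r : ℝ) * Real.exp (-t)) * Real.exp t := by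
          unfold etaP; gcongr
      _ = (uu q r : ℝ) + vv q r := by rw [← add_mul, mul_assoc, e2]; ring

end Vale.Agent.P028
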