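import Vale.Agent.P028.NSum
import Vale.Agent.P028.Schur
import Vale.Agent.P028.Bohr
import Vale.Agent.P028.BWindow

/-! P028 module DENSITY, local part: the averages entering the Schur step for the events `E_D`,
and the dichotomy for resonant pairs (BLUEPRINT 6). The exponent `s` is `1/100`. -/

namespace Vale.Agent.P028

open Finset

open Classical in
/-- Indicator. -/
noncomputable def bb (p : Prop) : ℝ := if p then 1 else 0

lemma bb_nonneg (p : Prop) : 0 ≤ bb p := by unfold bb; split_ifs <;> norm_num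

lemma bb_le_one (p : Prop) : bb p ≤ 1 := by unfold bb; split_ifs <;> norm_num

lemma bb_sq (p : Prop) : bb p ^ 2 = bb p := by unfold bb; split_ifs <;> norm_num

lemma sum_bb (s : Finset ℕ) (P : ℕ → Prop) [DecidablePred P] :
    ∑ a ∈ s, bb (P a) = ((s.filter P).card : ℝ) := by
  rw [← Finset.sum_boole]
  refine Finset.sum_congr rfl fun a _ => ?_
  unfold bb
  split_ifs <;> rfl

/-- The data of the argument: `beta`, the scale `T`, the cell parameter `t`. -/
def ResAt (Cb β T : ℝ) (x B1 a : ℕ) : Prop :=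
  1 ≤ B1 ∧ (B1 : ℝ) ≤ Cb * T ^ (1 / 400 : ℝ) ∧
    distInt (β * x * B1) ≤ Cb * T ^ (1 / 400 : ℝ) * (1 / T) / a

/-- Resonance of the cofactor `d` for a given value `v`. -/
def RV (β T : ℝ) (d v : ℕ) : Prop :=
  ∃ B' : ℕ, 1 ≤ B' ∧ (B' : ℝ) ≤ T ^ (3 / 50 : ℝ) ∧
    distInt (β * d * B') ≤ T ^ (3 / 25 - 1 : ℝ) * d / v

lemma distInt_le_abs (x : ℝ) (m : ℤ) : distInt x ≤ |x - m| := round_le x m

lemma card_dyInt_le {Z : ℝ} (hZ : 0 ≤ Z) : ((dyInt Z).card : ℝ) ≤ Z := by
  refine le_trans ?_ (Nat.floor_le hZ)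
  have h := Finset.card_le_card (Finset.filter_subset (fun a : ℕ => Z / 2 < (a : ℝ))
    (Finset.Icc 1 ⌊Z⌋₊))
  rw [Nat.card_Icc, Nat.add_sub_cancel] at h
  exact_mod_cast h

/-- Averaging a bound over `a` in the dyadic range. -/
lemma side_swap (N : ℕ) (Z : ℝ) (F : ℕ → ℕ → ℝ) (K : ℝ) (hZ : 0 < Z) (hK : 0 ≤ K)
    (h : ∀ a ∈ dyInt Z, ∑ b ∈ N.divisors, rhoN N b * F a b ≤ K) :
    ∑ b ∈ N.divisors, rhoN N b * avgA Z (fun a => F a b) ≤ K := by
  have e : ∑ b ∈ N.divisors, rhoN N b * avgA Z (fun a => F a b)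
      = 1 / Z * ∑ a ∈ dyInt Z, ∑ b ∈ N.divisors, rhoN N b * F a b := by
    unfold avgA
    simp only [Finset.mul_sum]
    rw [Finset.sum_comm]
    exact Finset.sum_congr rfl fun b _ => Finset.sum_congr rfl fun a _ => by ring
  rw [e]
  calc 1 / Z * ∑ a ∈ dyInt Z, ∑ b ∈ N.divisors, rhoN N b * F a b
      ≤ 1 / Z * ∑ _a ∈ dyInt Z, K :=
        mul_le_mul_of_nonneg_left (Finset.sum_le_sum h) (by positivity)
    _ = 1 / Z * ((dyInt Z).card * K) := by rw [Finset.sum_const, nsmul_eq_mul]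
    _ ≤ 1 / Z * (Z * K) := mul_le_mul_of_nonneg_left
        (mul_le_mul_of_nonneg_right (card_dyInt_le hZ.le) hK) (by positivity)
    _ = K := by field_simp

lemma side_avg (N : ℕ) (Z : ℝ) (F : ℕ → ℕ → ℝ) (K Cρ : ℝ) (hK : 0 ≤ K)
    (hρ : ∑ b ∈ N.divisors, rhoN N b ≤ Cρ) (h : ∀ b, avgA Z (fun a => F a b) ≤ K) :
    ∑ b ∈ N.divisors, rhoN N b * avgA Z (fun a => F a b) ≤ Cρ * K := by
  refine (Finset.sum_le_sum fun b _ =>
    mul_le_mul_of_nonneg_left (h b) (rhoN_nonneg N b)).trans ?_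
  rw [← Finset.sum_mul]
  exact mul_le_mul_of_nonneg_right hρ hK

/-- Class A: `a'` varies in a non-resonant Bohr set. -/
lemma avg_bohr :
    ∃ Cb : ℝ, 1 ≤ Cb ∧ ∀ (β T c0 Z : ℝ) (x : ℕ), 1 ≤ T → 0 < Z →
      avgA Z (fun a => bb (T ^ (1 / 100 : ℝ) ≤ (a : ℝ) ∧ distInt (β * x * a + c0) < 1 / T ∧
          ¬ ∃ B1, ResAt Cb β T x B1 a))
        ≤ Cb * T ^ (-(1 / 400) : ℝ) := by
  classical
  obtain ⟨C, hC⟩ := bohr_int (1 / 100) (by norm_num) (by norm_num)
  refine ⟨max C 1, le_max_right _ _, fun β T c0 Z x hT hZ => ?_⟩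
  unfold avgA
  rw [sum_bb]
  set s := (dyInt Z).filter (fun a : ℕ => T ^ (1 / 100 : ℝ) ≤ (a : ℝ) ∧
    distInt (β * x * a + c0) < 1 / T ∧ ¬ ∃ B1, ResAt (max C 1) β T x B1 a)
  rcases s.eq_empty_or_nonempty with he | ⟨a0, ha0⟩
  · rw [he]; simp; positivity
  obtain ⟨hd0, h1, _⟩ := Finset.mem_filter.1 ha0
  have hTZ : T ^ (1 / 100 : ℝ) ≤ Z := h1.trans (by
    have := Finset.mem_Icc.1 (Finset.mem_filter.1 hd0).1
    exact le_trans (by exact_mod_cast this.2) (Nat.floor_le hZ.le))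
  have hb := hC (β * x) c0 (1 / T) T Z s hT hTZ (by positivity) le_rfl (Finset.filter_subset _ _)
    (fun a ha => by
      obtain ⟨_, _, h2, h3⟩ := Finset.mem_filter.1 ha
      refine ⟨h2, fun ⟨B, hB1, hB2, hB3⟩ => h3 ⟨B, hB1, ?_, ?_⟩⟩
      · rw [show (1 / 400 : ℝ) = 1 / 100 / 4 by norm_num]
        exact hB2.trans (mul_le_mul_of_nonneg_right (le_max_left _ _) (by positivity))
      · rw [show (1 / 400 : ℝ) = 1 / 100 / 4 by norm_num]
        refine hB3.trans (div_le_div_of_nonneg_right ?_ (Nat.cast_nonneg _))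
        exact mul_le_mul_of_nonneg_right
          (mul_le_mul_of_nonneg_right (le_max_left _ _) (by positivity)) (by positivity))
  rw [show (-(1 / 400) : ℝ) = -(1 / 100 / 4) by norm_num, div_mul_eq_mul_div, one_mul,
    div_le_iff₀ hZ]
  refine hb.trans ?_
  rw [mul_assoc, mul_assoc, mul_comm Z]
  exact mul_le_mul_of_nonneg_right (le_max_left _ _) (by positivity)

/-- Integers in a short interval. -/
lemma card_near (s : Finset ℕ) (m U H : ℝ) (hm : 0 < m) (hH : 0 ≤ H)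
    (h : ∀ a ∈ s, |m * (a : ℝ) - U| ≤ H) : (s.card : ℝ) ≤ 2 * H / m + 1 := by
  have := card_congr_diam s 1 (2 * H / m) one_pos (by positivity) (fun x hx y hy _ => by
    refine ⟨by simp, ?_⟩
    rw [le_div_iff₀ hm]
    have hx' := abs_le.1 (h x hx)
    have hy' := abs_le.1 (h y hy)
    linarith)
  simpa using this

/-- Class A, coincidence with small `h`. -/
lemma avg_near (T Z m U H L K : ℝ) (hZ : 0 < Z) (hm : 0 < m) (hH : 0 ≤ H) (hL : 0 < L)
    (hT : 0 < T) (h1 : 2 * H / L ≤ K) (h2 : 1 / T ≤ K) :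
    avgA Z (fun a => bb (T ≤ (a : ℝ) ∧ L ≤ m * a ∧ |m * (a : ℝ) - U| ≤ H)) ≤ 2 * K := by
  classical
  have hK : 0 ≤ K := le_trans (by positivity) h2
  unfold avgA
  rw [sum_bb]
  set s := (dyInt Z).filter (fun a : ℕ => T ≤ (a : ℝ) ∧ L ≤ m * a ∧ |m * (a : ℝ) - U| ≤ H)
  rcases s.eq_empty_or_nonempty with he | ⟨a0, ha0⟩
  · rw [he]; simp; positivity
  obtain ⟨hd0, hTa, hLa, _⟩ := Finset.mem_filter.1 ha0
  have haZ : (a0 : ℝ) ≤ Z := le_trans (by
    exact_mod_cast (Finset.mem_Icc.1 (Finset.mem_filter.1 hd0).1).2) (Nat.floor_le hZ.le)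
  have hcard := card_near s m U H hm hH (fun a ha => (Finset.mem_filter.1 ha).2.2.2)
  have hmZ : L ≤ m * Z := hLa.trans (mul_le_mul_of_nonneg_left haZ hm.le)
  have e1 : 2 * H / m ≤ K * Z := by
    rw [div_le_iff₀ hL] at h1
    rw [div_le_iff₀ hm]
    have := mul_le_mul_of_nonneg_left hmZ hK
    linarith
  have e2 : 1 ≤ K * Z := by
    rw [div_le_iff₀ hT] at h2
    have := mul_le_mul_of_nonneg_left (hTa.trans haZ) hK
    linarith
  rw [div_mul_eq_mul_div, one_mul, div_le_iff₀ hZ]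
  linarith

lemma exp_scale {t a b : ℝ} (ht : 0 ≤ t) (h : a ≤ b) : Real.exp (a * t) ≤ Real.exp (b * t) :=
  Real.exp_le_exp.2 (mul_le_mul_of_nonneg_right h ht)

lemma T_pow_le {t T x : ℝ} (hT : 0 < T) (hTt : T ≤ Real.exp (3 / 100000 * t)) (hx : 0 ≤ x) :
    T ^ x ≤ Real.exp (3 / 100000 * x * t) := by
  refine (Real.rpow_le_rpow hT.le hTt hx).trans (le_of_eq ?_)
  rw [← Real.exp_mul]; ring_nf

lemma T_pow_ge {t T x : ℝ} (hT : 0 < T) (hTt : T ≤ Real.exp (3 / 100000 * t)) (hx : 0 ≤ x) :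
    Real.exp (-(3 / 100000 * x) * t) ≤ T ^ (-x) := by
  rw [Real.rpow_neg hT.le]
  refine le_trans (le_of_eq ?_) ((inv_le_inv₀ (Real.exp_pos _) (Real.rpow_pos_of_pos hT _)).2
    (T_pow_le hT hTt hx))
  rw [← Real.exp_neg]; ring_nf

/-- Class B: `b` varies, and every value at which the event holds is non-resonant. -/
lemma sum_window (Cb : ℝ) (hCb : 1 ≤ Cb) :
    ∃ C T0 t0 : ℝ, 0 ≤ C ∧ 1 ≤ T0 ∧ ∀ (β T t c0 : ℝ) (N d a' : ℕ),
      t0 ≤ t → T0 ≤ T → T ≤ Real.exp (3 / 100000 * t) → (d : ℝ) ≤ Real.exp (6 / 10000 * t) →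
      0 < N → 0 < d → 0 < a' →
      ∑ b ∈ N.divisors, rhoN N b *
          bb (Real.exp (99 / 100 * t) ≤ ((d * a' * b : ℕ) : ℝ) ∧
            ((d * a' * b : ℕ) : ℝ) ≤ Real.exp (101 / 100 * t) ∧ ¬ RV β T d (d * a' * b) ∧
            ((T ^ (1 / 100 : ℝ) ≤ (a' : ℝ) ∧ ∃ B1, ResAt Cb β T (d * b) B1 a') ∨
              ((a' : ℝ) < T ^ (1 / 100 : ℝ) ∧
                distInt (β * (d * a' : ℕ) * b + c0) < 1 / T)))
        ≤ C * T ^ (-(1 / 400) : ℝ) := by
  classical
  obtain ⟨Cw₀, tw, hw⟩ := b_window (1 / 25) (by norm_num) (by norm_num)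
  set Cw := max Cw₀ 1
  have hCw : 1 ≤ Cw := le_max_right _ _
  refine ⟨2 * Cb * Cw, max 1 ((2 * Cb * Cw) ^ (400 : ℝ)), max tw (max 0 (4 * Cb)),
    by positivity, le_max_left _ _, ?_⟩
  intro β T t c0 N d a' ht hT0 hTt hdexp hN hdpos ha'
  have ht0 : 0 ≤ t := (le_max_left 0 _).trans ((le_max_right tw _).trans ht)
  have htC : 4 * Cb ≤ t := (le_max_right 0 _).trans ((le_max_right tw _).trans ht)
  have htw : tw ≤ t := (le_max_left _ _).trans ht
  have hT1 : 1 ≤ T := (le_max_left _ _).trans hT0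
  have hTp : 0 < T := by linarith
  have hK : 2 * Cb * Cw ≤ T ^ (1 / 400 : ℝ) := by
    have h := Real.rpow_le_rpow (Real.rpow_nonneg (by positivity) _)
      ((le_max_right _ _).trans hT0) (show (0 : ℝ) ≤ 1 / 400 by norm_num)
    rw [← Real.rpow_mul (by positivity)] at h
    norm_num at h ⊢
    exact h
  have hTexp : T ≤ Real.exp (t / 5000) := hTt.trans (Real.exp_le_exp.2 (by linarith))
  have hdr : (0 : ℝ) < d := by exact_mod_cast hdpos
  have har : (0 : ℝ) < a' := by exact_mod_cast ha'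
  have har1 : (1 : ℝ) ≤ a' := by exact_mod_cast ha'
  set P : ℕ → Prop := fun b => Real.exp (99 / 100 * t) ≤ ((d * a' * b : ℕ) : ℝ) ∧
    ((d * a' * b : ℕ) : ℝ) ≤ Real.exp (101 / 100 * t) ∧ ¬ RV β T d (d * a' * b) ∧
    ((T ^ (1 / 100 : ℝ) ≤ (a' : ℝ) ∧ ∃ B1, ResAt Cb β T (d * b) B1 a') ∨
      ((a' : ℝ) < T ^ (1 / 100 : ℝ) ∧ distInt (β * (d * a' : ℕ) * b + c0) < 1 / T))
  have hsum : ∑ b ∈ N.divisors, rhoN N b * bb (P b) = ∑ b ∈ N.divisors.filter P, rhoN N b := by
    rw [Finset.sum_filter]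
    refine Finset.sum_congr rfl fun b _ => ?_
    unfold bb
    split_ifs <;> simp
  change ∑ b ∈ N.divisors, rhoN N b * bb (P b) ≤ _
  rw [hsum]
  have hb2t : ∀ b ∈ N.divisors.filter P, 0 < b ∧ (b : ℝ) ≤ Real.exp (2 * t) := by
    intro b hb
    obtain ⟨hbN, _, hhi, _⟩ := Finset.mem_filter.1 hb
    refine ⟨Nat.pos_of_mem_divisors hbN, le_trans ?_ (hhi.trans
      (Real.exp_le_exp.2 (by linarith)))⟩
    exact_mod_cast Nat.le_mul_of_pos_left b (Nat.mul_pos hdpos ha')
  by_cases hcase : T ^ (1 / 100 : ℝ) ≤ (a' : ℝ)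
  · set w : ℝ := 2 * Cb * T ^ (1 / 400 : ℝ) * (1 / T) / a' with hwdef
    set J := Finset.Icc 1 ⌊Cb * T ^ (1 / 400 : ℝ)⌋₊
    let U : ℕ → Finset ℕ := fun B1 =>
      (N.divisors.filter P).filter (fun b => distInt (β * ((d * B1 : ℕ) : ℝ) * b + 0) < w)
    have hcov : N.divisors.filter P ⊆ J.biUnion U := by
      intro b hb
      obtain ⟨_, _, _, _, hor⟩ := Finset.mem_filter.1 hb
      obtain ⟨_, B1, hB1, hB1le, hB1d⟩ := hor.resolve_right fun h => absurd h.1 (not_lt.2 hcase)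
      refine Finset.mem_biUnion.2 ⟨B1, Finset.mem_Icc.2 ⟨hB1, Nat.le_floor hB1le⟩,
        Finset.mem_filter.2 ⟨hb, ?_⟩⟩
      have e : β * ((d * B1 : ℕ) : ℝ) * (b : ℝ) + 0 = β * ((d * b : ℕ) : ℝ) * B1 := by
        push_cast; ring
      rw [e]
      refine lt_of_le_of_lt hB1d ?_
      rw [hwdef]
      refine div_lt_div_of_pos_right (mul_lt_mul_of_pos_right ?_ (by positivity)) har
      have : 0 < Cb * T ^ (1 / 400 : ℝ) := by positivity
      linarith
    have hU : ∀ B1 ∈ J, ∑ b ∈ U B1, rhoN N b ≤ Cw * T ^ (-(1 / 200) : ℝ) := by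
      intro B1 hB1
      obtain ⟨hB1a, hB1b⟩ := Finset.mem_Icc.1 hB1
      have hB1le : (B1 : ℝ) ≤ Cb * T ^ (1 / 400 : ℝ) :=
        le_trans (by exact_mod_cast hB1b) (Nat.floor_le (by positivity))
      have hwT : w ≤ T ^ (-(1 / 2) : ℝ) := by
        have h1 : w ≤ 2 * Cb * T ^ (1 / 400 : ℝ) * (1 / T) := div_le_self (by positivity) har1
        refine h1.trans ?_
        have h2 : 2 * Cb * T ^ (1 / 400 : ℝ) ≤ T ^ (1 / 2 : ℝ) := by
          have : 2 * Cb ≤ T ^ (1 / 400 : ℝ) := le_trans (le_mul_of_one_le_right (by linarith) hCw) hK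
          refine (mul_le_mul_of_nonneg_right this (by positivity)).trans ?_
          rw [← Real.rpow_add hTp]
          exact Real.rpow_le_rpow_of_exponent_le hT1 (by norm_num)
        refine (mul_le_mul_of_nonneg_right h2 (by positivity)).trans (le_of_eq ?_)
        rw [one_div T, ← Real.rpow_neg_one, ← Real.rpow_add hTp]
        norm_num
      have h := hw t N (β * ((d * B1 : ℕ) : ℝ)) 0 w T (U B1) htw hN hT1 hTexp
        (by positivity) hwT (Or.inl rfl)
        ((Finset.filter_subset _ _).trans (Finset.filter_subset _ _)) (fun b hb => ?_)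
      · refine (h.trans (mul_le_mul_of_nonneg_right (le_max_left Cw₀ 1) (by positivity))).trans
          (le_of_eq ?_)
        norm_num [Cw]
      obtain ⟨hbP, hd'⟩ := Finset.mem_filter.1 hb
      obtain ⟨_, hlo, _, hR, _⟩ := Finset.mem_filter.1 hbP
      obtain ⟨hb0, hbu⟩ := hb2t b hbP
      have hbr : (0 : ℝ) < b := by exact_mod_cast hb0
      refine ⟨hbu, ?_, hd', fun ⟨B, hB, hBle, hBd⟩ => hR ⟨B1 * B, Nat.mul_pos hB1a hB, ?_, ?_⟩⟩
      · by_cases hbig : Real.exp (t / 50) ≤ (b : ℝ)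
        · exact Or.inl hbig
        · refine Or.inr ⟨rfl, ?_⟩
          push Not at hbig
          push_cast at hlo
          have h1 : Real.exp (99 / 100 * t) ≤ Real.exp (6 / 10000 * t) * a' * Real.exp (t / 50) := by
            refine hlo.trans ?_
            gcongr
          rw [hwdef, div_le_iff₀ har]
          have h2 : T ^ (1 / 400 : ℝ) * (1 / T) ≤ 1 := by
            rw [mul_one_div, div_le_one hTp]
            exact (Real.rpow_le_rpow_of_exponent_le hT1 (by norm_num)).trans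
              (le_of_eq (Real.rpow_one T))
          have h3 : Real.exp (7 / 10 * t) ≤ Real.exp (-t / 5) * a' := by
            have e1 : Real.exp (6 / 10000 * t) * Real.exp (t / 50) * Real.exp (7 / 10 * t)
                ≤ Real.exp (99 / 100 * t) * Real.exp (-t / 5) := by
              rw [← Real.exp_add, ← Real.exp_add, ← Real.exp_add]
              exact Real.exp_le_exp.2 (by linarith)
            have e2 := mul_le_mul_of_nonneg_right h1 (Real.exp_nonneg (-t / 5))
            have e3 : Real.exp (6 / 10000 * t) * Real.exp (t / 50) * Real.exp (7 / 10 * t)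
                ≤ Real.exp (6 / 10000 * t) * Real.exp (t / 50) * (Real.exp (-t / 5) * a') := by
              linarith
            exact le_of_mul_le_mul_left e3 (by positivity)
          calc 2 * Cb * T ^ (1 / 400 : ℝ) * (1 / T) ≤ 2 * Cb := by
                rw [mul_assoc]; exact mul_le_of_le_one_right (by linarith) h2
            _ ≤ Real.exp (7 / 10 * t) := by
                have := Real.add_one_le_exp (7 / 10 * t)
                linarith
            _ ≤ _ := h3
      · push_cast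
        have hBle' : (B : ℝ) ≤ Cw * T ^ (1 / 25 : ℝ) :=
          hBle.trans (mul_le_mul_of_nonneg_right (le_max_left _ _) (by positivity))
        calc (B1 : ℝ) * B ≤ Cb * T ^ (1 / 400 : ℝ) * (Cw * T ^ (1 / 25 : ℝ)) := by gcongr
          _ = Cb * Cw * T ^ (17 / 400 : ℝ) := by
              rw [show (17 / 400 : ℝ) = 1 / 400 + 1 / 25 by norm_num, Real.rpow_add hTp]; ring
          _ ≤ T ^ (1 / 400 : ℝ) * T ^ (17 / 400 : ℝ) := by
              refine mul_le_mul_of_nonneg_right (le_trans ?_ hK) (by positivity)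
              have : 0 < Cb * Cw := by positivity
              linarith
          _ ≤ _ := by
              rw [← Real.rpow_add hTp]
              exact Real.rpow_le_rpow_of_exponent_le hT1 (by norm_num)
      · have e : β * (d : ℝ) * ((B1 * B : ℕ) : ℝ) = β * ((d * B1 : ℕ) : ℝ) * B := by
          push_cast; ring
        rw [e]
        refine hBd.trans ?_
        push_cast
        have hCw' : Cw₀ * T ^ (1 / 25 : ℝ) * w ≤ Cw * T ^ (1 / 25 : ℝ) * w :=
          mul_le_mul_of_nonneg_right (mul_le_mul_of_nonneg_right (le_max_left _ _) (by positivity))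
            (by positivity)
        refine (div_le_div_of_nonneg_right hCw' hbr.le).trans ?_
        have e1 : Cw * T ^ (1 / 25 : ℝ) * w / b
            = 2 * Cb * Cw * (T ^ (1 / 25 : ℝ) * T ^ (1 / 400 : ℝ) * T⁻¹) * (d / (d * a' * b)) := by
          rw [hwdef]; field_simp
        rw [e1, mul_div_assoc]
        refine mul_le_mul_of_nonneg_right ?_ (by positivity)
        rw [← Real.rpow_neg_one, ← Real.rpow_add hTp, ← Real.rpow_add hTp]
        refine (mul_le_mul_of_nonneg_right hK (by positivity)).trans ?_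
        rw [← Real.rpow_add hTp]
        exact Real.rpow_le_rpow_of_exponent_le hT1 (by norm_num)
    refine (Finset.sum_le_sum_of_subset_of_nonneg hcov fun b _ _ => rhoN_nonneg N b).trans ?_
    refine le_trans ?_ (le_trans (Finset.sum_le_sum hU) ?_)
    · refine Finset.induction_on J (by simp) fun x s hx ih => ?_
      rw [Finset.biUnion_insert, Finset.sum_insert hx]
      refine le_trans ?_ (add_le_add le_rfl ih)
      rw [← Finset.sum_union_inter]
      exact le_add_of_nonneg_right (Finset.sum_nonneg fun b _ => rhoN_nonneg N b)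
    · rw [Finset.sum_const, nsmul_eq_mul, Nat.card_Icc, Nat.add_sub_cancel]
      refine (mul_le_mul_of_nonneg_right (Nat.floor_le (by positivity)) (by positivity)).trans ?_
      have e : Cb * T ^ (1 / 400 : ℝ) * (Cw * T ^ (-(1 / 200) : ℝ))
          = Cb * Cw * T ^ (-(1 / 400) : ℝ) := by
        rw [show (-(1 / 400) : ℝ) = 1 / 400 + -(1 / 200) by norm_num, Real.rpow_add hTp]; ring
      rw [e]
      refine mul_le_mul_of_nonneg_right ?_ (by positivity)
      have : 0 < Cb * Cw := by positivity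
      linarith
  · push Not at hcase
    have hwT : 1 / T ≤ T ^ (-(1 / 2) : ℝ) := by
      rw [one_div T, ← Real.rpow_neg_one]
      exact Real.rpow_le_rpow_of_exponent_le hT1 (by norm_num)
    have hw500 : Real.exp (-t / 500) ≤ 1 / T := by
      rw [le_div_iff₀ hTp]
      refine (mul_le_mul_of_nonneg_left hTt (Real.exp_nonneg _)).trans ?_
      rw [← Real.exp_add]
      exact (Real.exp_le_one_iff).2 (by linarith)
    have h := hw t N (β * ((d * a' : ℕ) : ℝ)) c0 (1 / T) T (N.divisors.filter P) htw hN hT1 hTexp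
      (by positivity) hwT (Or.inr hw500) (Finset.filter_subset _ _) (fun b hb => ?_)
    · refine (h.trans (mul_le_mul_of_nonneg_right (le_max_left Cw₀ 1) (by positivity))).trans ?_
      refine mul_le_mul (le_mul_of_one_le_left (by linarith) (by linarith))
        (Real.rpow_le_rpow_of_exponent_le hT1 (by norm_num)) (by positivity) (by positivity)
    obtain ⟨hb0, hbu⟩ := hb2t b hb
    obtain ⟨_, hlo, _, hR, hor⟩ := Finset.mem_filter.1 hb
    obtain ⟨_, hd'⟩ := hor.resolve_left fun h => absurd h.1 (not_le.2 hcase)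
    have hbr : (0 : ℝ) < b := by exact_mod_cast hb0
    refine ⟨hbu, Or.inl ?_, hd', fun ⟨B, hB, hBle, hBd⟩ => hR ⟨a' * B, Nat.mul_pos ha' hB, ?_, ?_⟩⟩
    · push_cast at hlo
      have ha : (a' : ℝ) ≤ Real.exp (1 / 1000 * t) :=
        hcase.le.trans ((T_pow_le hTp hTt (by norm_num)).trans (exp_scale ht0 (by norm_num)))
      have h1 : Real.exp (99 / 100 * t) ≤ Real.exp (6 / 10000 * t) * Real.exp (1 / 1000 * t) * b := by
        refine hlo.trans ?_
        gcongr
      rw [← Real.exp_add] at h1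
      refine le_of_mul_le_mul_left ?_ (Real.exp_pos (6 / 10000 * t + 1 / 1000 * t))
      refine le_trans ?_ h1
      rw [← Real.exp_add]
      exact Real.exp_le_exp.2 (by linarith)
    · push_cast
      have hBle' : (B : ℝ) ≤ Cw * T ^ (1 / 25 : ℝ) :=
        hBle.trans (mul_le_mul_of_nonneg_right (le_max_left _ _) (by positivity))
      calc (a' : ℝ) * B ≤ T ^ (1 / 100 : ℝ) * (Cw * T ^ (1 / 25 : ℝ)) := by gcongr
        _ ≤ T ^ (1 / 100 : ℝ) * (T ^ (1 / 400 : ℝ) * T ^ (1 / 25 : ℝ)) := by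
            refine mul_le_mul_of_nonneg_left (mul_le_mul_of_nonneg_right (le_trans ?_ hK)
              (by positivity)) (by positivity)
            exact le_mul_of_one_le_left (by linarith) (by linarith)
        _ ≤ _ := by
            rw [← Real.rpow_add hTp, ← Real.rpow_add hTp]
            exact Real.rpow_le_rpow_of_exponent_le hT1 (by norm_num)
    · have e : β * (d : ℝ) * ((a' * B : ℕ) : ℝ) = β * ((d * a' : ℕ) : ℝ) * B := by push_cast; ring
      rw [e]
      refine hBd.trans ?_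
      push_cast
      have hCw' : Cw₀ * T ^ (1 / 25 : ℝ) * (1 / T) ≤ Cw * T ^ (1 / 25 : ℝ) * (1 / T) :=
        mul_le_mul_of_nonneg_right (mul_le_mul_of_nonneg_right (le_max_left _ _) (by positivity))
          (by positivity)
      refine (div_le_div_of_nonneg_right hCw' hbr.le).trans ?_
      have e1 : Cw * T ^ (1 / 25 : ℝ) * (1 / T) / b
          = Cw * (T ^ (1 / 25 : ℝ) * T⁻¹) * a' * (d / (d * a' * b)) := by field_simp
      rw [e1, mul_div_assoc]
      refine mul_le_mul_of_nonneg_right ?_ (by positivity)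
      have h1 : Cw ≤ T ^ (1 / 400 : ℝ) :=
        le_trans (le_mul_of_one_le_left (by linarith) (by linarith)) hK
      rw [← Real.rpow_neg_one, ← Real.rpow_add hTp]
      calc Cw * T ^ (1 / 25 + -1 : ℝ) * a'
          ≤ T ^ (1 / 400 : ℝ) * T ^ (1 / 25 + -1 : ℝ) * T ^ (1 / 100 : ℝ) := by gcongr
        _ ≤ _ := by
            rw [← Real.rpow_add hTp, ← Real.rpow_add hTp]
            exact Real.rpow_le_rpow_of_exponent_le hT1 (by norm_num)

/-- Class B, coincidence with small `h`: `b` lies in a short interval far from the origin. -/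
lemma sum_near :
    ∃ C : ℝ, 0 ≤ C ∧ ∀ (N : ℕ) (m U H L : ℝ), 0 < N → 1 ≤ m → 0 ≤ H → 0 < L →
      ∑ b ∈ N.divisors, rhoN N b * bb (L ≤ m * b ∧ |m * (b : ℝ) - U| ≤ H)
        ≤ C * (2 * H + 1) * (L / m) ^ (-(9 / 10) : ℝ) := by
  classical
  obtain ⟨D, hD⟩ := Ph_pow_le_rpow 1 (1 / 10) (by norm_num)
  refine ⟨max D 0, le_max_right _ _, fun N m U H L hN hm hH hL => ?_⟩
  set s := N.divisors.filter (fun b : ℕ => L ≤ m * b ∧ |m * (b : ℝ) - U| ≤ H)
  have hsum : ∑ b ∈ N.divisors, rhoN N b * bb (L ≤ m * b ∧ |m * (b : ℝ) - U| ≤ H)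
      = ∑ b ∈ s, rhoN N b := by
    rw [Finset.sum_filter]
    refine Finset.sum_congr rfl fun b _ => ?_
    unfold bb
    split_ifs <;> simp
  rw [hsum]
  have hm0 : 0 < m := by linarith
  have hterm : ∀ b ∈ s, rhoN N b ≤ max D 0 * (L / m) ^ (-(9 / 10) : ℝ) := by
    intro b hb
    obtain ⟨hbN, hbL, _⟩ := Finset.mem_filter.1 hb
    have hb0 := Nat.pos_of_mem_divisors hbN
    have hbr : (0 : ℝ) < b := by exact_mod_cast hb0
    have hth : th N ≤ 1 := by
      unfold th
      rw [div_le_one (by exact_mod_cast hN)]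
      exact_mod_cast Nat.totient_le N
    have h1 : rhoN N b ≤ Ph b / b := by
      unfold rhoN
      exact div_le_div_of_nonneg_right (mul_le_of_le_one_left (Ph_nonneg b) hth) hbr.le
    have h2 : Ph b / b ≤ max D 0 * (b : ℝ) ^ (-(9 / 10) : ℝ) := by
      rw [show (-(9 / 10) : ℝ) = 1 / 10 - 1 by norm_num, Real.rpow_sub hbr, Real.rpow_one,
        ← mul_div_assoc]
      refine div_le_div_of_nonneg_right ?_ hbr.le
      have := hD b hb0
      rw [pow_one] at this
      exact this.trans (mul_le_mul_of_nonneg_right (le_max_left _ _) (by positivity))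
    refine h1.trans (h2.trans (mul_le_mul_of_nonneg_left ?_ (le_max_right _ _)))
    refine Real.rpow_le_rpow_of_nonpos (by positivity) ?_ (by norm_num)
    rw [div_le_iff₀ hm0]
    linarith
  refine (Finset.sum_le_card_nsmul _ _ _ hterm).trans ?_
  rw [nsmul_eq_mul]
  have hc := card_near s m U H hm0 hH (fun b hb => (Finset.mem_filter.1 hb).2.2)
  have hc' : (s.card : ℝ) ≤ 2 * H + 1 := hc.trans (by
    have := div_le_self (show 0 ≤ 2 * H by linarith) hm
    linarith)
  refine (mul_le_mul_of_nonneg_right hc' (by positivity)).trans (le_of_eq ?_)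
  ring

/-- A resonant coincidence has small `h`. -/
lemma resonant_small (γ β T t y εs : ℝ) (A As tt k0 : ℤ) (B Bs D d : ℕ) (v : ℕ) (n h : ℤ)
    (ht : 1000 ≤ t) (hT : 10 ≤ T) (hTt : T ≤ Real.exp (3 / 100000 * t))
    (hD : 0 < D) (hDB : Nat.Coprime D B) (hk0 : A - (B : ℤ) * tt = D * k0)
    (hβ : (D : ℝ) * β = γ - tt) (hTD : (D : ℝ) = T * y)
    (hA : IsApprox γ (Real.exp (t / 2)) A B)
    (hBs : 0 < Bs) (hBsQ : (Bs : ℝ) ≤ Real.exp (t / 10)) (hcop : IsCoprime As (Bs : ℤ))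
    (hβs : β = (As : ℝ) / Bs + εs) (hεs : (Bs : ℝ) * |εs| ≤ (Real.exp (t / 10))⁻¹)
    (hdT : (d : ℝ) ≤ T ^ (20 : ℝ)) (hdpos : 0 < d) (hdv : d ∣ v)
    (hvlo : Real.exp (99 / 100 * t) ≤ (v : ℝ)) (hhv : |(h : ℝ)| ≤ v)
    (hnb : ¬ (T ^ (13 / 100 : ℝ) < (Bs : ℝ) ∧
      (Bs : ℝ) ≤ T ^ (3 / 50 : ℝ) * (Nat.gcd Bs v : ℕ)))
    (hn : |(n : ℝ) + γ * h| < y) (hdvd : (D : ℤ) ∣ (B : ℤ) * n + A * h)
    (hne : (B : ℤ) * n + A * h ≠ 0) (hR : RV β T d v) :
    |(h : ℝ)| ≤ 2 * Real.exp (t / 2) := by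
  obtain ⟨B', hB'1, hB'le, hB'd⟩ := hR
  have ht0 : 0 ≤ t := by linarith
  have hTp : 0 < T := by linarith
  have hT1 : 1 ≤ T := by linarith
  have hBsr : (0 : ℝ) < Bs := by exact_mod_cast hBs
  have hdr : (0 : ℝ) < d := by exact_mod_cast hdpos
  have hB'r : (1 : ℝ) ≤ B' := by exact_mod_cast hB'1
  have hvr : (0 : ℝ) < v := lt_of_lt_of_le (Real.exp_pos _) hvlo
  set X := T ^ (3 / 25 - 1 : ℝ) with hX
  have hX0 : 0 < X := Real.rpow_pos_of_pos hTp _
  have hX1 : X ≤ 1 := Real.rpow_le_one_of_one_le_of_nonpos hT1 (by norm_num)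
  set m0 := round (β * d * B') with hm0
  have hm : |β * d * B' - m0| ≤ X * d / v := hB'd
  have hdexp : (d : ℝ) ≤ Real.exp (6 / 10000 * t) :=
    hdT.trans ((T_pow_le hTp hTt (by norm_num)).trans (exp_scale ht0 (by norm_num)))
  have hB'exp : (B' : ℝ) ≤ Real.exp (1 / 10000 * t) :=
    hB'le.trans ((T_pow_le hTp hTt (by norm_num)).trans (exp_scale ht0 (by norm_num)))
  have hsmallexp : Real.exp (-(1 / 20 * t)) ≤ 1 / 4 := by
    rw [Real.exp_neg, one_div (4 : ℝ)]
    refine inv_anti₀ (by norm_num : (0 : ℝ) < 4) ?_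
    have := Real.add_one_le_exp (1 / 20 * t)
    linarith
  -- the denominator divides d B'
  have hz : (d : ℤ) * B' * As - m0 * Bs = 0 := by
    have e : (((d : ℤ) * B' * As - m0 * Bs : ℤ) : ℝ)
        = (Bs : ℝ) * (β * d * B' - m0) - (d : ℝ) * B' * ((Bs : ℝ) * εs) := by
      rw [hβs]; push_cast; field_simp; ring
    have hlt : |(((d : ℤ) * B' * As - m0 * Bs : ℤ) : ℝ)| < 1 := by
      rw [e]
      refine lt_of_le_of_lt (abs_sub _ _) ?_
      rw [abs_mul, abs_mul ((d : ℝ) * B'), abs_mul (Bs : ℝ) εs, Nat.abs_cast,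
        abs_of_nonneg (show 0 ≤ (d : ℝ) * B' by positivity)]
      have h1 : (Bs : ℝ) * |β * d * B' - m0| ≤ Real.exp (-(1 / 20 * t)) := by
        refine (mul_le_mul hBsQ (hm.trans (div_le_div₀ hdr.le
          (mul_le_of_le_one_left hdr.le hX1) (Real.exp_pos _) hvlo)) (abs_nonneg _)
            (Real.exp_nonneg _)).trans ?_
        refine (mul_le_mul_of_nonneg_left (div_le_div_of_nonneg_right hdexp (Real.exp_nonneg _))
          (Real.exp_nonneg _)).trans ?_
        rw [← Real.exp_sub, ← Real.exp_add]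
        exact Real.exp_le_exp.2 (by linarith)
      have h2 : (d : ℝ) * B' * ((Bs : ℝ) * |εs|) ≤ Real.exp (-(1 / 20 * t)) := by
        refine (mul_le_mul (mul_le_mul hdexp hB'exp (by positivity) (Real.exp_nonneg _)) hεs
          (by positivity) (by positivity)).trans ?_
        rw [← Real.exp_neg, ← Real.exp_add, ← Real.exp_add]
        exact Real.exp_le_exp.2 (by linarith)
      linarith
    have : |(d : ℤ) * B' * As - m0 * Bs| < 1 := by exact_mod_cast hlt
    exact Int.abs_lt_one_iff.1 this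
  have hdiv : Bs ∣ d * B' := by
    have : (Bs : ℤ) ∣ ((d * B' : ℕ) : ℤ) * As := ⟨m0, by push_cast; linear_combination hz⟩
    exact_mod_cast hcop.symm.dvd_of_dvd_mul_right this
  have hBle : (Bs : ℝ) ≤ T ^ (13 / 100 : ℝ) := by
    by_contra hcon
    push Not at hcon
    refine hnb ⟨hcon, ?_⟩
    have h1 : Bs ∣ Nat.gcd Bs v * B' := by
      obtain ⟨k, l, hk, hl, hkl⟩ := Nat.dvd_mul.1 hdiv
      rw [← hkl]
      exact Nat.mul_dvd_mul (Nat.dvd_gcd (Dvd.intro l rfl) (hk.trans hdv)) hl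
    have h3 := Nat.le_of_dvd (Nat.mul_pos (Nat.gcd_pos_of_pos_left _ hBs) hB'1) h1
    calc (Bs : ℝ) ≤ ((Nat.gcd Bs v * B' : ℕ) : ℝ) := by exact_mod_cast h3
      _ = (Nat.gcd Bs v : ℕ) * (B' : ℝ) := by push_cast; ring
      _ ≤ (Nat.gcd Bs v : ℕ) * T ^ (3 / 50 : ℝ) :=
          mul_le_mul_of_nonneg_left hB'le (Nat.cast_nonneg _)
      _ = _ := mul_comm _ _
  have hεv : |εs| * v ≤ X := by
    have h1 : (d : ℝ) * B' * |εs| ≤ X * d / v := by
      refine le_trans (le_of_eq ?_) hm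
      rw [← abs_of_nonneg (show 0 ≤ (d : ℝ) * B' by positivity), ← abs_mul]
      congr 1
      have hz' : (d : ℝ) * B' * As - m0 * Bs = 0 := by exact_mod_cast hz
      rw [hβs]
      field_simp
      linear_combination -hz'
    rw [le_div_iff₀ hvr] at h1
    have h2 : (B' : ℝ) * (|εs| * v) ≤ X := by
      refine le_of_mul_le_mul_left ?_ hdr
      linarith
    exact le_trans (le_mul_of_one_le_left (by positivity) hB'r) h2
  -- the coincidence
  obtain ⟨m, hmeq⟩ : (D : ℤ) ∣ n + tt * h := by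
    have h1 : (D : ℤ) ∣ (B : ℤ) * (n + tt * h) := by
      have := dvd_sub hdvd ((Dvd.intro k0 rfl : (D : ℤ) ∣ D * k0).mul_right h)
      rwa [← hk0, show (B : ℤ) * n + A * h - (A - (B : ℤ) * tt) * h = (B : ℤ) * (n + tt * h) by
        ring] at this
    exact (Int.isCoprime_iff_nat_coprime.2 (by simpa using hDB)).dvd_of_dvd_mul_left h1
  have hDr : (0 : ℝ) < D := by exact_mod_cast hD
  have hm1 : |(m : ℝ) + β * h| < 1 / T := by
    have e : (n : ℝ) + γ * h = (D : ℝ) * ((m : ℝ) + β * h) := by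
      have h1 : (n : ℝ) + tt * h = D * m := by exact_mod_cast hmeq
      linear_combination h1 - (h : ℝ) * hβ
    rw [e, abs_mul, abs_of_pos hDr, hTD] at hn
    have hy : 0 < y := (mul_pos_iff_of_pos_left hTp).1 (hTD ▸ hDr)
    rw [lt_div_iff₀ hTp]
    have := lt_of_mul_lt_mul_right (show |(m : ℝ) + β * h| * T * y < 1 * y by linarith) hy.le
    linarith
  have hzero : (Bs : ℤ) * m + As * h = 0 := by
    have e : (((Bs : ℤ) * m + As * h : ℤ) : ℝ)
        = (Bs : ℝ) * ((m : ℝ) + β * h) - (Bs : ℝ) * (εs * h) := by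
      rw [hβs]; push_cast; field_simp; ring
    have hlt : |(((Bs : ℤ) * m + As * h : ℤ) : ℝ)| < 1 := by
      rw [e]
      refine lt_of_le_of_lt (abs_sub _ _) ?_
      rw [abs_mul, abs_mul (Bs : ℝ) (εs * h), abs_mul εs, Nat.abs_cast]
      have hT34 : T ^ (13 / 100 : ℝ) * X ≤ 1 / 4 ∧ T ^ (13 / 100 : ℝ) * (1 / T) ≤ 1 / 4 := by
        have h4 : (4 : ℝ) ≤ T ^ (3 / 4 : ℝ) := by
          refine le_trans ?_ (Real.rpow_le_rpow (by norm_num) hT (by norm_num))
          rw [show (3 / 4 : ℝ) = ((3 : ℕ) : ℝ) * (1 / 4) by norm_num, Real.rpow_mul (by norm_num),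
            Real.rpow_natCast]
          refine le_trans (le_of_eq ?_) (Real.rpow_le_rpow (show (0:ℝ) ≤ 256 by norm_num)
            (show (256 : ℝ) ≤ 10 ^ 3 by norm_num) (by norm_num))
          rw [show (256 : ℝ) = 4 ^ ((4 : ℕ) : ℝ) by norm_num, ← Real.rpow_mul (by norm_num)]
          norm_num
        have key : T ^ (-(3 / 4) : ℝ) ≤ 1 / 4 := by
          rw [Real.rpow_neg hTp.le, one_div]
          exact inv_anti₀ (by norm_num) h4
        constructor
        · rw [hX, ← Real.rpow_add hTp]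
          exact (Real.rpow_le_rpow_of_exponent_le hT1 (by norm_num)).trans key
        · rw [one_div T, ← Real.rpow_neg_one, ← Real.rpow_add hTp]
          exact (Real.rpow_le_rpow_of_exponent_le hT1 (by norm_num)).trans key
      have h1 : (Bs : ℝ) * |(m : ℝ) + β * h| ≤ T ^ (13 / 100 : ℝ) * (1 / T) :=
        mul_le_mul hBle hm1.le (abs_nonneg _) (by positivity)
      have h2 : (Bs : ℝ) * (|εs| * |(h : ℝ)|) ≤ T ^ (13 / 100 : ℝ) * X :=
        mul_le_mul hBle ((mul_le_mul_of_nonneg_left hhv (abs_nonneg _)).trans hεv)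
          (by positivity) (by positivity)
      linarith [hT34.1, hT34.2]
    have : |(Bs : ℤ) * m + As * h| < 1 := by exact_mod_cast hlt
    exact Int.abs_lt_one_iff.1 this
  set D0v : ℤ := (B : ℤ) * n + A * h
  have hmul : (Bs : ℤ) * D0v = D * h * (k0 * Bs - B * As) := by
    simp only [D0v]
    linear_combination ((Bs : ℤ) * B) * hmeq + ((Bs : ℤ) * h) * hk0 + ((B : ℤ) * D) * hzero
  have hne2 : k0 * Bs - (B : ℤ) * As ≠ 0 := by
    intro h0
    rw [h0, mul_zero] at hmul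
    rcases mul_eq_zero.1 hmul with h1 | h1
    · exact hBs.ne' (by exact_mod_cast h1)
    · exact hne h1
  have hlow : (D : ℝ) * |(h : ℝ)| ≤ (Bs : ℝ) * |(D0v : ℝ)| := by
    have e : (Bs : ℝ) * (D0v : ℝ) = (D : ℝ) * h * ((k0 * Bs - (B : ℤ) * As : ℤ) : ℝ) := by
      exact_mod_cast hmul
    have h1 : (1 : ℝ) ≤ |((k0 * Bs - (B : ℤ) * As : ℤ) : ℝ)| := by
      exact_mod_cast Int.one_le_abs hne2
    have e2 := congrArg abs e
    rw [abs_mul, abs_mul, abs_mul (D : ℝ), Nat.abs_cast, Nat.abs_cast] at e2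
    rw [e2]
    exact le_mul_of_one_le_right (by positivity) h1
  obtain ⟨hB0, hBQ, _, hBA⟩ := hA
  have hup : |(D0v : ℝ)| ≤ Real.exp (t / 2) * y + |(h : ℝ)| * Real.exp (-(t / 2)) := by
    have e : (D0v : ℝ) = (B : ℝ) * ((n : ℝ) + γ * h) - ((B : ℝ) * γ - A) * h := by
      simp only [D0v]; push_cast; ring
    rw [e]
    refine (abs_sub _ _).trans (add_le_add ?_ ?_)
    · rw [abs_mul, Nat.abs_cast]
      exact mul_le_mul hBQ hn.le (abs_nonneg _) (Real.exp_nonneg _)
    · rw [abs_mul, mul_comm, Real.exp_neg, ← one_div]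
      exact mul_le_mul_of_nonneg_left hBA (abs_nonneg _)
  have hfin := hlow.trans (mul_le_mul_of_nonneg_left hup hBsr.le)
  have hsmall : (Bs : ℝ) * Real.exp (-(t / 2)) ≤ 1 / 2 * D := by
    have h1 : (Bs : ℝ) * Real.exp (-(t / 2)) ≤ Real.exp (-(1 / 20 * t)) := by
      refine (mul_le_mul_of_nonneg_right hBsQ (Real.exp_nonneg _)).trans ?_
      rw [← Real.exp_add]
      exact Real.exp_le_exp.2 (by linarith)
    have h2 : (1 : ℝ) ≤ D := by exact_mod_cast hD
    linarith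
  have h3 := mul_le_mul_of_nonneg_left hsmall (abs_nonneg (h : ℝ))
  have h4 : (D : ℝ) * |(h : ℝ)| ≤ 2 * ((Bs : ℝ) * y) * Real.exp (t / 2) := by linarith
  have h5 : (Bs : ℝ) * y ≤ D := by
    rw [hTD]
    refine mul_le_mul_of_nonneg_right ?_ (le_trans (abs_nonneg _) hn.le)
    exact hBle.trans ((Real.rpow_le_rpow_of_exponent_le hT1 (by norm_num)).trans
      (le_of_eq (Real.rpow_one T)))
  refine le_of_mul_le_mul_left ?_ hDr
  have := mul_le_mul_of_nonneg_right h5 (Real.exp_nonneg (t / 2))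
  linarith

end Vale.Agent.P028
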