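import Vale.Agent.P028.Measure
import Vale.Agent.P028.Cell

/-! P028 module MAIN: assembly (BLUEPRINT 0). -/

namespace Vale.Agent.P028

open Finset MeasureTheory Filter Topology

namespace MainAux

lemma mu_nonneg {ψ : ℕ → ℝ} (hψ : ∀ q, 0 ≤ ψ q) (q : ℕ) : 0 ≤ mu ψ q :=
  mul_nonneg (th_nonneg q) (hψ q)

lemma exists_approx (γ t : ℝ) (ht : 0 ≤ t) :
    ∃ x : ℤ × ℕ, IsApprox γ (Real.exp (t / 2)) x.1 x.2 := by
  set Q := Real.exp (t / 2) with hQ
  have hQ1 : 1 ≤ Q := Real.one_le_exp (by linarith)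
  obtain ⟨x, hx1, hx2⟩ := Real.exists_rat_abs_sub_le_and_den_le γ (n := ⌊Q⌋₊)
    (Nat.floor_pos.2 hQ1)
  have hd : (0 : ℝ) < x.den := by exact_mod_cast x.den_pos
  refine ⟨(x.num, x.den), x.den_pos, ?_, Int.isCoprime_iff_nat_coprime.2 ?_, ?_⟩
  · calc (x.den : ℝ) ≤ (⌊Q⌋₊ : ℝ) := by exact_mod_cast hx2
      _ ≤ Q := Nat.floor_le (by linarith)
  · simpa using x.reduced
  · have e : (x.den : ℝ) * γ - x.num = x.den * (γ - x) := by
      rw [Rat.cast_def]; field_simp
    rw [e, abs_mul, abs_of_pos hd]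
    calc (x.den : ℝ) * |γ - x| ≤ x.den * (1 / (((⌊Q⌋₊ : ℝ) + 1) * x.den)) :=
          mul_le_mul_of_nonneg_left hx1 hd.le
      _ = 1 / ((⌊Q⌋₊ : ℝ) + 1) := by field_simp
      _ ≤ 1 / Q := one_div_le_one_div_of_le (by linarith) (Nat.lt_floor_add_one Q).le

/-- A non-summable nonnegative sequence has blocks of arbitrary weight arbitrarily far out. -/
lemma exists_block (w : ℕ → ℝ) (P : Set ℕ) (hw : ∀ q, 0 ≤ w q)
    (h : ¬ Summable (P.indicator w)) (k : ℕ) :
    ∃ T : Finset ℕ, (∀ q ∈ T, q ∈ P ∧ k ≤ q) ∧ (k : ℝ) + 1 ≤ ∑ q ∈ T, w q := by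
  classical
  have h' := (not_summable_iff_tendsto_nat_atTop_of_nonneg
    (fun q => Set.indicator_nonneg (fun q _ => hw q) q)).1 h
  obtain ⟨n, hn, hkn⟩ := ((h'.eventually_ge_atTop
    ((k : ℝ) + 1 + ∑ q ∈ range k, P.indicator w q)).and (eventually_ge_atTop k)).exists
  refine ⟨(Finset.Ico k n).filter (· ∈ P), fun q hq => ?_, ?_⟩
  · obtain ⟨h1, h2⟩ := mem_filter.1 hq
    exact ⟨h2, (Finset.mem_Ico.1 h1).1⟩
  · rw [← sum_range_add_sum_Ico _ hkn] at hn
    have e : ∑ q ∈ (Finset.Ico k n).filter (· ∈ P), w q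
        = ∑ q ∈ Finset.Ico k n, P.indicator w q := by
      rw [sum_filter]
      exact sum_congr rfl fun q _ => by rw [Set.indicator_apply]
    linarith

/-- Diagonal blocks plus quasi-independent pairs. -/
lemma pairs_bound (T : Finset ℕ) (cl : ℕ → ℕ) (w : ℕ → ℝ) (I : ℕ → ℕ → ℝ) (C1 C2 : ℝ)
    (hw : ∀ q, 0 ≤ w q) (hC1 : 0 ≤ C1) (hC2 : 0 ≤ C2)
    (h1 : ∀ j ∈ T.image cl, ∑ q ∈ T.filter (cl · = j), ∑ r ∈ T.filter (cl · = j), I q r
      ≤ C1 * (∑ q ∈ T.filter (cl · = j), w q + (∑ q ∈ T.filter (cl · = j), w q) ^ 2))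
    (h2 : ∀ q ∈ T, ∀ r ∈ T, cl q ≠ cl r → I q r ≤ C2 * w q * w r) :
    ∑ q ∈ T, ∑ r ∈ T, I q r
      ≤ C1 * (∑ q ∈ T, w q + (∑ q ∈ T, w q) ^ 2) + C2 * (∑ q ∈ T, w q) ^ 2 := by
  have hsplit : ∀ q, ∑ r ∈ T, I q r
      = ∑ r ∈ T.filter (cl · = cl q), I q r + ∑ r ∈ T.filter (¬ cl · = cl q), I q r :=
    fun q => (sum_filter_add_sum_filter_not T _ _).symm
  simp only [hsplit, sum_add_distrib]
  set M := ∑ q ∈ T, w q with hM
  refine add_le_add ?_ ?_
  · have hmaps : ∀ q ∈ T, cl q ∈ T.image cl := fun q hq => mem_image_of_mem cl hq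
    have hM' : ∑ j ∈ T.image cl, ∑ q ∈ T.filter (cl · = j), w q = M :=
      sum_fiberwise_of_maps_to hmaps w
    rw [← sum_fiberwise_of_maps_to hmaps (fun q => ∑ r ∈ T.filter (cl · = cl q), I q r)]
    calc ∑ j ∈ T.image cl, ∑ q ∈ T.filter (cl · = j), ∑ r ∈ T.filter (cl · = cl q), I q r
        = ∑ j ∈ T.image cl, ∑ q ∈ T.filter (cl · = j), ∑ r ∈ T.filter (cl · = j), I q r :=
          sum_congr rfl fun j _ => sum_congr rfl fun q hq => by rw [(mem_filter.1 hq).2]
      _ ≤ ∑ j ∈ T.image cl, C1 * (∑ q ∈ T.filter (cl · = j), w q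
            + (∑ q ∈ T.filter (cl · = j), w q) ^ 2) := sum_le_sum h1
      _ ≤ C1 * (M + M ^ 2) := by
          rw [← mul_sum, sum_add_distrib, hM']
          refine mul_le_mul_of_nonneg_left (add_le_add le_rfl ?_) hC1
          calc ∑ j ∈ T.image cl, (∑ q ∈ T.filter (cl · = j), w q) ^ 2
              ≤ ∑ j ∈ T.image cl, (∑ q ∈ T.filter (cl · = j), w q) * M := by
                refine sum_le_sum fun j _ => ?_
                rw [sq]
                exact mul_le_mul_of_nonneg_left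
                  (sum_le_sum_of_subset_of_nonneg (filter_subset _ _) fun q _ _ => hw q)
                  (sum_nonneg fun q _ => hw q)
            _ = M ^ 2 := by rw [← sum_mul, hM', sq]
  · calc ∑ q ∈ T, ∑ r ∈ T.filter (¬ cl · = cl q), I q r
        ≤ ∑ q ∈ T, ∑ r ∈ T.filter (¬ cl · = cl q), C2 * w q * w r :=
          sum_le_sum fun q hq => sum_le_sum fun r hr =>
            h2 q hq r (mem_filter.1 hr).1 (Ne.symm (mem_filter.1 hr).2)
      _ ≤ ∑ q ∈ T, ∑ r ∈ T, C2 * w q * w r :=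
          sum_le_sum fun q _ => sum_le_sum_of_subset_of_nonneg (filter_subset _ _)
            fun r _ _ => mul_nonneg (mul_nonneg hC2 (hw q)) (hw r)
      _ = C2 * M ^ 2 := by
          simp only [← mul_sum, ← sum_mul]
          ring

lemma integrable_fq_mul (γ : ℝ) (ψ : ℕ → ℝ) (A A' : ℤ) (B B' q r : ℕ) :
    IntegrableOn (fun x => fq γ ψ A B q x * fq γ ψ A' B' r x) (Set.Ico 0 1) :=
  IntegrableOn.of_bound (by simp [Real.volume_Ico])
    ((fq_measurable γ ψ A B q).mul (fq_measurable γ ψ A' B' r)).aestronglyMeasurable 1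
    (Eventually.of_forall fun x => by
      have hq := fq_nonneg γ ψ A B q x
      have hr := fq_nonneg γ ψ A' B' r x
      rw [Real.norm_of_nonneg (mul_nonneg hq hr)]
      exact (mul_le_mul (fq_le_one γ ψ A B q x) (fq_le_one γ ψ A' B' r x) hr zero_le_one).trans_eq
        (mul_one 1))

lemma sq_integral (γ : ℝ) (ψ : ℕ → ℝ) (ab : ℕ → ℤ × ℕ) (T : Finset ℕ) :
    ∫ x in Set.Ico (0 : ℝ) 1, (∑ q ∈ T, fq γ ψ (ab q).1 (ab q).2 q x) ^ 2
      = ∑ q ∈ T, ∑ r ∈ T, ∫ x in Set.Ico (0 : ℝ) 1,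
          fq γ ψ (ab q).1 (ab q).2 q x * fq γ ψ (ab r).1 (ab r).2 r x := by
  simp only [sq, sum_mul_sum]
  rw [integral_finsetSum _ fun q _ => integrable_finsetSum _ fun r _ =>
    integrable_fq_mul γ ψ _ _ _ _ q r]
  exact sum_congr rfl fun q _ => integral_finsetSum _ fun r _ => integrable_fq_mul γ ψ _ _ _ _ q r

/-- The scale class of `q`. -/
noncomputable def cls (ψ : ℕ → ℝ) (q : ℕ) : ℕ :=
  ⌊Real.log (-Real.log (ψ q)) / Real.log (1 + zeta0)⌋₊

/-- The scale of class `m`. -/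
noncomputable def scale (m : ℕ) : ℝ := (1 + zeta0) ^ m

lemma zeta0_pos : 0 < zeta0 := by norm_num [zeta0]

lemma one_le_scale (m : ℕ) : 1 ≤ scale m :=
  one_le_pow₀ (by linarith [zeta0_pos])

lemma cls_spec (ψ : ℕ → ℝ) (q : ℕ) (hL : 1 ≤ -Real.log (ψ q)) :
    scale (cls ψ q) ≤ -Real.log (ψ q) ∧ -Real.log (ψ q) ≤ (1 + zeta0) * scale (cls ψ q) := by
  have hb : (1 : ℝ) < 1 + zeta0 := by linarith [zeta0_pos]
  have hlb := Real.log_pos hb
  set L := -Real.log (ψ q) with hLdef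
  have hL0 : 0 < L := by linarith
  have h1 := Nat.floor_le (div_nonneg (Real.log_nonneg hL) hlb.le)
  have h2 := Nat.lt_floor_add_one (Real.log L / Real.log (1 + zeta0))
  rw [le_div_iff₀ hlb] at h1
  rw [div_lt_iff₀ hlb] at h2
  constructor
  · rw [← Real.log_le_log_iff (lt_of_lt_of_le one_pos (one_le_scale _)) hL0, scale, Real.log_pow]
    exact h1
  · rw [scale, ← pow_succ', ← Real.log_le_log_iff hL0 (by positivity), Real.log_pow]
    push_cast
    exact h2.le

/-- Non-negligible denominators: large and `q^{-2} ≤ ψ q`. -/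
def Good (ψ : ℕ → ℝ) (q1 : ℕ) : Set ℕ := {q | q1 ≤ q ∧ ((q : ℝ) ^ 2)⁻¹ ≤ ψ q}

lemma not_summable_good (ψ : ℕ → ℝ) (hψ : ∀ q, 0 ≤ ψ q) (h : ¬ Summable (mu ψ)) (q1 : ℕ) :
    ¬ Summable ((Good ψ q1).indicator (mu ψ)) := by
  intro hs
  apply h
  have hbad : Summable ((Good ψ q1)ᶜ.indicator (mu ψ)) := by
    have hmaj : Summable (fun q : ℕ => ((q : ℝ) ^ 2)⁻¹
        + (↑(range q1) : Set ℕ).indicator (mu ψ) q) :=
      (Real.summable_nat_pow_inv.2 one_lt_two).add
        (summable_of_ne_finset_zero (s := range q1) fun q hq =>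
          Set.indicator_of_notMem (by simpa using hq) _)
    refine hmaj.of_nonneg_of_le (fun q => Set.indicator_nonneg (fun q _ => mu_nonneg hψ q) q)
      fun q => ?_
    have h0 : 0 ≤ (↑(range q1) : Set ℕ).indicator (mu ψ) q :=
      Set.indicator_nonneg (fun q _ => mu_nonneg hψ q) q
    have h0' : (0 : ℝ) ≤ ((q : ℝ) ^ 2)⁻¹ := by positivity
    by_cases hq : q ∈ (Good ψ q1)ᶜ
    · rw [Set.indicator_of_mem hq]
      by_cases hq1 : q1 ≤ q
      · have hle : mu ψ q ≤ ψ q := mul_le_of_le_one_left (hψ q) (by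
          unfold th
          exact div_le_one_of_le₀ (by exact_mod_cast q.totient_le) (Nat.cast_nonneg q))
        have : ψ q < ((q : ℝ) ^ 2)⁻¹ := by
          by_contra hn
          exact hq ⟨hq1, not_lt.1 hn⟩
        linarith
      · rw [Set.indicator_of_mem (by simpa using hq1)]
        linarith
    · rw [Set.indicator_of_notMem hq]
      linarith
  exact (hs.add hbad).congr fun q => congrFun (Set.indicator_self_add_compl (Good ψ q1) (mu ψ)) q

lemma exists_residue (w : ℕ → ℝ) (P : Set ℕ) (h : ¬ Summable (P.indicator w)) (cl : ℕ → ℕ)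
    (N : ℕ) (hN : 0 < N) :
    ∃ i, ¬ Summable ({q | q ∈ P ∧ cl q % N = i}.indicator w) := by
  by_contra hall
  push Not at hall
  apply h
  refine (summable_sum (s := range N) fun i _ => hall i).congr fun q => ?_
  by_cases hq : q ∈ P
  · rw [Set.indicator_of_mem hq, sum_eq_single (cl q % N)]
    · exact Set.indicator_of_mem
        (show q ∈ {x | x ∈ P ∧ cl x % N = cl q % N} from ⟨hq, rfl⟩) _
    · intro i _ hi
      exact Set.indicator_of_notMem (fun hh => hi hh.2.symm) _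
    · intro hn
      exact absurd (mem_range.2 (Nat.mod_lt _ hN)) hn
  · rw [Set.indicator_of_notMem hq]
    exact sum_eq_zero fun i _ => Set.indicator_of_notMem (fun hh => hq hh.1) _

end MainAux

open MainAux

/-- Q1 for every shift and every polynomially small `ψ`. -/
theorem weak_inhom_DS_poly (γ : ℝ) (ψ : ℕ → ℝ) (C c : ℝ) (hψ : ∀ q, 0 ≤ ψ q) (hc : 0 < c)
    (hb : ∀ q : ℕ, 0 < q → ψ q ≤ C * (q : ℝ) ^ (-c))
    (hdiv : ¬ Summable (fun q : ℕ => (q.totient : ℝ) / q * ψ q)) :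
    ∀ᵐ x : ℝ, {q : ℕ | 0 < q ∧
      |(q : ℝ) * x - γ - (round ((q : ℝ) * x - γ) : ℝ)| < ψ q}.Infinite := by
  classical
  set K := 2 / c * (1 + zeta0) with hK
  obtain ⟨C1, t0, hcell⟩ := cell_bound K
  obtain ⟨C2, q0, hcross⟩ := cross_bound
  obtain ⟨C3, hfirst⟩ := integral_fq_interval
  obtain ⟨C4, hdivb⟩ := card_divisors_le (c / 4) (by linarith)
  have hz : (1 : ℝ) < 1 + zeta0 := by linarith [zeta0_pos]
  -- thresholds
  have hev : ∀ᶠ q : ℕ in atTop, 2 ≤ q ∧ q0 ≤ q ∧ C ≤ (q : ℝ) ^ (c / 2) ∧ 2 / c ≤ Real.log q := by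
    refine (eventually_ge_atTop 2).and ((eventually_ge_atTop q0).and ?_)
    exact ((tendsto_rpow_atTop (by linarith : 0 < c / 2)).comp
      tendsto_natCast_atTop_atTop).eventually_ge_atTop C |>.and
      ((Real.tendsto_log_atTop.comp tendsto_natCast_atTop_atTop).eventually_ge_atTop (2 / c))
  obtain ⟨q1, hq1⟩ := eventually_atTop.1 hev
  obtain ⟨m0, hm0⟩ := pow_unbounded_of_one_lt t0 hz
  obtain ⟨N0, hN0⟩ := pow_unbounded_of_one_lt (32 / c) hz
  have hgood : ∀ q ∈ Good ψ q1, 2 ≤ q ∧ q0 ≤ q ∧ 0 < ψ q ∧ ψ q ≤ 1 / 2 ∧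
      ψ q ≤ (q : ℝ) ^ (-(c / 2)) ∧
      1 ≤ -Real.log (ψ q) ∧ c / 2 * Real.log q ≤ -Real.log (ψ q) ∧
      -Real.log (ψ q) ≤ 2 * Real.log q := by
    rintro q ⟨hqq, hq2⟩
    obtain ⟨h2, hq0, hC, hlog⟩ := hq1 q hqq
    have hqR : (0 : ℝ) < q := by exact_mod_cast (by omega : 0 < q)
    have hpos : 0 < ψ q := lt_of_lt_of_le (by positivity) hq2
    have hup : ψ q ≤ (q : ℝ) ^ (-(c / 2)) := by
      calc ψ q ≤ C * (q : ℝ) ^ (-c) := hb q (by omega)
        _ ≤ (q : ℝ) ^ (c / 2) * (q : ℝ) ^ (-c) :=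
            mul_le_mul_of_nonneg_right hC (by positivity)
        _ = _ := by rw [← Real.rpow_add hqR]; congr 1; ring
    have hl1 := Real.log_le_log hpos hup
    rw [Real.log_rpow hqR] at hl1
    have hl2 := Real.log_le_log (by positivity) hq2
    rw [Real.log_inv, Real.log_pow] at hl2
    push_cast at hl2
    have hL1 : 1 ≤ c / 2 * Real.log q := by
      have := mul_le_mul_of_nonneg_left hlog (by linarith : 0 ≤ c / 2)
      rwa [show c / 2 * (2 / c) = 1 by field_simp] at this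
    have hhalf : ψ q ≤ 1 / 2 := by
      rw [← Real.log_le_log_iff hpos (by norm_num), one_div, Real.log_inv]
      have := Real.log_two_lt_d9
      linarith
    exact ⟨h2, hq0, hpos, hhalf, hup, by linarith, by linarith, by linarith⟩
  -- one residue class, far out
  obtain ⟨i, hi⟩ := exists_residue (mu ψ) _ (not_summable_good ψ hψ hdiv q1) (cls ψ) (N0 + 1)
    N0.succ_pos
  set P : Set ℕ := {q | q ∈ Good ψ q1 ∧ cls ψ q % (N0 + 1) = i ∧ m0 ≤ cls ψ q} with hP
  have hPdiv : ¬ Summable (P.indicator (mu ψ)) := by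
    intro hs
    apply hi
    set R := Real.exp (K * scale m0) with hR
    have hfin : Summable (({q | q ∈ Good ψ q1 ∧ cls ψ q < m0} : Set ℕ).indicator (mu ψ)) := by
      refine summable_of_ne_finset_zero (s := range (⌊R⌋₊ + 1)) fun q hq => ?_
      refine Set.indicator_of_notMem (fun hmem => hq (mem_range.2 ?_)) _
      obtain ⟨hg, hlt⟩ := hmem
      obtain ⟨h2, -, -, -, -, hL, hLo, -⟩ := hgood q hg
      have hs1 : scale (cls ψ q) ≤ scale m0 := pow_le_pow_right₀ hz.le hlt.le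
      have hup := (cls_spec ψ q hL).2
      have hq' : (q : ℝ) ≤ R := by
        rw [hR, ← Real.log_le_iff_le_exp (by exact_mod_cast (by omega : 0 < q)), hK]
        calc Real.log q = 2 / c * (c / 2 * Real.log q) := by field_simp
          _ ≤ 2 / c * ((1 + zeta0) * scale m0) :=
              mul_le_mul_of_nonneg_left (hLo.trans (hup.trans
                (mul_le_mul_of_nonneg_left hs1 (by linarith)))) (by positivity)
          _ = _ := by ring
      exact Nat.lt_succ_of_le (Nat.le_floor hq')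
    refine (hs.add hfin).of_nonneg_of_le
      (fun q => Set.indicator_nonneg (fun q _ => mu_nonneg hψ q) q) fun q => ?_
    have h1 : 0 ≤ P.indicator (mu ψ) q := Set.indicator_nonneg (fun q _ => mu_nonneg hψ q) q
    have h2 : 0 ≤ ({q | q ∈ Good ψ q1 ∧ cls ψ q < m0} : Set ℕ).indicator (mu ψ) q :=
      Set.indicator_nonneg (fun q _ => mu_nonneg hψ q) q
    by_cases hq : q ∈ {q | q ∈ Good ψ q1 ∧ cls ψ q % (N0 + 1) = i}
    · rw [Set.indicator_of_mem hq]
      rcases le_or_gt m0 (cls ψ q) with h | h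
      · rw [Set.indicator_of_mem (show q ∈ P from ⟨hq.1, hq.2, h⟩)]
        linarith
      · rw [Set.indicator_of_mem (show q ∈ {q | q ∈ Good ψ q1 ∧ cls ψ q < m0} from ⟨hq.1, h⟩)]
        linarith
    · rw [Set.indicator_of_notMem hq]
      linarith
  choose ab hab using fun m => exists_approx γ (scale m) (by linarith [one_le_scale m])
  set f : ℕ → ℝ → ℝ := fun q => fq γ ψ (ab (cls ψ q)).1 (ab (cls ψ q)).2 q with hf
  have hfn : ∀ q x, 0 ≤ f q x := fun q x => fq_nonneg γ ψ _ _ q x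
  -- quasi-independence across classes
  have hfar : ∀ q ∈ P, ∀ r ∈ P, cls ψ q < cls ψ r → q ^ 8 ≤ r := by
    intro q hq r hr hlt
    obtain ⟨h2, -, -, -, -, hL, hLo, -⟩ := hgood q hq.1
    obtain ⟨h2', -, -, -, -, hL', -, hLr⟩ := hgood r hr.1
    have hN : cls ψ q + (N0 + 1) ≤ cls ψ r := by
      have hmod : cls ψ q ≡ cls ψ r [MOD N0 + 1] := by rw [Nat.ModEq, hq.2.1, hr.2.1]
      have := Nat.le_of_dvd (by omega) ((Nat.modEq_iff_dvd' hlt.le).1 hmod)
      omega
    have hs : (1 + zeta0) ^ N0 * ((1 + zeta0) * scale (cls ψ q)) ≤ scale (cls ψ r) := by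
      rw [← mul_assoc, ← pow_succ, scale, ← pow_add]
      exact pow_le_pow_right₀ hz.le (by omega)
    have key : 32 / c * (c / 2 * Real.log q) ≤ 2 * Real.log r := by
      calc 32 / c * (c / 2 * Real.log q)
          ≤ (1 + zeta0) ^ N0 * ((1 + zeta0) * scale (cls ψ q)) :=
            mul_le_mul hN0.le (hLo.trans (cls_spec ψ q hL).2)
              (mul_nonneg (by linarith) (Real.log_nonneg (by exact_mod_cast (by omega : 1 ≤ q))))
              (by positivity)
        _ ≤ scale (cls ψ r) := hs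
        _ ≤ _ := (cls_spec ψ r hL').1.trans hLr
    have h8 : ((8 : ℕ) : ℝ) * Real.log q ≤ Real.log r := by
      rw [show 32 / c * (c / 2 * Real.log q) = 16 * Real.log q by field_simp; ring] at key
      push_cast
      linarith
    rw [← Real.log_pow, Real.log_le_log_iff (by positivity) (by positivity)] at h8
    exact_mod_cast h8
  have hX : ∀ q ∈ P, ∀ r ∈ P, cls ψ q ≠ cls ψ r →
      ∫ x in Set.Ico (0 : ℝ) 1, f q x * f r x ≤ max C2 0 * mu ψ q * mu ψ r := by
    intro q hq r hr hne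
    have main : ∀ q ∈ P, ∀ r ∈ P, cls ψ q < cls ψ r →
        ∫ x in Set.Ico (0 : ℝ) 1, f q x * f r x ≤ max C2 0 * mu ψ q * mu ψ r := by
      intro q hq r hr hlt
      obtain ⟨h2, hq0, hp, hh, -⟩ := hgood q hq.1
      obtain ⟨-, -, hp', hh', -⟩ := hgood r hr.1
      refine (hcross γ ψ _ _ _ _ q r (hab _).2.2.1 (hab _).2.2.1 hq0 (by omega)
        (hfar q hq r hr hlt) hq.1.2 hh hp'.le hh').trans ?_
      exact mul_le_mul_of_nonneg_right (mul_le_mul_of_nonneg_right (le_max_left _ _)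
        (mu_nonneg hψ q)) (mu_nonneg hψ r)
    rcases lt_or_gt_of_ne hne with h | h
    · exact main q hq r hr h
    · simp only [mul_comm (f q _) (f r _)]
      refine (main r hr q hq h).trans_eq ?_
      ring
  -- the blocks
  choose T hT hTsum using exists_block (mu ψ) P (mu_nonneg hψ) hPdiv
  set M : ℕ → ℝ := fun k => ∑ q ∈ T k, mu ψ q with hMdef
  have hM : ∀ k, 1 ≤ M k ∧ (k : ℝ) + 1 ≤ M k := fun k =>
    ⟨le_trans (by linarith [Nat.cast_nonneg (α := ℝ) k]) (hTsum k), hTsum k⟩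
  set Tot := 2 * max C1 0 + max C2 0 with hTot
  have hsq : ∀ k, ∫ x in Set.Ico (0 : ℝ) 1, (∑ q ∈ T k, f q x) ^ 2 ≤ Tot * M k ^ 2 := by
    intro k
    rw [sq_integral γ ψ (fun q => ab (cls ψ q)) (T k)]
    refine (pairs_bound (T k) (cls ψ) (mu ψ) _ (max C1 0) (max C2 0) (mu_nonneg hψ)
      (le_max_right _ _) (le_max_right _ _) ?_
      fun q hq r hr hne => hX q (hT k q hq).1 r (hT k r hr).1 hne).trans ?_
    · intro j hj
      obtain ⟨q', hq', rfl⟩ := mem_image.1 hj
      set S := (T k).filter (cls ψ · = cls ψ q') with hS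
      have hSc : IsCell zeta0 K (scale (cls ψ q')) S ψ := by
        intro q hq
        obtain ⟨hqT, hqc⟩ := mem_filter.1 hq
        obtain ⟨h2, -, hp, -, -, hL, hLo, -⟩ := hgood q (hT k q hqT).1.1
        obtain ⟨s1, s2⟩ := cls_spec ψ q hL
        rw [hqc] at s1 s2
        refine ⟨by omega, ?_, ?_, ?_⟩
        · rw [← Real.le_log_iff_exp_le hp]; linarith
        · rw [← Real.log_le_iff_le_exp hp]; linarith
        · calc Real.log q = 2 / c * (c / 2 * Real.log q) := by field_simp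
            _ ≤ 2 / c * ((1 + zeta0) * scale (cls ψ q')) :=
                mul_le_mul_of_nonneg_left (hLo.trans s2) (by positivity)
            _ = _ := by rw [hK]; ring
      have ht0 : t0 ≤ scale (cls ψ q') :=
        hm0.le.trans (pow_le_pow_right₀ hz.le (hT k q' hq').1.2.2)
      have h := hcell γ ψ _ S (ab (cls ψ q')).1 (ab (cls ψ q')).2 ht0 hψ hSc (hab _)
      rw [sq_integral γ ψ (fun _ => ab (cls ψ q')) S] at h
      have e : ∀ q ∈ S, ab (cls ψ q) = ab (cls ψ q') := fun q hq => by rw [(mem_filter.1 hq).2]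
      have hnn : 0 ≤ msum (mu ψ) S := sum_nonneg fun q _ => mu_nonneg hψ q
      calc _ = ∑ q ∈ S, ∑ r ∈ S, ∫ x in Set.Ico (0 : ℝ) 1,
            fq γ ψ (ab (cls ψ q')).1 (ab (cls ψ q')).2 q x
              * fq γ ψ (ab (cls ψ q')).1 (ab (cls ψ q')).2 r x :=
            sum_congr rfl fun q hq => sum_congr rfl fun r hr => by simp only [hf, e q hq, e r hr]
        _ ≤ C1 * (msum (mu ψ) S + msum (mu ψ) S ^ 2) := h
        _ ≤ _ := mul_le_mul_of_nonneg_right (le_max_left _ _) (by positivity)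
    · have h1 : M k ≤ M k ^ 2 := by nlinarith [(hM k).1]
      have h2 := mul_le_mul_of_nonneg_left h1 (le_max_right C1 0)
      rw [hTot]
      simp only [hMdef] at h2 ⊢
      linarith
  set F : ℕ → ℝ → ℝ := fun k x => (∑ q ∈ T k, f q x) / (2 * M k) with hF
  have hE : Summable (fun q : ℕ => (q : ℝ) ^ (-(1 + c / 4))) :=
    Real.summable_nat_rpow.2 (by linarith)
  set E := max C3 0 * max C4 0 * ∑' q : ℕ, (q : ℝ) ^ (-(1 + c / 4)) with hEdef
  refine full_measure_of_blocks γ ψ F (Tot / 4)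
    (fun k => (Finset.measurable_sum _ fun q _ => fq_measurable γ ψ _ _ q).div_const _)
    (fun k x => div_nonneg (sum_nonneg fun q _ => hfn q x) (by linarith [(hM k).1]))
    (fun k => ⟨((T k).card : ℝ) / (2 * M k), fun x => ?_⟩) ?_ ?_ ?_
  · refine div_le_div_of_nonneg_right ?_ (by linarith [(hM k).1])
    calc ∑ q ∈ T k, f q x ≤ ∑ q ∈ T k, (1 : ℝ) := sum_le_sum fun q _ => fq_le_one γ ψ _ _ q x
      _ = ((T k).card : ℝ) := by simp
  · intro k x hne
    obtain ⟨q, hq, hq'⟩ := exists_ne_zero_of_sum_ne_zero (left_ne_zero_of_mul hne)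
    obtain ⟨hqP, hkq⟩ := hT k q hq
    exact ⟨q, hkq, by have := (hgood q hqP.1).1; omega, fq_ne_zero γ ψ _ _ q x hq'⟩
  · intro k
    have hpos : (0 : ℝ) < M k := by linarith [(hM k).1]
    simp only [hF, div_pow]
    rw [integral_div, div_le_iff₀ (by positivity)]
    exact (hsq k).trans_eq (by ring)
  · intro a b ha hab' hb1
    rw [← tendsto_sub_nhds_zero_iff]
    refine squeeze_zero_norm (a := fun k : ℕ => E / (2 * ((k : ℝ) + 1))) (fun k => ?_) ?_
    · have hpos : (0 : ℝ) < M k := by linarith [(hM k).1]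
      have hfi : ∀ q ∈ T k, IntegrableOn (f q) (Set.Ioc a b) := fun q _ =>
        IntegrableOn.of_bound (by simp [Real.volume_Ioc]) (fq_measurable γ ψ _ _ q).aestronglyMeasurable
          1 (Eventually.of_forall fun x => by
            rw [Real.norm_of_nonneg (hfn q x)]; exact fq_le_one γ ψ _ _ q x)
      have e : (∫ x in Set.Ioc a b, F k x) - (b - a)
          = (∑ q ∈ T k, ((∫ x in Set.Ioc a b, f q x) - (b - a) * (2 * mu ψ q))) / (2 * M k) := by
        simp only [hF]
        rw [integral_div, integral_finsetSum _ hfi, sum_sub_distrib, ← mul_sum, ← mul_sum]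
        simp only [hMdef] at hpos ⊢
        field_simp
      rw [Real.norm_eq_abs, e, abs_div, abs_of_pos (by linarith : (0 : ℝ) < 2 * M k)]
      refine div_le_div₀ (by rw [hEdef]; positivity) ?_ (by positivity) (by linarith [(hM k).2])
      refine (abs_sum_le_sum_abs _ _).trans ?_
      calc ∑ q ∈ T k, |(∫ x in Set.Ioc a b, f q x) - (b - a) * (2 * mu ψ q)|
          ≤ ∑ q ∈ T k, max C3 0 * max C4 0 * (q : ℝ) ^ (-(1 + c / 4)) := by
            refine sum_le_sum fun q hq => ?_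
            obtain ⟨h2, -, hp, hh, hup, -⟩ := hgood q (hT k q hq).1.1
            have hqR : (0 : ℝ) < q := by exact_mod_cast (by omega : 0 < q)
            refine (hfirst γ ψ _ _ q a b (hab _).2.2.1 (by omega) hp.le hh ha hab' hb1).trans ?_
            calc C3 * ψ q * (q.divisors.card : ℝ) / q
                ≤ max C3 0 * (q : ℝ) ^ (-(c / 2)) * (max C4 0 * (q : ℝ) ^ (c / 4)) / q := by
                  refine div_le_div_of_nonneg_right ?_ hqR.le
                  exact mul_le_mul (mul_le_mul (le_max_left _ _) hup hp.le (le_max_right _ _))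
                    ((hdivb q (by omega)).trans
                      (mul_le_mul_of_nonneg_right (le_max_left _ _) (by positivity)))
                    (Nat.cast_nonneg _) (mul_nonneg (le_max_right _ _) (by positivity))
              _ = max C3 0 * max C4 0
                    * ((q : ℝ) ^ (-(c / 2)) * (q : ℝ) ^ (c / 4) / (q : ℝ) ^ (1 : ℝ)) := by
                  rw [Real.rpow_one]; ring
              _ = _ := by
                  rw [← Real.rpow_add hqR, ← Real.rpow_sub hqR]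
                  congr 2
                  ring
        _ ≤ E := by
            rw [← mul_sum, hEdef]
            exact mul_le_mul_of_nonneg_left
              (hE.sum_le_tsum _ fun q _ => Real.rpow_nonneg (Nat.cast_nonneg q) _) (by positivity)
    · refine tendsto_const_nhds.div_atTop ?_
      exact (tendsto_natCast_atTop_atTop.atTop_add tendsto_const_nhds).const_mul_atTop two_pos

end Vale.Agent.P028
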