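import Vale.Agent.P028.Basic

/-! P028 module MEASURE: L² criterion for full measure (no zero-one law needed).
Proof idea: `∫_S F k → |S|` for every measurable `S ⊆ (0,1]` (Dynkin system, the tails are controlled
by the L² bound); the set `E_N` of `x` in no `E_q`, `q ≥ N`, satisfies `∫_{E_N} F k = 0` for `k ≥ N`,
so it is null; it is invariant under integer translations. -/

namespace Vale.Agent.P028

open Finset MeasureTheory Filter Topology

namespace MeasureAux

lemma measurable_distInt : Measurable distInt := by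
  have hr : Measurable (round : ℝ → ℤ) := by
    have : (round : ℝ → ℤ) = fun x => ⌊x + 1 / 2⌋ := funext round_eq
    rw [this]
    exact Int.measurable_floor.comp (measurable_id.add_const _)
  exact continuous_abs.measurable.comp
    (measurable_id.sub ((measurable_of_countable (fun k : ℤ => (k : ℝ))).comp hr))

lemma distInt_add_int (x : ℝ) (m : ℤ) : distInt (x + m) = distInt x := by
  unfold distInt
  rw [round_add_intCast]
  push_cast
  rw [add_sub_add_right_eq_sub]

lemma vol_I_ne_top : volume (Set.Ioc (0 : ℝ) 1) ≠ ⊤ := by simp [Real.volume_Ioc]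

/-- The integrals over all measurable subsets of `(0,1]` converge to their measure. -/
lemma tendsto_setIntegral (F : ℕ → ℝ → ℝ) (C : ℝ) (hnn : ∀ k x, 0 ≤ F k x)
    (hi : ∀ k, IntegrableOn (F k) (Set.Ioc 0 1))
    (hi2 : ∀ k, IntegrableOn (fun x => F k x ^ 2) (Set.Ioc 0 1))
    (hL2 : ∀ k, ∫ x in Set.Ioc (0 : ℝ) 1, F k x ^ 2 ≤ C)
    (hint : ∀ a b : ℝ, 0 ≤ a → a ≤ b → b ≤ 1 →
      Tendsto (fun k => ∫ x in Set.Ioc a b, F k x) atTop (𝓝 (b - a)))
    (S : Set ℝ) (hS : MeasurableSet S) :
    Tendsto (fun k => ∫ x in S ∩ Set.Ioc 0 1, F k x) atTop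
      (𝓝 (volume.real (S ∩ Set.Ioc 0 1))) := by
  induction S, hS using MeasurableSpace.induction_on_inter
    (BorelSpace.measurable_eq.trans (borel_eq_generateFrom_Ioc ℝ))
    (isPiSystem_Ioc (id : ℝ → ℝ) (id : ℝ → ℝ)) with
  | empty => simp
  | basic t ht =>
    obtain ⟨l, u, -, rfl⟩ := ht
    rw [Set.Ioc_inter_Ioc]
    by_cases h : max l 0 ≤ min u 1
    · rw [Real.volume_real_Ioc_of_le h]
      exact hint _ _ (le_max_right _ _) h (min_le_right _ _)
    · rw [Set.Ioc_eq_empty (fun h' => h h'.le)]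
      simp
  | compl t htm ih =>
    have e : ∀ g : ℝ → ℝ, IntegrableOn g (Set.Ioc 0 1) →
        ∫ x in tᶜ ∩ Set.Ioc 0 1, g x
          = (∫ x in Set.Ioc 0 1, g x) - ∫ x in t ∩ Set.Ioc 0 1, g x := fun g hg => by
      rw [← integral_inter_add_sdiff htm hg, Set.inter_comm (Set.Ioc (0 : ℝ) 1) t,
        Set.sdiff_eq, Set.inter_comm _ tᶜ]
      ring
    have hv : volume.real (tᶜ ∩ Set.Ioc (0 : ℝ) 1) = (1 - 0) - volume.real (t ∩ Set.Ioc 0 1) := by
      have := e (fun _ => (1 : ℝ)) (integrableOn_const vol_I_ne_top)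
      simpa using this
    rw [hv, show (fun k => ∫ x in tᶜ ∩ Set.Ioc 0 1, F k x) = fun k =>
        (∫ x in Set.Ioc 0 1, F k x) - ∫ x in t ∩ Set.Ioc 0 1, F k x from funext fun k => e _ (hi k)]
    exact (hint 0 1 le_rfl zero_le_one le_rfl).sub ih
  | iUnion f hd hfm ih =>
    set I := Set.Ioc (0 : ℝ) 1 with hI
    set g : ℕ → Set ℝ := fun i => f i ∩ I with hg
    have hgm : ∀ i, MeasurableSet (g i) := fun i => (hfm i).inter measurableSet_Ioc
    have hgd : Pairwise (Function.onFun Disjoint g) :=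
      hd.mono fun i j h => h.mono Set.inter_subset_left Set.inter_subset_left
    have hgI : ∀ i, g i ⊆ I := fun i => Set.inter_subset_right
    have hU : (⋃ i, f i) ∩ I = ⋃ i, g i := Set.iUnion_inter _ _
    rw [hU]
    have hUI : (⋃ i, g i) ⊆ I := Set.iUnion_subset hgI
    have hUm : MeasurableSet (⋃ i, g i) := .iUnion hgm
    set T : ℕ → Set ℝ := fun n => (⋃ i, g i) \ ⋃ i ∈ range n, g i with hT
    have hTI : ∀ n, T n ⊆ I := fun n => Set.sdiff_subset.trans hUI
    have hsplit : ∀ (φ : ℝ → ℝ), IntegrableOn φ I → ∀ n,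
        ∫ x in ⋃ i, g i, φ x = (∑ i ∈ range n, ∫ x in g i, φ x) + ∫ x in T n, φ x := by
      intro φ hφ n
      rw [← integral_biUnion_finset (range n) (fun i _ => hgm i)
        (fun i _ j _ h => hgd h) (fun i _ => hφ.mono_set (hgI i)),
        ← integral_inter_add_sdiff (Finset.measurableSet_biUnion (range n) fun i _ => hgm i)
          (hφ.mono_set hUI),
        Set.inter_eq_right.2 (Set.iUnion₂_subset fun i _ => Set.subset_iUnion g i)]
    have hone : IntegrableOn (fun _ : ℝ => (1 : ℝ)) I := integrableOn_const vol_I_ne_top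
    have hvol : ∀ n, volume.real (⋃ i, g i)
        = (∑ i ∈ range n, volume.real (g i)) + volume.real (T n) := fun n => by
      have := hsplit _ hone n
      simpa using this
    have htail : Tendsto (fun n => volume.real (T n)) atTop (𝓝 0) := by
      have h := (hasSum_integral_iUnion (μ := volume) (f := fun _ : ℝ => (1 : ℝ)) hgm hgd
        (hone.mono_set hUI)).tendsto_sum_nat
      simp only [setIntegral_const, smul_eq_mul, mul_one] at h
      have := (tendsto_const_nhds (x := volume.real (⋃ i, g i))).sub h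
      rw [sub_self] at this
      refine this.congr fun n => ?_
      linarith [hvol n]
    rw [Metric.tendsto_atTop]
    intro δ hδ
    set ε := δ / (4 * (|C| + 1)) with hε
    have hε0 : 0 < ε := by positivity
    have hεC : ε * C ≤ δ / 4 := by
      calc ε * C ≤ ε * (|C| + 1) :=
            mul_le_mul_of_nonneg_left (by linarith [le_abs_self C]) hε0.le
        _ = δ / 4 := by rw [hε]; field_simp
    obtain ⟨n, hn⟩ := (htail.eventually (gt_mem_nhds (lt_min (by positivity : (0 : ℝ) < ε * δ / 4)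
      (by positivity : (0 : ℝ) < δ / 4)))).exists
    obtain ⟨hn1, hn2⟩ := lt_min_iff.1 hn
    have hsum : Tendsto (fun k => ∑ i ∈ range n, ∫ x in g i, F k x) atTop
        (𝓝 (∑ i ∈ range n, volume.real (g i))) := tendsto_finsetSum _ fun i _ => ih i
    obtain ⟨K, hK⟩ := Metric.tendsto_atTop.1 hsum (δ / 4) (by positivity)
    refine ⟨K, fun k hk => ?_⟩
    have h1 := hK k hk
    rw [Real.dist_eq, abs_lt] at h1
    have h2 : 0 ≤ ∫ x in T n, F k x :=
      setIntegral_nonneg (hUm.diff (Finset.measurableSet_biUnion (range n) fun i _ => hgm i))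
        fun x _ => hnn k x
    have h3 : ∫ x in T n, F k x ≤ ε * C + 1 / ε * volume.real (T n) := by
      have hT1 : IntegrableOn (fun _ : ℝ => 1 / ε) (T n) :=
        integrableOn_const (ne_top_of_le_ne_top vol_I_ne_top (measure_mono (hTI n)))
      have hT2 : IntegrableOn (fun x => ε * F k x ^ 2) (T n) :=
        ((hi2 k).mono_set (hTI n)).const_mul ε
      calc ∫ x in T n, F k x ≤ ∫ x in T n, (ε * F k x ^ 2 + 1 / ε) := by
            refine integral_mono ((hi k).mono_set (hTI n)) (hT2.add hT1) fun x => ?_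
            have h := sq_nonneg (ε * F k x - 1)
            rw [show ε * F k x ^ 2 + 1 / ε = (ε ^ 2 * F k x ^ 2 + 1) / ε by field_simp,
              le_div_iff₀ hε0]
            nlinarith [mul_nonneg hε0.le (hnn k x)]
        _ = ε * (∫ x in T n, F k x ^ 2) + 1 / ε * volume.real (T n) := by
            rw [integral_add hT2 hT1, integral_const_mul, setIntegral_const, smul_eq_mul,
              mul_comm (1 / ε)]
        _ ≤ _ := by
            have := setIntegral_mono_set (hi2 k)
              (Eventually.of_forall fun x => sq_nonneg (F k x)) (LE.le.eventuallyLE (hTI n))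
            have := mul_le_mul_of_nonneg_left (this.trans (hL2 k)) hε0.le
            linarith
    have h4 : 1 / ε * volume.real (T n) < δ / 4 := by
      rw [div_mul_eq_mul_div, one_mul, div_lt_iff₀ hε0]
      linarith
    rw [Real.dist_eq, abs_lt, hsplit _ (hi k) n, hvol n]
    have := measureReal_nonneg (μ := (volume : Measure ℝ)) (s := T n)
    constructor <;> linarith

end MeasureAux

open MeasureAux in
theorem full_measure_of_blocks (γ : ℝ) (ψ : ℕ → ℝ) (F : ℕ → ℝ → ℝ) (C : ℝ)
    (hmeas : ∀ k, Measurable (F k)) (hnn : ∀ k x, 0 ≤ F k x)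
    (hbdd : ∀ k, ∃ M : ℝ, ∀ x, F k x ≤ M)
    (hsupp : ∀ k x, F k x ≠ 0 → ∃ q : ℕ, k ≤ q ∧ 0 < q ∧ distInt ((q : ℝ) * x - γ) < ψ q)
    (hL2 : ∀ k, ∫ x in Set.Ico (0 : ℝ) 1, (F k x) ^ 2 ≤ C)
    (hint : ∀ a b : ℝ, 0 ≤ a → a ≤ b → b ≤ 1 →
      Tendsto (fun k => ∫ x in Set.Ioc a b, F k x) atTop (𝓝 (b - a))) :
    ∀ᵐ x : ℝ, {q : ℕ | 0 < q ∧ distInt ((q : ℝ) * x - γ) < ψ q}.Infinite := by
  have hi : ∀ k, IntegrableOn (F k) (Set.Ioc 0 1) := fun k => by
    obtain ⟨M, hM⟩ := hbdd k
    exact IntegrableOn.of_bound (by simp [Real.volume_Ioc]) (hmeas k).aestronglyMeasurable M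
      (Eventually.of_forall fun x => by rw [Real.norm_of_nonneg (hnn k x)]; exact hM x)
  have hi2 : ∀ k, IntegrableOn (fun x => F k x ^ 2) (Set.Ioc 0 1) := fun k => by
    obtain ⟨M, hM⟩ := hbdd k
    exact IntegrableOn.of_bound (by simp [Real.volume_Ioc])
      ((hmeas k).pow_const 2).aestronglyMeasurable (M ^ 2)
      (Eventually.of_forall fun x => by
        rw [Real.norm_of_nonneg (sq_nonneg _)]; exact pow_le_pow_left₀ (hnn k x) (hM x) 2)
  have hL2' : ∀ k, ∫ x in Set.Ioc (0 : ℝ) 1, F k x ^ 2 ≤ C := fun k => by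
    rw [← integral_Ico_eq_integral_Ioc]; exact hL2 k
  set E : ℕ → Set ℝ :=
    fun N => {x | ∀ q : ℕ, N ≤ q → 0 < q → ψ q ≤ distInt ((q : ℝ) * x - γ)} with hE
  have hEm : ∀ N, MeasurableSet (E N) := fun N => by
    simp only [hE, Set.ofPred_forall]
    exact MeasurableSet.iInter fun q => MeasurableSet.iInter fun _ => MeasurableSet.iInter fun _ =>
      measurableSet_le measurable_const
        (measurable_distInt.comp ((measurable_const_mul _).sub_const _))
  have hnull : ∀ N, volume (E N ∩ Set.Ioc 0 1) = 0 := fun N => by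
    have h := tendsto_setIntegral F C hnn hi hi2 hL2' hint (E N) (hEm N)
    have h0 : Tendsto (fun k => ∫ x in E N ∩ Set.Ioc 0 1, F k x) atTop (𝓝 0) := by
      refine tendsto_const_nhds.congr' ?_
      filter_upwards [eventually_ge_atTop N] with k hk
      symm
      refine setIntegral_eq_zero_of_forall_eq_zero fun x hx => ?_
      by_contra hne
      obtain ⟨q, hq1, hq2, hq3⟩ := hsupp k x hne
      exact absurd (hx.1 q (hk.trans hq1) hq2) (not_le.2 hq3)
    exact (measureReal_eq_zero_iff (measure_inter_ne_top_of_right_ne_top vol_I_ne_top)).1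
      (tendsto_nhds_unique h h0)
  rw [ae_iff]
  refine measure_mono_null (t := ⋃ N : ℕ, ⋃ m : ℤ, (fun x : ℝ => x + m) ⁻¹' (E N ∩ Set.Ioc 0 1))
    (fun x hx => ?_) (measure_iUnion_null fun N => measure_iUnion_null fun m => ?_)
  · obtain ⟨b, hb⟩ := (Set.not_infinite.1 hx).bddAbove
    refine Set.mem_iUnion.2 ⟨b + 1, Set.mem_iUnion.2 ⟨1 - ⌈x⌉, fun q hq hq0 => ?_, ?_, ?_⟩⟩
    · by_contra hlt
      rw [not_le, show (q : ℝ) * (x + ((1 - ⌈x⌉ : ℤ) : ℝ)) - γ
          = (q : ℝ) * x - γ + (((q : ℤ) * (1 - ⌈x⌉) : ℤ) : ℝ) by push_cast; ring,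
        distInt_add_int] at hlt
      have := hb ⟨hq0, hlt⟩
      omega
    · have := Int.ceil_lt_add_one x
      push_cast; linarith
    · have := Int.le_ceil x
      push_cast; linarith
  · rw [measure_preimage_add_right]
    exact hnull N

end Vale.Agent.P028
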