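import Vale.Agent.P028.Basic
import Vale.Agent.P028.Arith

/-! P028 module OVERLAP: exact CRT overlap bound, first moments, cross-cell bound. -/

namespace Vale.Agent.P028

open Finset MeasureTheory

namespace Overlap

/-! ### Arithmetic -/

/-- The indicator that `p` does not divide `x`. -/
noncomputable def nd (p : ℕ) (x : ℤ) : ℝ := if (p : ℤ) ∣ x then 0 else 1

lemma nd_nonneg (p : ℕ) (x : ℤ) : 0 ≤ nd p x := by unfold nd; split_ifs <;> norm_num

lemma nd_le_one (p : ℕ) (x : ℤ) : nd p x ≤ 1 := by unfold nd; split_ifs <;> norm_num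

lemma sum_range_mul_nat (F : ℕ → ℝ) (M : ℕ) :
    ∀ n, ∑ t ∈ range (n * M), F t = ∑ j ∈ range n, ∑ i ∈ range M, F (i + M * j)
  | 0 => by simp
  | n + 1 => by
    rw [Nat.succ_mul, sum_range_add, sum_range_mul_nat F M n, sum_range_succ]
    congr 1
    exact sum_congr rfl fun i _ => by rw [Nat.add_comm, Nat.mul_comm]

lemma periodic_nat {F : ℤ → ℝ} {M : ℕ} (h : Function.Periodic F (M : ℤ)) (i : ℤ) (j : ℕ) :
    F (i + M * j) = F i := by
  rw [mul_comm]
  exact h.nat_mul j i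

lemma sum_block {F : ℤ → ℝ} {M : ℕ} (h : Function.Periodic F (M : ℤ)) (n : ℕ) :
    ∑ t ∈ range (n * M), F t = n * ∑ t ∈ range M, F t := by
  rw [sum_range_mul_nat]
  push_cast
  simp only [periodic_nat h, sum_const, card_range, nsmul_eq_mul]

lemma sum_range_zmod {p : ℕ} [NeZero p] (f : ZMod p → ℝ) :
    ∑ j ∈ range p, f (j : ZMod p) = ∑ x, f x := by
  refine sum_bij (fun j _ => (j : ZMod p)) (fun _ _ => mem_univ _) ?_ ?_ (fun _ _ => rfl)
  · intro a ha b hb e
    simpa [ZMod.natCast_eq_natCast_iff', Nat.mod_eq_of_lt (mem_range.1 ha),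
      Nat.mod_eq_of_lt (mem_range.1 hb)] using e
  · intro x _
    exact ⟨x.val, mem_range.2 (ZMod.val_lt x), ZMod.natCast_zmod_val x⟩

lemma periodic_cast {p : ℕ} [NeZero p] {G : ℤ → ℝ} (h : Function.Periodic G (p : ℤ)) (z : ℤ) :
    G z = G ((z : ZMod p).val) := by
  rw [ZMod.val_intCast]
  refine ((h.sub_int_mul_eq (z / p)).symm).trans ?_
  congr 1
  rw [Int.emod_def, mul_comm, Int.cast_id]

lemma sum_affine {p : ℕ} (hp : p.Prime) {G : ℤ → ℝ} (h : Function.Periodic G (p : ℤ))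
    {c : ℤ} (hc : ¬ (p : ℤ) ∣ c) (d : ℤ) :
    ∑ j ∈ range p, G (c * j + d) = ∑ j ∈ range p, G j := by
  have : Fact p.Prime := ⟨hp⟩
  have hc' : (c : ZMod p) ≠ 0 := fun e => hc ((ZMod.intCast_zmod_eq_zero_iff_dvd c p).1 e)
  let g : ZMod p → ℝ := fun x => G x.val
  have e1 : ∀ j : ℕ, G (c * j + d) = g ((c : ZMod p) * j + d) := fun j => by
    rw [periodic_cast h]; push_cast; rfl
  have e2 : ∀ j : ℕ, G j = g (j : ZMod p) := fun j => by
    rw [periodic_cast h]; push_cast; rfl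
  calc ∑ j ∈ range p, G (c * j + d) = ∑ j ∈ range p, g ((c : ZMod p) * (j : ZMod p) + d) :=
        sum_congr rfl fun j _ => e1 j
    _ = ∑ x, g ((c : ZMod p) * x + (d : ZMod p)) :=
        sum_range_zmod (fun x => g ((c : ZMod p) * x + (d : ZMod p)))
    _ = ∑ x, g x :=
        ((Equiv.mulLeft₀ (c : ZMod p) hc').trans (Equiv.addRight (d : ZMod p))).sum_comp g
    _ = ∑ j ∈ range p, g (j : ZMod p) := (sum_range_zmod g).symm
    _ = _ := sum_congr rfl fun j _ => (e2 j).symm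

/-- Chinese remainder theorem for sums of products of periodic functions. -/
lemma sum_crt (P : Finset ℕ) (f : ℕ → ℤ → ℝ) (hP : ∀ p ∈ P, p.Prime)
    (hf : ∀ p ∈ P, Function.Periodic (f p) (p : ℤ)) :
    ∑ t ∈ range (∏ p ∈ P, p), ∏ p ∈ P, f p t = ∏ p ∈ P, ∑ a ∈ range p, f p a := by
  induction P using Finset.induction_on with
  | empty => simp
  | @insert q P hq ih =>
    have hqp := hP q (mem_insert_self q P)
    have hP' : ∀ p ∈ P, p.Prime := fun p hp => hP p (mem_insert_of_mem hp)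
    have hf' : ∀ p ∈ P, Function.Periodic (f p) (p : ℤ) := fun p hp => hf p (mem_insert_of_mem hp)
    simp only [prod_insert hq]
    set M := ∏ p ∈ P, p with hM
    have hper : Function.Periodic (fun t : ℤ => ∏ p ∈ P, f p t) (M : ℤ) := fun t =>
      prod_congr rfl fun p hp => by
        obtain ⟨k, hk⟩ : p ∣ M := dvd_prod_of_mem _ hp
        rw [hk]; push_cast; rw [mul_comm]
        exact (hf' p hp).nat_mul k t
    have hqM : ¬ (q : ℤ) ∣ (M : ℤ) := fun hd => by
      obtain ⟨p, hp, hqd⟩ := (hqp.prime.dvd_finsetProd_iff _).1 (Int.natCast_dvd_natCast.1 hd)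
      exact hq ((Nat.prime_dvd_prime_iff_eq hqp (hP' p hp)).1 hqd ▸ hp)
    rw [sum_range_mul_nat, sum_comm, ← ih hP' hf']
    push_cast
    rw [mul_comm, sum_mul]
    refine sum_congr rfl fun i _ => ?_
    simp only [periodic_nat hper, ← sum_mul]
    rw [mul_comm]
    congr 1
    calc ∑ j ∈ range q, f q (i + M * j) = ∑ j ∈ range q, f q (M * j + i) := by
          simp only [add_comm]
      _ = _ := sum_affine hqp (hf q (mem_insert_self q P)) hqM i

/-- The mean of a product of local factors over `g` residues. -/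
lemma sum_local (P : Finset ℕ) (f : ℕ → ℤ → ℝ) (g : ℕ) (hP : ∀ p ∈ P, p.Prime)
    (hf : ∀ p ∈ P, Function.Periodic (f p) (p : ℤ)) (hc : ∀ p ∈ P, ¬ p ∣ g → ∀ t, f p t = f p 0) :
    ∑ t ∈ range g, ∏ p ∈ P, f p t = g * ∏ p ∈ P, (∑ a ∈ range p, f p a) / p := by
  set P1 := P.filter (· ∣ g) with hP1
  set P2 := P.filter (fun p => ¬ p ∣ g) with hP2
  have h1 : ∀ p ∈ P1, p.Prime := fun p hp => hP p (mem_filter.1 hp).1
  obtain ⟨n, hn⟩ : (∏ p ∈ P1, p) ∣ g :=
    Finset.prod_primes_dvd g (fun p hp => (h1 p hp).prime) (fun p hp => (mem_filter.1 hp).2)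
  set M := ∏ p ∈ P1, p with hM
  have hM0 : (M : ℝ) ≠ 0 := by
    simp only [hM, Nat.cast_prod]
    exact prod_ne_zero_iff.2 fun p hp => by exact_mod_cast (h1 p hp).ne_zero
  have hper : Function.Periodic (fun t : ℤ => ∏ p ∈ P1, f p t) (M : ℤ) := fun t =>
    prod_congr rfl fun p hp => by
      obtain ⟨k, hk⟩ : p ∣ M := dvd_prod_of_mem _ hp
      rw [hk]; push_cast; rw [mul_comm]
      exact (hf p (mem_filter.1 hp).1).nat_mul k t
  have e2 : ∀ p ∈ P2, (∑ a ∈ range p, f p a) / (p : ℝ) = f p 0 := fun p hp => by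
    obtain ⟨hpP, hpg⟩ := mem_filter.1 hp
    have hp0 : (p : ℝ) ≠ 0 := by exact_mod_cast (hP p hpP).ne_zero
    simp only [hc p hpP hpg, sum_const, card_range, nsmul_eq_mul]
    field_simp
  have e : ∀ t : ℕ, ∏ p ∈ P, f p t = (∏ p ∈ P1, f p t) * ∏ p ∈ P2, f p 0 := fun t => by
    rw [← prod_filter_mul_prod_filter_not P (· ∣ g)]
    exact congrArg _ (prod_congr rfl fun p hp => hc p (mem_filter.1 hp).1 (mem_filter.1 hp).2 _)
  simp only [e, ← sum_mul]
  rw [← prod_filter_mul_prod_filter_not P (· ∣ g) (fun p => (∑ a ∈ range p, f p a) / (p : ℝ)),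
    ← hP1, ← hP2, prod_congr rfl e2]
  have hsum : ∑ t ∈ range g, ∏ p ∈ P1, f p t = (n : ℝ) * ∏ p ∈ P1, ∑ a ∈ range p, f p a := by
    rw [← sum_crt P1 f h1 (fun p hp => hf p (mem_filter.1 hp).1), ← hM, ← sum_block hper,
      mul_comm n M, ← hn]
  have hg' : (g : ℝ) = (M : ℝ) * n := by exact_mod_cast hn
  have hM' : ((M : ℕ) : ℝ) = ∏ p ∈ P1, (p : ℝ) := Nat.cast_prod _ _
  rw [hsum, hg', prod_div_distrib, ← hM']
  field_simp

lemma periodic_nd (p : ℕ) (c d : ℤ) : Function.Periodic (fun t => nd p (c * t + d)) (p : ℤ) :=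
  fun t => by
    have h : (p : ℤ) ∣ c * (t + p) + d ↔ (p : ℤ) ∣ c * t + d := by
      rw [show c * (t + p) + d = c * t + d + c * p by ring]
      exact dvd_add_left (dvd_mul_left _ _)
    simp only [nd, h]

lemma sum_nd {p : ℕ} (hp : p.Prime) {c : ℤ} (hc : ¬ (p : ℤ) ∣ c) (d : ℤ) :
    ∑ j ∈ range p, nd p (c * j + d) = (p : ℝ) - 1 := by
  have h : Function.Periodic (nd p) (p : ℤ) := by
    have := periodic_nd p 1 0
    simpa using this
  rw [sum_affine hp h hc d]
  obtain ⟨k, rfl⟩ : ∃ k, p = k + 1 := ⟨p - 1, by have := hp.one_le; omega⟩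
  rw [sum_range_succ']
  have : ∀ i ∈ range k, nd (k + 1) ((i + 1 : ℕ) : ℤ) = 1 := fun i hi => by
    rw [nd, if_neg]
    rw [Int.natCast_dvd_natCast]
    exact fun hd => absurd (Nat.le_of_dvd (by omega) hd) (by have := mem_range.1 hi; omega)
  rw [sum_congr rfl this, show nd (k + 1) ((0 : ℕ) : ℤ) = 0 by simp [nd]]
  simp

lemma th_prod {n : ℕ} (hn : 0 < n) : th n = ∏ p ∈ n.primeFactors, (1 - 1 / (p : ℝ)) := by
  have h := congrArg (fun x : ℚ => (x : ℝ)) (Nat.totient_eq_mul_prod_factors n)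
  push_cast at h
  rw [th, h, mul_div_cancel_left₀ _ (by exact_mod_cast hn.ne' : (n : ℝ) ≠ 0)]
  simp only [one_div]

/-- The factor of the weight at `p`. -/
noncomputable def lf (B p : ℕ) (x : ℤ) : ℝ := if p ∣ B then 1 - 1 / (p : ℝ) else nd p x

lemma wt_eq (A : ℤ) (B q : ℕ) (a : ℤ) :
    wt A B q a = ∏ p ∈ q.primeFactors, lf B p ((B : ℤ) * a + A) := rfl

lemma one_sub_inv_mem {p : ℕ} (hp : p.Prime) :
    0 ≤ (1 : ℝ) - 1 / p ∧ (1 : ℝ) - 1 / p ≤ 1 := by
  have h2 : (2 : ℝ) ≤ p := by exact_mod_cast hp.two_le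
  have := one_div_le_one_div_of_le (by norm_num) h2
  have : (0 : ℝ) ≤ 1 / p := by positivity
  constructor <;> linarith

lemma lf_mem {B p : ℕ} (hp : p.Prime) (x : ℤ) : 0 ≤ lf B p x ∧ lf B p x ≤ 1 := by
  unfold lf
  split_ifs
  · exact one_sub_inv_mem hp
  · exact ⟨nd_nonneg p x, nd_le_one p x⟩

lemma wt_mem (A : ℤ) (B q : ℕ) (a : ℤ) : 0 ≤ wt A B q a ∧ wt A B q a ≤ 1 := by
  rw [wt_eq]
  exact ⟨prod_nonneg fun p hp => (lf_mem (Nat.prime_of_mem_primeFactors hp) _).1,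
    prod_le_one (fun p hp => (lf_mem (Nat.prime_of_mem_primeFactors hp) _).1)
      fun p hp => (lf_mem (Nat.prime_of_mem_primeFactors hp) _).2⟩

lemma periodic_lf (B p : ℕ) (c d : ℤ) : Function.Periodic (fun t => lf B p (c * t + d)) (p : ℤ) :=
  fun t => by
    simp only [lf]
    split_ifs
    · rfl
    · exact periodic_nd p c d t

lemma periodic_wt (A : ℤ) (B q : ℕ) : Function.Periodic (wt A B q) (q : ℤ) := fun a => by
  simp only [wt_eq]
  refine prod_congr rfl fun p hp => ?_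
  obtain ⟨k, hk⟩ := Nat.dvd_of_mem_primeFactors hp
  rw [hk]
  push_cast
  rw [mul_comm (p : ℤ)]
  exact (periodic_lf B p B A).nat_mul k a

lemma mean_lf {B p : ℕ} (hp : p.Prime) {c : ℤ} (hc : ¬ p ∣ B → ¬ (p : ℤ) ∣ c) (d : ℤ) :
    (∑ j ∈ range p, lf B p (c * j + d)) / (p : ℝ) = 1 - 1 / p := by
  have hp0 : (p : ℝ) ≠ 0 := by exact_mod_cast hp.ne_zero
  unfold lf
  split_ifs with hB
  · simp only [sum_const, card_range, nsmul_eq_mul]; field_simp
  · rw [sum_nd hp (hc hB) d, sub_div, div_self hp0]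

lemma sum_wt_period (A : ℤ) (B q : ℕ) (hq : 0 < q) :
    ∑ a ∈ range q, wt A B q a = q * th q := by
  have h := sum_local q.primeFactors (fun p t => lf B p ((B : ℤ) * t + A)) q
    (fun p hp => Nat.prime_of_mem_primeFactors hp) (fun p _ => periodic_lf B p B A)
    (fun p hp hn => absurd (Nat.dvd_of_mem_primeFactors hp) hn)
  refine Eq.trans h ?_
  rw [th_prod hq]
  refine congrArg _ (prod_congr rfl fun p hp => ?_)
  exact mean_lf (Nat.prime_of_mem_primeFactors hp)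
    (fun hB hd => hB (Int.natCast_dvd_natCast.1 hd)) A

/-- Inclusion-exclusion in an interval. -/
lemma count_nd (P : Finset ℕ) (hP : ∀ p ∈ P, p.Prime) :
    ∀ c d m n : ℤ, m ≤ n → (∀ p ∈ P, ¬ (p : ℤ) ∣ c) →
      |(∑ k ∈ Finset.Ico m n, ∏ p ∈ P, nd p (c * k + d))
        - ((n : ℝ) - m) * ∏ p ∈ P, (1 - 1 / (p : ℝ))| ≤ 2 ^ P.card - 1 := by
  induction P using Finset.induction_on with
  | empty =>
    intro c d m n hmn _
    simp only [prod_empty, sum_const, Int.card_Ico, nsmul_eq_mul, mul_one, card_empty, pow_zero,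
      sub_self]
    have : ((n - m).toNat : ℝ) = (n : ℝ) - m := by
      rw [← Int.cast_natCast, Int.toNat_of_nonneg (by omega)]; push_cast; ring
    simp [this]
  | @insert q P hq ih =>
    intro c d m n hmn hc
    have hqp := hP q (mem_insert_self q P)
    have hP' : ∀ p ∈ P, p.Prime := fun p hp => hP p (mem_insert_of_mem hp)
    have ih := ih hP'
    have : Fact q.Prime := ⟨hqp⟩
    have hcq : (c : ZMod q) ≠ 0 :=
      fun e => hc q (mem_insert_self q P) ((ZMod.intCast_zmod_eq_zero_iff_dvd c q).1 e)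
    set k0 : ℤ := ((-(d : ZMod q) * (c : ZMod q)⁻¹).val : ℤ) with hk0
    have hroot : (q : ℤ) ∣ c * k0 + d := by
      rw [← ZMod.intCast_zmod_eq_zero_iff_dvd]
      push_cast [hk0]
      rw [ZMod.natCast_zmod_val]
      field_simp
      ring
    have hiff : ∀ k, (q : ℤ) ∣ c * k + d ↔ ∃ j, k = k0 + q * j := fun k => by
      constructor
      · intro h
        have h2 : (q : ℤ) ∣ c * (k - k0) := by
          rw [show c * (k - k0) = (c * k + d) - (c * k0 + d) by ring]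
          exact dvd_sub h hroot
        obtain ⟨j, hj⟩ := ((Nat.prime_iff_prime_int.1 hqp).dvd_or_dvd h2).resolve_left
          (hc q (mem_insert_self q P))
        exact ⟨j, by linarith⟩
      · rintro ⟨j, rfl⟩
        rw [show c * (k0 + q * j) + d = c * k0 + d + c * j * q by ring]
        exact dvd_add hroot (dvd_mul_left _ _)
    have hq0 : (0 : ℝ) < q := by exact_mod_cast hqp.pos
    set m' : ℤ := ⌈((m : ℝ) - k0) / q⌉ with hm'
    set n' : ℤ := ⌈((n : ℝ) - k0) / q⌉ with hn'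
    have hmn' : m' ≤ n' := Int.ceil_le_ceil (by
      have : (m : ℝ) ≤ n := by exact_mod_cast hmn
      gcongr)
    have hset : (Finset.Ico m n).filter (fun k => (q : ℤ) ∣ c * k + d)
        = (Finset.Ico m' n').image (fun j => k0 + q * j) := by
      ext k
      simp only [Finset.mem_filter, Finset.mem_Ico, Finset.mem_image, hiff]
      have key : ∀ j : ℤ, m ≤ k0 + q * j ∧ k0 + q * j < n ↔ m' ≤ j ∧ j < n' := fun j => by
        rw [hm', hn', Int.ceil_le, Int.lt_ceil, div_le_iff₀ hq0, lt_div_iff₀ hq0]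
        constructor <;> rintro ⟨u, v⟩
        · have u' : (m : ℝ) ≤ ((k0 + q * j : ℤ) : ℝ) := Int.cast_le.2 u
          have v' : ((k0 + q * j : ℤ) : ℝ) < (n : ℝ) := Int.cast_lt.2 v
          push_cast at u' v'
          constructor <;> linarith
        · rw [← Int.cast_le (R := ℝ), ← Int.cast_lt (R := ℝ)]
          push_cast
          constructor <;> linarith
      constructor
      · rintro ⟨h, j, rfl⟩; exact ⟨j, (key j).1 h, rfl⟩
      · rintro ⟨j, h, rfl⟩; exact ⟨(key j).2 h, j, rfl⟩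
    have hsplit : ∑ k ∈ Finset.Ico m n, ∏ p ∈ insert q P, nd p (c * k + d)
        = (∑ k ∈ Finset.Ico m n, ∏ p ∈ P, nd p (c * k + d))
          - ∑ j ∈ Finset.Ico m' n', ∏ p ∈ P, nd p ((c * q) * j + (c * k0 + d)) := by
      have e : ∀ k : ℤ, ∏ p ∈ insert q P, nd p (c * k + d) = (∏ p ∈ P, nd p (c * k + d))
          - if (q : ℤ) ∣ c * k + d then ∏ p ∈ P, nd p (c * k + d) else 0 := fun k => by
        rw [prod_insert hq]
        generalize ∏ p ∈ P, nd p (c * k + d) = w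
        unfold nd
        split_ifs <;> ring
      rw [sum_congr rfl fun k _ => e k, sum_sub_distrib, ← sum_filter, hset, sum_image]
      · congr 1
        exact sum_congr rfl fun j _ => prod_congr rfl fun p _ => by ring_nf
      · intro a _ b _ hab
        simpa [hqp.ne_zero] using hab
    have h1 := abs_le.1 (ih c d m n hmn fun p hp => hc p (mem_insert_of_mem hp))
    have h2 := abs_le.1 (ih (c * q) (c * k0 + d) m' n' hmn' fun p hp hd => by
      rcases (Nat.prime_iff_prime_int.1 (hP' p hp)).dvd_or_dvd hd with h | h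
      · exact hc p (mem_insert_of_mem hp) h
      · exact hq ((Nat.prime_dvd_prime_iff_eq (hP' p hp) hqp).1 (Int.natCast_dvd_natCast.1 h) ▸ hp))
    rw [hsplit, prod_insert hq, card_insert_of_notMem hq, pow_succ]
    set Pr := ∏ p ∈ P, (1 - 1 / (p : ℝ)) with hPr
    have hPr0 : 0 ≤ Pr := prod_nonneg fun p hp => (one_sub_inv_mem (hP' p hp)).1
    have hPr1 : Pr ≤ 1 := prod_le_one (fun p hp => (one_sub_inv_mem (hP' p hp)).1)
      fun p hp => (one_sub_inv_mem (hP' p hp)).2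
    have hlen : |((n' : ℝ) - m') - ((n : ℝ) - m) / q| ≤ 1 := by
      have a1 := Int.le_ceil (((m : ℝ) - k0) / q)
      have a2 := Int.ceil_lt_add_one (((m : ℝ) - k0) / q)
      have a3 := Int.le_ceil (((n : ℝ) - k0) / q)
      have a4 := Int.ceil_lt_add_one (((n : ℝ) - k0) / q)
      have e : ((n : ℝ) - k0) / q - ((m : ℝ) - k0) / q = ((n : ℝ) - m) / q := by ring
      rw [← hm'] at a1 a2
      rw [← hn'] at a3 a4
      rw [abs_le]; constructor <;> linarith
    have h3 : |(((n' : ℝ) - m') - ((n : ℝ) - m) / q) * Pr| ≤ 1 := by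
      rw [abs_mul, abs_of_nonneg hPr0]
      exact (mul_le_mul hlen hPr1 hPr0 zero_le_one).trans_eq (mul_one 1)
    have h3 := abs_le.1 h3
    have e : ((n : ℝ) - m) * ((1 - 1 / (q : ℝ)) * Pr)
        = ((n : ℝ) - m) * Pr - ((n : ℝ) - m) / q * Pr := by ring
    rw [e, abs_le]
    constructor <;> linarith

/-- The weighted count in an interval. -/
lemma wt_count (A : ℤ) (B q : ℕ) (hq : 0 < q) (m n : ℤ) (hmn : m ≤ n) :
    |(∑ k ∈ Finset.Ico m n, wt A B q k) - ((n : ℝ) - m) * th q| ≤ (q.divisors.card : ℝ) := by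
  set P := q.primeFactors.filter (fun p => ¬ p ∣ B) with hP
  set c := ∏ p ∈ q.primeFactors.filter (fun p => p ∣ B), (1 - 1 / (p : ℝ)) with hc
  have hpr : ∀ p ∈ P, p.Prime := fun p hp => Nat.prime_of_mem_primeFactors (mem_filter.1 hp).1
  have e : ∀ k, wt A B q k = c * ∏ p ∈ P, nd p ((B : ℤ) * k + A) := fun k => by
    rw [wt_eq, ← prod_filter_mul_prod_filter_not q.primeFactors (· ∣ B)]
    congr 1
    · exact prod_congr rfl fun p hp => if_pos (mem_filter.1 hp).2
    · exact prod_congr rfl fun p hp => if_neg (mem_filter.1 hp).2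
  have e2 : th q = c * ∏ p ∈ P, (1 - 1 / (p : ℝ)) := by
    rw [th_prod hq, ← prod_filter_mul_prod_filter_not q.primeFactors (· ∣ B)]
  have hc0 : 0 ≤ c := prod_nonneg fun p hp =>
    (one_sub_inv_mem (Nat.prime_of_mem_primeFactors (mem_filter.1 hp).1)).1
  have hc1 : c ≤ 1 := prod_le_one
    (fun p hp => (one_sub_inv_mem (Nat.prime_of_mem_primeFactors (mem_filter.1 hp).1)).1)
    fun p hp => (one_sub_inv_mem (Nat.prime_of_mem_primeFactors (mem_filter.1 hp).1)).2
  have h := count_nd P hpr (B : ℤ) A m n hmn fun p hp hd =>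
    (mem_filter.1 hp).2 (Int.natCast_dvd_natCast.1 hd)
  rw [e2]
  simp only [e, ← mul_sum]
  rw [show c * (∑ k ∈ Finset.Ico m n, ∏ p ∈ P, nd p ((B : ℤ) * k + A))
      - ((n : ℝ) - m) * (c * ∏ p ∈ P, (1 - 1 / (p : ℝ)))
      = c * ((∑ k ∈ Finset.Ico m n, ∏ p ∈ P, nd p ((B : ℤ) * k + A))
      - ((n : ℝ) - m) * ∏ p ∈ P, (1 - 1 / (p : ℝ))) by ring, abs_mul, abs_of_nonneg hc0]
  have h2 : (2 : ℝ) ^ P.card ≤ (q.divisors.card : ℝ) := by
    have h4 := two_pow_omega_le_divisors q hq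
    have h5 : (2 : ℝ) ^ q.primeFactors.card ≤ (q.divisors.card : ℝ) := by exact_mod_cast h4
    exact (pow_le_pow_right₀ one_le_two (card_filter_le _ _)).trans h5
  calc _ ≤ 1 * (2 ^ P.card - 1) := mul_le_mul hc1 h (abs_nonneg _) zero_le_one
    _ ≤ _ := by linarith

/-! ### Integrals -/

/-- The weighted indicator on the integer scale. -/
noncomputable def bump (s : ℝ) (w : ℤ → ℝ) (y : ℝ) : ℝ :=
  if |y - (round y : ℝ)| < s then w (round y) else 0

lemma fq_eq (γ : ℝ) (ψ : ℕ → ℝ) (A : ℤ) (B q : ℕ) (x : ℝ) :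
    fq γ ψ A B q x = bump (ψ q) (wt A B q) ((q : ℝ) * x - γ) := rfl

lemma bump_mem {s : ℝ} {w : ℤ → ℝ} (hw : ∀ k, 0 ≤ w k ∧ w k ≤ 1) (y : ℝ) :
    0 ≤ bump s w y ∧ bump s w y ≤ 1 := by
  unfold bump
  split_ifs
  · exact hw _
  · norm_num

lemma measurable_round' : Measurable (round : ℝ → ℤ) := by
  have : (round : ℝ → ℤ) = fun x => ⌊x + 1 / 2⌋ := funext round_eq
  rw [this]
  exact Int.measurable_floor.comp (measurable_id.add_const _)

lemma measurable_bump (s : ℝ) (w : ℤ → ℝ) : Measurable (bump s w) := by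
  have hr := measurable_round'
  refine Measurable.ite (measurableSet_lt ?_ measurable_const)
    ((measurable_of_countable w).comp hr) measurable_const
  exact continuous_abs.measurable.comp
    (measurable_id.sub ((measurable_of_countable (fun k : ℤ => (k : ℝ))).comp hr))

lemma ii_of_bdd {f : ℝ → ℝ} (hm : Measurable f) (hb : ∀ x, |f x| ≤ 1) (a b : ℝ) :
    IntervalIntegrable f volume a b := by
  rw [intervalIntegrable_iff]
  exact IntegrableOn.of_bound (by simp [Set.uIoc, Real.volume_Ioc]) hm.aestronglyMeasurable 1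
    (Filter.Eventually.of_forall fun x => by simpa using hb x)

lemma ii_bump {s : ℝ} {w : ℤ → ℝ} (hw : ∀ k, 0 ≤ w k ∧ w k ≤ 1) (a b : ℝ) :
    IntervalIntegrable (bump s w) volume a b :=
  ii_of_bdd (measurable_bump s w)
    (fun x => by rw [abs_of_nonneg (bump_mem hw x).1]; exact (bump_mem hw x).2) a b

lemma round_of_near {y : ℝ} {k : ℤ} (h1 : (k : ℝ) - 1 / 2 ≤ y) (h2 : y < (k : ℝ) + 1 / 2) :
    round y = k := by
  rw [round_eq, Int.floor_eq_iff]
  constructor <;> linarith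

lemma int_cell (w : ℤ → ℝ) {s : ℝ} (h0 : 0 ≤ s) (h1 : s ≤ 1 / 2) (k : ℤ) :
    ∫ y in ((k : ℝ) - 1 / 2)..((k : ℝ) + 1 / 2), bump s w y = 2 * s * w k := by
  rw [intervalIntegral.integral_of_le (by linarith)]
  have e : ∫ y in Set.Ioc ((k : ℝ) - 1 / 2) ((k : ℝ) + 1 / 2), bump s w y
      = ∫ y in Set.Ioc ((k : ℝ) - 1 / 2) ((k : ℝ) + 1 / 2),
          (Set.Ioo ((k : ℝ) - s) ((k : ℝ) + s)).indicator (fun _ => w k) y := by
    rw [integral_Ioc_eq_integral_Ioo, integral_Ioc_eq_integral_Ioo]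
    refine setIntegral_congr_fun measurableSet_Ioo fun y hy => ?_
    obtain ⟨y1, y2⟩ := hy
    have hr := round_of_near y1.le y2
    simp only [bump, hr, Set.indicator_apply, Set.mem_Ioo]
    split_ifs with a b b <;> first
      | rfl
      | (rw [abs_lt] at a; exact absurd ⟨by linarith [a.1], by linarith [a.2]⟩ b)
      | (exact absurd (abs_lt.2 ⟨by linarith [b.1], by linarith [b.2]⟩) a)
  rw [e, setIntegral_indicator measurableSet_Ioo]
  have hi : Set.Ioc ((k : ℝ) - 1 / 2) ((k : ℝ) + 1 / 2) ∩ Set.Ioo ((k : ℝ) - s) ((k : ℝ) + s)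
      = Set.Ioo ((k : ℝ) - s) ((k : ℝ) + s) :=
    Set.inter_eq_right.2 fun y hy => ⟨by linarith [hy.1], by linarith [hy.2]⟩
  rw [hi, setIntegral_const, Real.volume_real_Ioo_of_le (by linarith), smul_eq_mul]
  ring

lemma int_cells {w : ℤ → ℝ} (hw : ∀ k, 0 ≤ w k ∧ w k ≤ 1) {s : ℝ} (h0 : 0 ≤ s) (h1 : s ≤ 1 / 2)
    {m n : ℤ} (hmn : m ≤ n) :
    ∫ y in ((m : ℝ) - 1 / 2)..((n : ℝ) - 1 / 2), bump s w y
      = 2 * s * ∑ k ∈ Finset.Ico m n, w k := by
  induction n, hmn using Int.le_induction with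
  | base => simp
  | succ n hn ih =>
    rw [← intervalIntegral.integral_add_adjacent_intervals (ii_bump hw _ ((n : ℝ) - 1 / 2))
      (ii_bump hw _ _), ih]
    have e : ((n + 1 : ℤ) : ℝ) - 1 / 2 = (n : ℝ) + 1 / 2 := by push_cast; ring
    have hins : Finset.Ico m (n + 1) = insert n (Finset.Ico m n) := by
      ext k; simp only [Finset.mem_Ico, Finset.mem_insert]; omega
    rw [e, int_cell w h0 h1 n, hins, sum_insert (by simp)]
    ring

lemma int_within {w : ℤ → ℝ} (hw : ∀ k, 0 ≤ w k ∧ w k ≤ 1) {s : ℝ} (h0 : 0 ≤ s) (h1 : s ≤ 1 / 2)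
    (y : ℝ) :
    0 ≤ ∫ t in ((round y : ℝ) - 1 / 2)..y, bump s w t ∧
      ∫ t in ((round y : ℝ) - 1 / 2)..y, bump s w t ≤ 2 * s := by
  have hr := abs_le.1 (abs_sub_round y)
  refine ⟨intervalIntegral.integral_nonneg (by linarith) fun t _ => (bump_mem hw t).1, ?_⟩
  have h := int_cell w h0 h1 (round y)
  rw [← intervalIntegral.integral_add_adjacent_intervals (ii_bump hw _ y) (ii_bump hw _ _)] at h
  have h2 : 0 ≤ ∫ t in y..((round y : ℝ) + 1 / 2), bump s w t :=
    intervalIntegral.integral_nonneg (by linarith) fun t _ => (bump_mem hw t).1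
  have h3 : 2 * s * w (round y) ≤ 2 * s :=
    mul_le_of_le_one_right (by linarith) (hw _).2
  linarith

lemma int_scale (γ : ℝ) (ψ : ℕ → ℝ) (A : ℤ) (B q : ℕ) (hq : 0 < q) (a b : ℝ) :
    ∫ x in a..b, fq γ ψ A B q x
      = (q : ℝ)⁻¹ * ∫ y in ((q : ℝ) * a - γ)..((q : ℝ) * b - γ), bump (ψ q) (wt A B q) y := by
  simp only [fq_eq]
  exact intervalIntegral.integral_comp_mul_sub _ (by exact_mod_cast hq.ne') γ

/-- The first moment on any interval. -/
lemma int_fq_approx (γ : ℝ) (ψ : ℕ → ℝ) (A : ℤ) (B q : ℕ) (hq : 0 < q) (h0 : 0 ≤ ψ q)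
    (h1 : ψ q ≤ 1 / 2) {a b : ℝ} (hab : a ≤ b) :
    |(∫ x in a..b, fq γ ψ A B q x) - (b - a) * (2 * mu ψ q)|
      ≤ 6 * ψ q * (q.divisors.card : ℝ) / q := by
  rw [int_scale γ ψ A B q hq]
  have hq0 : (0 : ℝ) < q := by exact_mod_cast hq
  have hw := wt_mem A B q
  set y0 := (q : ℝ) * a - γ with hy0
  set y1 := (q : ℝ) * b - γ with hy1
  have hy : y0 ≤ y1 := by
    have := mul_le_mul_of_nonneg_left hab hq0.le
    linarith
  have hmn : round y0 ≤ round y1 := by
    rw [round_eq, round_eq]; exact Int.floor_le_floor (by linarith)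
  have hi : ∀ x z, IntervalIntegrable (bump (ψ q) (wt A B q)) volume x z := ii_bump hw
  have e1 := intervalIntegral.integral_add_adjacent_intervals (hi ((round y0 : ℝ) - 1 / 2) y0)
    (hi y0 y1)
  have e2 := intervalIntegral.integral_add_adjacent_intervals
    (hi ((round y0 : ℝ) - 1 / 2) ((round y1 : ℝ) - 1 / 2)) (hi ((round y1 : ℝ) - 1 / 2) y1)
  have e3 := int_cells hw h0 h1 hmn
  obtain ⟨w0, w0'⟩ := int_within hw h0 h1 y0
  obtain ⟨w1, w1'⟩ := int_within hw h0 h1 y1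
  have hc := abs_le.1 (wt_count A B q hq _ _ hmn)
  have r0 := abs_le.1 (abs_sub_round y0)
  have r1 := abs_le.1 (abs_sub_round y1)
  have hd : (b - a) * q = y1 - y0 := by rw [hy0, hy1]; ring
  have ht : 0 ≤ th q ∧ th q ≤ 1 := by
    rw [th_prod hq]
    exact ⟨prod_nonneg fun p hp => (one_sub_inv_mem (Nat.prime_of_mem_primeFactors hp)).1,
      prod_le_one (fun p hp => (one_sub_inv_mem (Nat.prime_of_mem_primeFactors hp)).1)
        fun p hp => (one_sub_inv_mem (Nat.prime_of_mem_primeFactors hp)).2⟩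
  have htau : (1 : ℝ) ≤ (q.divisors.card : ℝ) := by
    exact_mod_cast Finset.card_pos.2 ⟨1, Nat.one_mem_divisors.2 hq.ne'⟩
  set τ := (q.divisors.card : ℝ) with hτ
  set I := ∫ y in y0..y1, bump (ψ q) (wt A B q) y with hI
  set S := ∑ k ∈ Finset.Ico (round y0) (round y1), wt A B q k with hS
  set R := ((round y1 : ℝ) - (round y0 : ℝ)) with hR
  have hmu : mu ψ q = th q * ψ q := rfl
  have hlen : |R - (y1 - y0)| ≤ 1 := by rw [abs_le]; constructor <;> linarith
  have hlen' := abs_le.1 ((abs_mul (R - (y1 - y0)) (th q)).trans_le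
    ((mul_le_mul hlen ((abs_of_nonneg ht.1).trans_le ht.2) (abs_nonneg _)
      zero_le_one).trans_eq (mul_one 1)))
  have hmain : |I - (y1 - y0) * (2 * mu ψ q)| ≤ 6 * ψ q * τ := by
    rw [hmu, abs_le]
    have a1 := mul_le_mul_of_nonneg_left hc.1 (by linarith : 0 ≤ 2 * ψ q)
    have a2 := mul_le_mul_of_nonneg_left hc.2 (by linarith : 0 ≤ 2 * ψ q)
    have a3 := mul_le_mul_of_nonneg_left hlen'.1 (by linarith : 0 ≤ 2 * ψ q)
    have a4 := mul_le_mul_of_nonneg_left hlen'.2 (by linarith : 0 ≤ 2 * ψ q)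
    have a5 := mul_le_mul_of_nonneg_left htau h0
    constructor <;> linarith
  rw [show (q : ℝ)⁻¹ * I - (b - a) * (2 * mu ψ q)
      = (I - (y1 - y0) * (2 * mu ψ q)) / q by rw [← hd]; field_simp,
    abs_div, abs_of_pos hq0]
  gcongr

lemma fq_periodic (γ : ℝ) (ψ : ℕ → ℝ) (A : ℤ) (B q : ℕ) :
    Function.Periodic (fq γ ψ A B q) 1 := fun x => by
  simp only [fq_eq, bump]
  rw [show (q : ℝ) * (x + 1) - γ = (q : ℝ) * x - γ + ((q : ℤ) : ℝ) by push_cast; ring,
    round_add_intCast]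
  push_cast
  rw [add_sub_add_right_eq_sub, periodic_wt A B q]

/-- The joint integral, one cell of `q` after the other. -/
lemma int_mul_eq (γ : ℝ) (ψ : ℕ → ℝ) (A A' : ℤ) (B B' q r : ℕ) (hq : 0 < q) (h0 : 0 ≤ ψ q)
    (h1 : ψ q ≤ 1 / 2) :
    ∫ x in Set.Ico (0 : ℝ) 1, fq γ ψ A B q x * fq γ ψ A' B' r x
      = ∑ a ∈ range q, wt A B q a *
          ∫ x in (((a : ℝ) + γ - ψ q) / q)..(((a : ℝ) + γ + ψ q) / q), fq γ ψ A' B' r x := by
  have hq0 : (0 : ℝ) < q := by exact_mod_cast hq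
  set G := fun x => fq γ ψ A B q x * fq γ ψ A' B' r x with hG
  have hGm : Measurable G := by
    simp only [hG, fq_eq]
    exact ((measurable_bump _ _).comp ((measurable_const_mul _).sub_const _)).mul
      ((measurable_bump _ _).comp ((measurable_const_mul _).sub_const _))
  have hGb : ∀ x, |G x| ≤ 1 := fun x => by
    have u := bump_mem (s := ψ q) (wt_mem A B q) ((q : ℝ) * x - γ)
    have v := bump_mem (s := ψ r) (wt_mem A' B' r) ((r : ℝ) * x - γ)
    simp only [hG, fq_eq]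
    rw [abs_of_nonneg (mul_nonneg u.1 v.1)]
    exact (mul_le_mul u.2 v.2 v.1 zero_le_one).trans_eq (mul_one 1)
  have hi := ii_of_bdd hGm hGb
  set c : ℕ → ℝ := fun a => ((a : ℝ) + γ - 1 / 2) / q with hc
  have hsum := intervalIntegral.sum_integral_adjacent_intervals (a := c) (n := q)
    (fun k _ => hi (c k) (c (k + 1)))
  have hper : Function.Periodic G 1 := fun x => by
    simp only [hG, fq_periodic γ ψ A B q x, fq_periodic γ ψ A' B' r x]
  rw [integral_Ico_eq_integral_Ioc, ← intervalIntegral.integral_of_le zero_le_one]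
  have hcq : c q = c 0 + 1 := by
    simp only [hc]; push_cast; field_simp; ring
  have hp := hper.intervalIntegral_add_eq (c 0) 0
  rw [zero_add, ← hcq] at hp
  rw [show (∫ x in (0 : ℝ)..1, fq γ ψ A B q x * fq γ ψ A' B' r x)
    = ∫ x in (0 : ℝ)..1, G x from rfl, ← hp, ← hsum]
  refine sum_congr rfl fun a _ => ?_
  have ha : c a ≤ c (a + 1) := by
    simp only [hc]; push_cast; gcongr; linarith
  have e1 : ((a : ℝ) + γ - ψ q) / q ≤ ((a : ℝ) + γ + ψ q) / q := by gcongr; linarith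
  rw [intervalIntegral.integral_of_le ha, intervalIntegral.integral_of_le e1,
    integral_Ioc_eq_integral_Ioo, integral_Ioc_eq_integral_Ioo, ← integral_const_mul]
  have sub : Set.Ioo (((a : ℝ) + γ - ψ q) / q) (((a : ℝ) + γ + ψ q) / q)
      ⊆ Set.Ioo (c a) (c (a + 1)) := by
    refine Set.Ioo_subset_Ioo ?_ ?_ <;> simp only [hc] <;> push_cast <;> gcongr ?_ / _ <;> linarith
  have e : ∀ x ∈ Set.Ioo (c a) (c (a + 1)), G x
      = (Set.Ioo (((a : ℝ) + γ - ψ q) / q) (((a : ℝ) + γ + ψ q) / q)).indicator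
          (fun x => wt A B q a * fq γ ψ A' B' r x) x := fun x hx => by
    obtain ⟨x1, x2⟩ := hx
    simp only [hc] at x1 x2
    push_cast at x2
    rw [div_lt_iff₀ hq0] at x1
    rw [lt_div_iff₀ hq0] at x2
    have hr : round ((q : ℝ) * x - γ) = (a : ℤ) :=
      round_of_near (by push_cast; linarith) (by push_cast; linarith)
    simp only [hG, fq_eq γ ψ A B q, bump, hr, Set.indicator_apply, Set.mem_Ioo,
      div_lt_iff₀ hq0, lt_div_iff₀ hq0, abs_lt, Int.cast_natCast]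
    split_ifs with u v v <;> first
      | rfl
      | (exact absurd ⟨by linarith [u.1], by linarith [u.2]⟩ v)
      | (exact absurd ⟨by linarith [v.1], by linarith [v.2]⟩ u)
      | simp
  rw [setIntegral_congr_fun measurableSet_Ioo e, setIntegral_indicator measurableSet_Ioo,
    Set.inter_eq_right.2 sub]

/-- An interval meets only the bumps of the integers near it. -/
lemma int_bump_le {w : ℤ → ℝ} (hw : ∀ k, 0 ≤ w k ∧ w k ≤ 1) {s : ℝ} (h0 : 0 ≤ s) {y0 y1 : ℝ}
    (hy : y0 ≤ y1) (K : Finset ℤ) (hK : ∀ k : ℤ, y0 - s < k → (k : ℝ) < y1 + s → k ∈ K) :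
    ∫ y in y0..y1, bump s w y ≤ (∑ k ∈ K, w k) * min (2 * s) (y1 - y0) := by
  rw [intervalIntegral.integral_of_le hy, sum_mul]
  have hfin : IsFiniteMeasure (volume.restrict (Set.Ioc y0 y1)) :=
    ⟨by simp [Real.volume_Ioc]⟩
  have hint : ∀ k : ℤ, Integrable ((Set.Ioo ((k : ℝ) - s) ((k : ℝ) + s)).indicator (fun _ => w k))
      (volume.restrict (Set.Ioc y0 y1)) :=
    fun k => (integrable_const _).indicator measurableSet_Ioo
  calc ∫ y in Set.Ioc y0 y1, bump s w y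
      ≤ ∫ y in Set.Ioc y0 y1, ∑ k ∈ K,
          (Set.Ioo ((k : ℝ) - s) ((k : ℝ) + s)).indicator (fun _ => w k) y := by
        refine setIntegral_mono_on ((intervalIntegrable_iff_integrableOn_Ioc_of_le hy).1
          (ii_bump hw _ _)) (integrable_finsetSum _ fun k _ => hint k) measurableSet_Ioc
          fun y hy' => ?_
        have hnn : ∀ k ∈ K, 0 ≤ (Set.Ioo ((k : ℝ) - s) ((k : ℝ) + s)).indicator (fun _ => w k) y :=
          fun k _ => Set.indicator_nonneg (fun _ _ => (hw k).1) y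
        unfold bump
        split_ifs with h
        · rw [abs_lt] at h
          refine le_trans (le_of_eq ?_) (single_le_sum hnn
            (hK (round y) (by linarith [hy'.1]) (by linarith [hy'.2])))
          rw [Set.indicator_of_mem]
          exact ⟨by linarith, by linarith⟩
        · exact sum_nonneg hnn
    _ = ∑ k ∈ K, ∫ y in Set.Ioc y0 y1,
          (Set.Ioo ((k : ℝ) - s) ((k : ℝ) + s)).indicator (fun _ => w k) y :=
        integral_finsetSum _ fun k _ => hint k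
    _ ≤ _ := sum_le_sum fun k _ => by
        rw [setIntegral_indicator measurableSet_Ioo, setIntegral_const, smul_eq_mul, mul_comm]
        refine mul_le_mul_of_nonneg_left (le_min ?_ ?_) (hw k).1
        · refine le_trans (measureReal_mono Set.inter_subset_right
            (by simp [Real.volume_Ioo])) (le_of_eq ?_)
          rw [Real.volume_real_Ioo_of_le (by linarith)]; ring
        · refine le_trans (measureReal_mono Set.inter_subset_left
            (by simp [Real.volume_Ioc])) (le_of_eq ?_)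
          rw [Real.volume_real_Ioc_of_le hy]

open Classical in
/-- The divisor sum as an Euler product. -/
lemma sum_dset {B q r : ℕ} {D : ℤ} (hg : 0 < Nat.gcd q r) (_hD : D ≠ 0) :
    ∑ d ∈ (dset B q r).filter (fun d : ℕ => (d : ℤ) ∣ D), (1 : ℝ) / d.totient
      = ∏ p ∈ (Nat.gcd q r).primeFactors.filter
          (fun p => ¬ p ∣ uu q r * vv q r * B ∧ (p : ℤ) ∣ D), (1 + 1 / ((p : ℝ) - 1)) := by
  set g := Nat.gcd q r with hgdef
  set s := g.primeFactors.filter (fun p => ¬ p ∣ uu q r * vv q r * B ∧ (p : ℤ) ∣ D) with hs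
  have hsp : ∀ p ∈ s, p.Prime := fun p hp => Nat.prime_of_mem_primeFactors (mem_filter.1 hp).1
  rw [Finset.prod_one_add]
  symm
  refine sum_bij' (fun t _ => ∏ p ∈ t, p) (fun d _ => d.primeFactors) ?_ ?_ ?_ ?_ ?_
  · intro t ht
    rw [mem_powerset] at ht
    have htp : ∀ p ∈ t, p.Prime := fun p hp => hsp p (ht hp)
    have hsq : Squarefree (∏ p ∈ t, p) :=
      Finset.squarefree_prod_of_pairwise_isCoprime
        (fun a ha b hb hab => Nat.coprime_iff_isRelPrime.1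
          ((Nat.coprime_primes (htp a ha) (htp b hb)).2 hab))
        fun p hp => (htp p hp).squarefree
    simp only [dset, mem_filter, Nat.mem_divisors]
    refine ⟨⟨⟨?_, hg.ne'⟩, hsq, Nat.Coprime.prod_left fun p hp =>
      (htp p hp).coprime_iff_not_dvd.2 (mem_filter.1 (ht hp)).2.1⟩, ?_⟩
    · exact Finset.prod_primes_dvd _ (fun p hp => (htp p hp).prime)
        fun p hp => Nat.dvd_of_mem_primeFactors (mem_filter.1 (ht hp)).1
    · push_cast
      exact Finset.prod_dvd_of_coprime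
        (fun a ha b hb hab => (Int.isCoprime_iff_nat_coprime).2
          (by simpa using (Nat.coprime_primes (htp a ha) (htp b hb)).2 hab))
        fun p hp => (mem_filter.1 (ht hp)).2.2
  · intro d hd
    simp only [dset, mem_filter, Nat.mem_divisors] at hd
    obtain ⟨⟨⟨hdg, _⟩, _, hcop⟩, hdD⟩ := hd
    rw [mem_powerset]
    intro p hp
    obtain ⟨pp, hpd, hd0⟩ := Nat.mem_primeFactors.1 hp
    refine mem_filter.2 ⟨Nat.mem_primeFactors.2 ⟨pp, hpd.trans hdg, hg.ne'⟩, fun h => ?_,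
      (Int.natCast_dvd_natCast.2 hpd).trans hdD⟩
    exact pp.not_dvd_one (hcop ▸ Nat.dvd_gcd hpd h)
  · intro t ht
    exact Nat.primeFactors_prod fun p hp => hsp p (mem_powerset.1 ht hp)
  · intro d hd
    simp only [dset, mem_filter] at hd
    exact Nat.prod_primeFactors_of_squarefree hd.1.2.1
  · intro t ht
    have htp : ∀ p ∈ t, p.Prime := fun p hp => hsp p (mem_powerset.1 ht hp)
    have hpos : 0 < ∏ p ∈ t, p := prod_pos fun p hp => (htp p hp).pos
    have h := th_prod hpos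
    rw [th, Nat.primeFactors_prod htp, div_eq_iff (by exact_mod_cast hpos.ne'), Nat.cast_prod,
      ← prod_mul_distrib] at h
    rw [h, one_div, ← prod_inv_distrib]
    refine prod_congr rfl fun p hp => ?_
    have : (p : ℝ) ≠ 0 := by exact_mod_cast (htp p hp).ne_zero
    rw [one_div]
    congr 1
    field_simp

/-- The arithmetic of one coincidence. -/
lemma sum_coinc (A : ℤ) (B q r : ℕ) (hcop : IsCoprime A (B : ℤ)) (hq : 0 < q) (hr : 0 < r)
    (hne : q ≠ r) (n a0 b0 : ℤ) (h : (vv q r : ℤ) * a0 - (uu q r : ℤ) * b0 = n) :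
    ∑ t ∈ range (Nat.gcd q r),
        wt A B q (a0 + (uu q r : ℤ) * t) * wt A B r (b0 + (vv q r : ℤ) * t)
      ≤ (Nat.gcd q r : ℝ) * (th q * th r) * Wn A B q r n := by
  set u := uu q r with hu
  set v := vv q r with hv
  set g := Nat.gcd q r with hg
  have hg0 : 0 < g := Nat.gcd_pos_of_pos_left _ hq
  have hqu : g * u = q := Nat.mul_div_cancel' (Nat.gcd_dvd_left q r)
  have hrv : g * v = r := Nat.mul_div_cancel' (Nat.gcd_dvd_right q r)
  have hu0 : 0 < u := Nat.pos_of_ne_zero fun e => by rw [e, mul_zero] at hqu; omega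
  have hv0 : 0 < v := Nat.pos_of_ne_zero fun e => by rw [e, mul_zero] at hrv; omega
  have hco : Nat.Coprime u v := Nat.coprime_div_gcd_div_gcd hg0
  set D := D0 A B q r n with hD
  set X : ℤ → ℤ := fun t => (B : ℤ) * (a0 + u * t) + A with hX
  set Y : ℤ → ℤ := fun t => (B : ℤ) * (b0 + v * t) + A with hY
  have hXY : ∀ t, (v : ℤ) * X t - (u : ℤ) * Y t = D := fun t => by
    rw [hD, D0, hh, ← hu, ← hv, ← h, hX, hY]; ring
  have hw0 : ∀ t : ℕ, 0 ≤ wt A B q (a0 + u * t) ∧ 0 ≤ wt A B r (b0 + v * t) :=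
    fun t => ⟨(wt_mem _ _ _ _).1, (wt_mem _ _ _ _).1⟩
  by_cases hD0 : D = 0
  · have hz : ∀ t : ℕ, wt A B q (a0 + u * t) * wt A B r (b0 + v * t) = 0 := fun t => by
      have hB : ∀ p : ℕ, p.Prime → ∀ a : ℤ, (p : ℤ) ∣ (B : ℤ) * a + A → ¬ p ∣ B := by
        intro p hp a hd hpB
        have hpB' : (p : ℤ) ∣ (B : ℤ) := Int.natCast_dvd_natCast.2 hpB
        have hpA : (p : ℤ) ∣ A := (dvd_add_right (hpB'.mul_right a)).1 hd
        exact (Nat.prime_iff_prime_int.1 hp).not_unit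
          (hcop.isUnit_of_dvd' hpA hpB')
      have hzero : ∀ (m : ℕ) (a : ℤ) (p : ℕ), p.Prime → p ∣ m → 0 < m →
          (p : ℤ) ∣ (B : ℤ) * a + A → wt A B m a = 0 := fun m a p hp hpm hm hd =>
        prod_eq_zero (Nat.mem_primeFactors.2 ⟨hp, hpm, hm.ne'⟩)
          (by rw [if_neg (hB p hp a hd), if_pos hd])
      have e0 := hXY t
      rw [hD0, sub_eq_zero] at e0
      by_cases hu1 : u = 1
      · have hv1 : v ≠ 1 := fun e => hne (by rw [← hqu, ← hrv, hu1, e])
        obtain ⟨p, hp, hpv⟩ := Nat.exists_prime_and_dvd hv1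
        have hd : (p : ℤ) ∣ Y t := by
          rw [hu1, Nat.cast_one, one_mul] at e0
          rw [← e0]
          exact (Int.natCast_dvd_natCast.2 hpv).mul_right _
        rw [hzero r _ p hp (hrv ▸ hpv.mul_left g) hr hd, mul_zero]
      · obtain ⟨p, hp, hpu⟩ := Nat.exists_prime_and_dvd hu1
        have hd : (p : ℤ) ∣ (v : ℤ) * X t := by
          rw [e0]; exact (Int.natCast_dvd_natCast.2 hpu).mul_right _
        have hd' := ((Nat.prime_iff_prime_int.1 hp).dvd_or_dvd hd).resolve_left fun hh' =>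
          hp.not_dvd_one (hco ▸ Nat.dvd_gcd hpu (Int.natCast_dvd_natCast.1 hh'))
        rw [hzero q _ p hp (hqu ▸ hpu.mul_left g) hq hd', zero_mul]
    rw [sum_congr rfl fun t _ => hz t, sum_const_zero, Wn, if_pos (by exact hD0), mul_zero]
  set P := (q * r).primeFactors with hP
  have hqr : q * r ≠ 0 := (Nat.mul_pos hq hr).ne'
  have hPp : ∀ p ∈ P, p.Prime := fun p hp => Nat.prime_of_mem_primeFactors hp
  set f : ℕ → ℤ → ℝ := fun p t =>
    (if p ∣ q then lf B p (X t) else 1) * (if p ∣ r then lf B p (Y t) else 1) with hf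
  have hX' : ∀ t, X t = ((B : ℤ) * u) * t + ((B : ℤ) * a0 + A) := fun t => by rw [hX]; ring
  have hY' : ∀ t, Y t = ((B : ℤ) * v) * t + ((B : ℤ) * b0 + A) := fun t => by rw [hY]; ring
  have hprod : ∀ t : ℕ,
      wt A B q (a0 + u * t) * wt A B r (b0 + v * t) = ∏ p ∈ P, f p t := fun t => by
    have e : ∀ m, m ∣ q * r → P.filter (· ∣ m) = m.primeFactors := fun m hm => by
      ext p
      simp only [hP, mem_filter, Nat.mem_primeFactors]
      exact ⟨fun h => ⟨h.1.1, h.2, fun e => hqr (zero_dvd_iff.1 (e ▸ hm))⟩,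
        fun h => ⟨⟨h.1, h.2.1.trans hm, hqr⟩, h.2.1⟩⟩
    simp only [hf, prod_mul_distrib, ← prod_filter, e q (dvd_mul_right q r),
      e r (dvd_mul_left r q), wt_eq, hX, hY]
  have hper : ∀ p ∈ P, Function.Periodic (f p) (p : ℤ) := fun p _ t => by
    have hx := periodic_lf B p ((B : ℤ) * u) ((B : ℤ) * a0 + A) t
    have hy := periodic_lf B p ((B : ℤ) * v) ((B : ℤ) * b0 + A) t
    simp only at hx hy
    simp only [hf, hX', hY', hx, hy]
  have hdvd : ∀ p : ℕ, p.Prime → (p ∣ q ↔ p ∣ g ∨ p ∣ u) ∧ (p ∣ r ↔ p ∣ g ∨ p ∣ v) :=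
    fun p hp => ⟨by rw [← hqu, hp.dvd_mul], by rw [← hrv, hp.dvd_mul]⟩
  have hconst : ∀ (p : ℕ) (c d : ℤ), (p : ℤ) ∣ c → ∀ t : ℤ, lf B p (c * t + d) = lf B p d :=
    fun p c d hc t => by
      have : (p : ℤ) ∣ c * t + d ↔ (p : ℤ) ∣ d := dvd_add_right (hc.mul_right t)
      simp only [lf, nd, this]
  have hcst : ∀ p ∈ P, ¬ p ∣ g → ∀ t, f p t = f p 0 := fun p hp hpg t => by
    obtain ⟨d1, d2⟩ := hdvd p (hPp p hp)
    simp only [hf, hX', hY']
    congr 1
    · split_ifs with hpq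
      · have hc : (p : ℤ) ∣ (B : ℤ) * u :=
          (Int.natCast_dvd_natCast.2 ((d1.1 hpq).resolve_left hpg)).mul_left _
        rw [hconst p _ _ hc t, hconst p _ _ hc 0]
      · rfl
    · split_ifs with hpr
      · have hc : (p : ℤ) ∣ (B : ℤ) * v :=
          (Int.natCast_dvd_natCast.2 ((d2.1 hpr).resolve_left hpg)).mul_left _
        rw [hconst p _ _ hc t, hconst p _ _ hc 0]
      · rfl
  rw [sum_congr rfl fun t _ => hprod t, sum_local P f g hPp hper hcst, mul_assoc]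
  refine mul_le_mul_of_nonneg_left ?_ (Nat.cast_nonneg g)
  -- the local factors of the target
  set T : ℕ → ℝ := fun p =>
    (if p ∣ q then 1 - 1 / (p : ℝ) else 1) * (if p ∣ r then 1 - 1 / (p : ℝ) else 1) *
    (if p ∣ u * v ∧ ¬ p ∣ B then (if (p : ℤ) ∣ D then 0 else (p : ℝ) / ((p : ℝ) - 1)) else 1) *
    (if p ∣ g ∧ ¬ p ∣ u * v * B ∧ (p : ℤ) ∣ D then 1 + 1 / ((p : ℝ) - 1) else 1) with hT
  have hle : ∀ p ∈ P, (∑ a ∈ range p, f p a) / (p : ℝ) ≤ T p := by
    intro p hp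
    have pp := hPp p hp
    obtain ⟨d1, d2⟩ := hdvd p pp
    have hp2 : (2 : ℝ) ≤ p := by exact_mod_cast pp.two_le
    have hp0 : (p : ℝ) ≠ 0 := by linarith
    have hp1 : (p : ℝ) - 1 ≠ 0 := by linarith
    have hpi := Nat.prime_iff_prime_int.1 pp
    by_cases hpB : p ∣ B
    · have hnuvB : p ∣ u * v * B := dvd_mul_of_dvd_right hpB _
      simp only [hT, hf, lf, if_pos hpB, hpB, if_true, not_true, and_false, if_false, hnuvB, false_and,
        sum_const, card_range, nsmul_eq_mul]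
      rw [mul_div_cancel_left₀ _ hp0, mul_one, mul_one]
    have ndvd : ∀ m : ℕ, ¬ p ∣ m → ¬ (p : ℤ) ∣ (B : ℤ) * m := fun m hm hd =>
      (hpi.dvd_or_dvd hd).elim (fun h' => hpB (Int.natCast_dvd_natCast.1 h'))
        (fun h' => hm (Int.natCast_dvd_natCast.1 h'))
    have hsum : ∀ (m : ℕ) (d : ℤ), ¬ p ∣ m →
        ∑ a ∈ range p, nd p ((B : ℤ) * m * a + d) = (p : ℝ) - 1 :=
      fun m d hm => sum_nd pp (ndvd m hm) d
    have hDiff : ∀ (m k : ℕ) (Z W : ℤ), p ∣ k → ¬ p ∣ m → (m : ℤ) * Z - (k : ℤ) * W = D →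
        nd p Z = nd p D := fun m k Z W hk hm e => by
      have hiff : (p : ℤ) ∣ Z ↔ (p : ℤ) ∣ D := by
        rw [← e, dvd_sub_left ((Int.natCast_dvd_natCast.2 hk).mul_right _)]
        exact ⟨fun h' => h'.mul_left _, fun h' => (hpi.dvd_or_dvd h').resolve_left
          fun h'' => hm (Int.natCast_dvd_natCast.1 h'')⟩
      simp only [nd, hiff]
    have hnD : nd p D * ((p : ℝ) / ((p : ℝ) - 1))
        = if (p : ℤ) ∣ D then 0 else (p : ℝ) / ((p : ℝ) - 1) := by
      unfold nd; split_ifs <;> simp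
    by_cases hpu : p ∣ u
    · have hpv : ¬ p ∣ v := fun hv' => pp.not_dvd_one (hco ▸ Nat.dvd_gcd hpu hv')
      have hpq : p ∣ q := d1.2 (Or.inr hpu)
      have hXD : ∀ t : ℤ, nd p (X t) = nd p D := fun t => hDiff v u (X t) (Y t) hpu hpv (hXY t)
      have huv : p ∣ u * v ∧ ¬ p ∣ B := ⟨hpu.mul_right v, hpB⟩
      have hno : ¬ (p ∣ g ∧ ¬ p ∣ u * v * B ∧ (p : ℤ) ∣ D) :=
        fun hh' => hh'.2.1 (dvd_mul_of_dvd_left huv.1 B)
      simp only [hT, hf, lf, if_neg hpB, if_pos hpq, if_pos huv, if_neg hno, hXD, ← mul_sum,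
        ← hnD, mul_one]
      by_cases hpr : p ∣ r
      · simp only [if_pos hpr, hY']
        rw [hsum v _ hpv]
        refine le_of_eq ?_
        field_simp
      · simp only [if_neg hpr, sum_const, card_range, nsmul_eq_mul, mul_one]
        refine le_of_eq ?_
        field_simp
    by_cases hpv : p ∣ v
    · have hpr : p ∣ r := d2.2 (Or.inr hpv)
      have hYD : ∀ t : ℤ, nd p (Y t) = nd p D := fun t => by
        have e : (u : ℤ) * Y t - (v : ℤ) * X t = -D := by rw [← hXY t]; ring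
        have hiff : (p : ℤ) ∣ Y t ↔ (p : ℤ) ∣ D := by
          rw [← dvd_neg (b := D), ← e, dvd_sub_left ((Int.natCast_dvd_natCast.2 hpv).mul_right _)]
          exact ⟨fun h' => h'.mul_left _, fun h' => (hpi.dvd_or_dvd h').resolve_left
            fun h'' => hpu (Int.natCast_dvd_natCast.1 h'')⟩
        simp only [nd, hiff]
      have huv : p ∣ u * v ∧ ¬ p ∣ B := ⟨hpv.mul_left u, hpB⟩
      have hno : ¬ (p ∣ g ∧ ¬ p ∣ u * v * B ∧ (p : ℤ) ∣ D) :=
        fun hh' => hh'.2.1 (dvd_mul_of_dvd_left huv.1 B)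
      simp only [hT, hf, lf, if_neg hpB, if_pos hpr, if_pos huv, if_neg hno, hYD, ← sum_mul,
        ← hnD, mul_one]
      by_cases hpq : p ∣ q
      · simp only [if_pos hpq, hX']
        rw [hsum u _ hpu]
        refine le_of_eq ?_
        field_simp
      · simp only [if_neg hpq, sum_const, card_range, nsmul_eq_mul, mul_one]
        refine le_of_eq ?_
        field_simp
    have hpg : p ∣ g := by
      rcases (pp.dvd_mul).1 (Nat.dvd_of_mem_primeFactors hp) with h' | h'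
      · exact (d1.1 h').resolve_right hpu
      · exact (d2.1 h').resolve_right hpv
    have hnuv : ¬ (p ∣ u * v ∧ ¬ p ∣ B) := fun hh' => (pp.dvd_mul.1 hh'.1).elim hpu hpv
    have hnuvB : ¬ p ∣ u * v * B := fun hh' =>
      (pp.dvd_mul.1 hh').elim (fun h' => (pp.dvd_mul.1 h').elim hpu hpv) hpB
    simp only [hT, hf, lf, if_neg hpB, if_pos (d1.2 (Or.inl hpg)), if_pos (d2.2 (Or.inl hpg)),
      if_neg hnuv, hpg, hnuvB, not_false_iff, true_and, mul_one]
    by_cases hpD : (p : ℤ) ∣ D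
    · have hsame : ∀ t : ℤ, nd p (X t) * nd p (Y t) = nd p (X t) := fun t => by
        unfold nd
        split_ifs with a b b <;> try norm_num
        exfalso
        refine a ((hpi.dvd_or_dvd ?_).resolve_left fun h' => hpv (Int.natCast_dvd_natCast.1 h'))
        rw [show (v : ℤ) * X t = D + (u : ℤ) * Y t by rw [← hXY t]; ring]
        exact dvd_add hpD (b.mul_left _)
      simp only [hsame, if_pos hpD]
      simp only [hX']
      rw [hsum u _ hpu]
      refine le_of_eq ?_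
      field_simp
      ring
    · have hsep : ∀ t : ℤ, nd p (X t) * nd p (Y t) = nd p (X t) + nd p (Y t) - 1 := fun t => by
        unfold nd
        split_ifs with a b <;> try norm_num
        exfalso
        refine hpD ?_
        rw [← hXY t]
        exact dvd_sub (a.mul_left _) (b.mul_left _)
      simp only [hsep]
      simp only [hX', hY', if_neg hpD, mul_one, sum_sub_distrib, sum_add_distrib,
        sum_const, card_range, nsmul_eq_mul]
      rw [hsum u _ hpu, hsum v _ hpv]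
      field_simp
      nlinarith
  refine le_trans (Finset.prod_le_prod (fun p hp => ?_) hle) (le_of_eq ?_)
  · exact div_nonneg (sum_nonneg fun a _ => mul_nonneg
      (by split_ifs; exacts [(lf_mem (hPp p hp) _).1, zero_le_one])
      (by split_ifs; exacts [(lf_mem (hPp p hp) _).1, zero_le_one])) (Nat.cast_nonneg p)
  have e : ∀ m, m ∣ q * r → P.filter (· ∣ m) = m.primeFactors := fun m hm => by
    ext p
    simp only [hP, mem_filter, Nat.mem_primeFactors]
    exact ⟨fun h => ⟨h.1.1, h.2, fun e => hqr (zero_dvd_iff.1 (e ▸ hm))⟩,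
      fun h => ⟨⟨h.1, h.2.1.trans hm, hqr⟩, h.2.1⟩⟩
  have huvd : u * v ∣ q * r := Nat.mul_dvd_mul ⟨g, by rw [← hqu, mul_comm]⟩ ⟨g, by rw [← hrv, mul_comm]⟩
  have hgd : g ∣ q * r := (Nat.gcd_dvd_left q r).mul_right r
  simp only [hT, prod_mul_distrib]
  rw [← prod_filter, ← prod_filter, ← prod_filter, ← prod_filter, e q (dvd_mul_right q r),
    e r (dvd_mul_left r q), ← th_prod hq, ← th_prod hr, mul_assoc, Wn, ← hD, if_neg hD0]
  congr 1
  have e1 : P.filter (fun p => p ∣ u * v ∧ ¬ p ∣ B)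
      = (u * v).primeFactors.filter (fun p => ¬ p ∣ B) := by
    rw [← filter_filter, e _ huvd]
  have e2 : P.filter (fun p => p ∣ g ∧ ¬ p ∣ u * v * B ∧ (p : ℤ) ∣ D)
      = g.primeFactors.filter (fun p => ¬ p ∣ u * v * B ∧ (p : ℤ) ∣ D) := by
    rw [← filter_filter, e _ hgd]
  rw [e1, e2]
  congr 1
  exact (sum_dset hg0 hD0).symm

end Overlap

open Overlap

theorem fq_nonneg (γ : ℝ) (ψ : ℕ → ℝ) (A : ℤ) (B q : ℕ) (x : ℝ) : 0 ≤ fq γ ψ A B q x :=
  (bump_mem (wt_mem A B q) _).1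

theorem fq_le_one (γ : ℝ) (ψ : ℕ → ℝ) (A : ℤ) (B q : ℕ) (x : ℝ) : fq γ ψ A B q x ≤ 1 :=
  (bump_mem (wt_mem A B q) _).2

theorem fq_measurable (γ : ℝ) (ψ : ℕ → ℝ) (A : ℤ) (B q : ℕ) : Measurable (fq γ ψ A B q) :=
  (measurable_bump _ _).comp ((measurable_const_mul _).sub_const _)

theorem fq_ne_zero (γ : ℝ) (ψ : ℕ → ℝ) (A : ℤ) (B q : ℕ) (x : ℝ) (h : fq γ ψ A B q x ≠ 0) :
    distInt ((q : ℝ) * x - γ) < ψ q := by
  by_contra hn
  exact h (if_neg hn)

theorem integral_fq (γ : ℝ) (ψ : ℕ → ℝ) (A : ℤ) (B q : ℕ) (_hcop : IsCoprime A (B : ℤ))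
    (hq : 0 < q) (h0 : 0 ≤ ψ q) (h1 : ψ q ≤ 1 / 2) :
    ∫ x in Set.Ico (0 : ℝ) 1, fq γ ψ A B q x = 2 * mu ψ q := by
  have hq0 : (q : ℝ) ≠ 0 := by exact_mod_cast hq.ne'
  have hper : Function.Periodic (bump (ψ q) (wt A B q)) (q : ℝ) := fun y => by
    have := periodic_wt A B q (round y)
    rw [bump, bump, show (q : ℝ) = ((q : ℤ) : ℝ) from (Int.cast_natCast q).symm, round_add_intCast,
      this]
    push_cast
    rw [add_sub_add_right_eq_sub]
  have h2 := hper.intervalIntegral_add_eq (((0 : ℤ) : ℝ) - 1 / 2) (-γ)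
  rw [show ((0 : ℤ) : ℝ) - 1 / 2 + q = ((q : ℤ) : ℝ) - 1 / 2 by push_cast; ring,
    int_cells (wt_mem A B q) h0 h1 (Int.natCast_nonneg q)] at h2
  rw [integral_Ico_eq_integral_Ioc, ← intervalIntegral.integral_of_le zero_le_one,
    int_scale γ ψ A B q hq, mul_zero, zero_sub, mul_one,
    show (q : ℝ) - γ = -γ + q by ring, ← h2]
  have hs : ∑ k ∈ Finset.Ico (0 : ℤ) q, wt A B q k = ∑ a ∈ range q, wt A B q a :=
    (sum_bij (fun (a : ℕ) _ => (a : ℤ)) (by simp) (by simp)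
      (fun k hk => ⟨k.toNat, by simp at hk ⊢; omega, by simp at hk ⊢; omega⟩) (fun _ _ => rfl)).symm
  rw [hs, sum_wt_period A B q hq, mu]
  field_simp

theorem integral_fq_interval :
    ∃ C : ℝ, ∀ (γ : ℝ) (ψ : ℕ → ℝ) (A : ℤ) (B q : ℕ) (a b : ℝ),
      IsCoprime A (B : ℤ) → 0 < q → 0 ≤ ψ q → ψ q ≤ 1 / 2 → 0 ≤ a → a ≤ b → b ≤ 1 →
      |(∫ x in Set.Ioc a b, fq γ ψ A B q x) - (b - a) * (2 * mu ψ q)|
        ≤ C * ψ q * (q.divisors.card : ℝ) / q := by
  refine ⟨6, fun γ ψ A B q a b _ hq h0 h1 _ hab _ => ?_⟩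
  rw [← intervalIntegral.integral_of_le hab]
  exact int_fq_approx γ ψ A B q hq h0 h1 hab

/-- The overlap formula (BLUEPRINT 2), for any `B` (also `B = 0`). -/
theorem overlap_le' (γ : ℝ) (ψ : ℕ → ℝ) (A : ℤ) (B q r : ℕ)
    (hcop : IsCoprime A (B : ℤ)) (hq : 0 < q) (hr : 0 < r) (hne : q ≠ r)
    (hq0 : 0 < ψ q) (hq1 : ψ q ≤ 1 / 2) (hr0 : 0 < ψ r) (_hr1 : ψ r ≤ 1 / 2) :
    ∫ x in Set.Ico (0 : ℝ) 1, fq γ ψ A B q x * fq γ ψ A B r x
      ≤ 4 * mu ψ q * mu ψ r / etaP ψ q r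
          * ∑ n ∈ nWin γ (etaP ψ q r) q r, Wn A B q r n := by
  classical
  set g := Nat.gcd q r with hg
  set u := uu q r with hu
  set v := vv q r with hv
  have hg0 : 0 < g := Nat.gcd_pos_of_pos_left _ hq
  have hqu : g * u = q := Nat.mul_div_cancel' (Nat.gcd_dvd_left q r)
  have hrv : g * v = r := Nat.mul_div_cancel' (Nat.gcd_dvd_right q r)
  have hu0 : 0 < u := Nat.pos_of_ne_zero fun e => by rw [e, mul_zero] at hqu; omega
  have hv0 : 0 < v := Nat.pos_of_ne_zero fun e => by rw [e, mul_zero] at hrv; omega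
  have hco : Nat.Coprime u v := Nat.coprime_div_gcd_div_gcd hg0
  have hqR : (q : ℝ) = g * u := by exact_mod_cast hqu.symm
  have hrR : (r : ℝ) = g * v := by exact_mod_cast hrv.symm
  have hgR : (0 : ℝ) < g := by exact_mod_cast hg0
  have huR : (0 : ℝ) < u := by exact_mod_cast hu0
  have hvR : (0 : ℝ) < v := by exact_mod_cast hv0
  set η := etaP ψ q r with hη
  have hηdef : η = v * ψ q + u * ψ r := rfl
  have hη0 : 0 < η := by rw [hηdef]; positivity
  rw [int_mul_eq γ ψ A A B B q r hq hq0.le hq1]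
  set c := 4 * ψ q * ψ r / (g * η) with hc
  have hc0 : 0 ≤ c := by positivity
  set S : ℕ → Finset ℤ := fun a =>
    (Finset.Icc ⌊(r : ℝ) * (((a : ℝ) + γ - ψ q) / q) - γ - ψ r⌋
      ⌈(r : ℝ) * (((a : ℝ) + γ + ψ q) / q) - γ + ψ r⌉).filter
      (fun b : ℤ => |(((v : ℤ) * a - (u : ℤ) * b : ℤ) : ℝ) + γ * (hh q r : ℝ)| < η) with hS
  have hstep : ∀ a ∈ range q, wt A B q a *
      ∫ x in (((a : ℝ) + γ - ψ q) / q)..(((a : ℝ) + γ + ψ q) / q), fq γ ψ A B r x
      ≤ c * ∑ b ∈ S a, wt A B q a * wt A B r b := by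
    intro a _
    rw [mul_sum _ _ c, int_scale γ ψ A B r hr]
    have hle : (r : ℝ) * (((a : ℝ) + γ - ψ q) / q) - γ
        ≤ (r : ℝ) * (((a : ℝ) + γ + ψ q) / q) - γ := by gcongr; linarith
    have h := int_bump_le (wt_mem A B r) hr0.le hle (S a) fun k k1 k2 => by
      refine mem_filter.2 ⟨Finset.mem_Icc.2 ⟨?_, ?_⟩, ?_⟩
      · exact Int.cast_le.1 ((Int.floor_le _).trans k1.le)
      · exact Int.cast_le.1 (k2.le.trans (Int.le_ceil _))
      · rw [hqR, hrR] at k1 k2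
        have e : ∀ z : ℝ, (g : ℝ) * v * (z / (g * u)) * u = v * z := fun z => by
          field_simp
        have k1' := mul_lt_mul_of_pos_right k1 huR
        have k2' := mul_lt_mul_of_pos_right k2 huR
        simp only [sub_mul, add_mul, e] at k1' k2'
        simp only [hh, ← hu, ← hv, hηdef]
        push_cast
        rw [abs_lt]
        constructor <;> linarith
    have hmin : (r : ℝ)⁻¹ * min (2 * ψ r) ((r : ℝ) * (((a : ℝ) + γ + ψ q) / q) - γ
        - ((r : ℝ) * (((a : ℝ) + γ - ψ q) / q) - γ)) ≤ c := by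
      rw [show (r : ℝ) * (((a : ℝ) + γ + ψ q) / q) - γ
          - ((r : ℝ) * (((a : ℝ) + γ - ψ q) / q) - γ) = 2 * ψ q * v / u by
        rw [hqR, hrR]; field_simp; ring, hc, hrR, hηdef]
      rcases le_total (u * ψ r) (v * ψ q) with hcase | hcase
      · calc ((g : ℝ) * v)⁻¹ * min (2 * ψ r) (2 * ψ q * v / u)
            ≤ ((g : ℝ) * v)⁻¹ * (2 * ψ r) := by gcongr; exact min_le_left _ _
          _ ≤ _ := by
            rw [inv_mul_eq_div, div_le_div_iff₀ (by positivity) (by positivity)]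
            have := mul_le_mul_of_nonneg_left hcase (by positivity : 0 ≤ 2 * ψ r * g)
            linarith
      · calc ((g : ℝ) * v)⁻¹ * min (2 * ψ r) (2 * ψ q * v / u)
            ≤ ((g : ℝ) * v)⁻¹ * (2 * ψ q * v / u) := by gcongr; exact min_le_right _ _
          _ = 2 * ψ q / (g * u) := by field_simp
          _ ≤ _ := by
            rw [div_le_div_iff₀ (by positivity) (by positivity)]
            have := mul_le_mul_of_nonneg_left hcase (by positivity : 0 ≤ 2 * ψ q * g)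
            linarith
    have hnn : 0 ≤ ∑ b ∈ S a, wt A B r b := sum_nonneg fun b _ => (wt_mem A B r b).1
    calc wt A B q a * ((r : ℝ)⁻¹ * _)
        ≤ wt A B q a * ((r : ℝ)⁻¹ * ((∑ b ∈ S a, wt A B r b) * _)) :=
          mul_le_mul_of_nonneg_left (mul_le_mul_of_nonneg_left h (by positivity))
            (wt_mem A B q a).1
      _ ≤ wt A B q a * ((∑ b ∈ S a, wt A B r b) * c) := by
          refine mul_le_mul_of_nonneg_left ?_ (wt_mem A B q a).1
          rw [mul_left_comm]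
          exact mul_le_mul_of_nonneg_left hmin hnn
      _ = _ := by rw [sum_mul, mul_sum]; exact sum_congr rfl fun b _ => by ring
  refine le_trans (sum_le_sum hstep) ?_
  rw [← mul_sum, sum_sigma' (range q) S (fun a b => wt A B q a * wt A B r b)]
  have hmaps : ∀ x ∈ (range q).sigma S, (v : ℤ) * x.1 - (u : ℤ) * x.2 ∈ nWin γ η q r := by
    intro x hx
    obtain ⟨-, hx⟩ := mem_sigma.1 hx
    have h := (mem_filter.1 hx).2
    obtain ⟨h1, h2⟩ := abs_lt.1 h
    refine mem_filter.2 ⟨Finset.mem_Icc.2 ⟨?_, ?_⟩, h⟩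
    · rw [Int.ceil_le]; linarith
    · rw [Int.le_floor]; linarith
  rw [← sum_fiberwise_of_maps_to hmaps]
  have hfib : ∀ n ∈ nWin γ η q r, ∑ x ∈ (range q).sigma S with (v : ℤ) * x.1 - (u : ℤ) * x.2 = n,
      wt A B q x.1 * wt A B r x.2 ≤ (g : ℝ) * (th q * th r) * Wn A B q r n := by
    intro n _
    set F := ((range q).sigma S).filter (fun x => (v : ℤ) * x.1 - (u : ℤ) * x.2 = n) with hF
    obtain ⟨α, β, hαβ⟩ : ∃ α β : ℤ, α * (u : ℤ) + β * (v : ℤ) = 1 := Nat.isCoprime_iff_coprime.2 hco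
    set a0 := (β * n) % (u : ℤ) with ha0
    set b0 := -α * n - (v : ℤ) * ((β * n) / (u : ℤ)) with hb0
    have huI : (u : ℤ) ≠ 0 := by exact_mod_cast hu0.ne'
    have e0 : (v : ℤ) * a0 - (u : ℤ) * b0 = n := by
      rw [ha0, hb0, Int.emod_def]; linear_combination n * hαβ
    have ha0' : 0 ≤ a0 ∧ a0 < u := ⟨Int.emod_nonneg _ huI, Int.emod_lt_of_pos _ (by omega)⟩
    refine le_trans ?_ (sum_coinc A B q r hcop hq hr hne n a0 b0 e0)
    have hmem : ∀ x ∈ F, ∃ t < g, (x.1 : ℤ) = a0 + u * t ∧ x.2 = b0 + v * t := by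
      intro x hx
      obtain ⟨hx1, hx2⟩ := mem_filter.1 hx
      obtain ⟨hxa, -⟩ := mem_sigma.1 hx1
      rw [mem_range] at hxa
      have hd : (v : ℤ) * ((x.1 : ℤ) - a0) = (u : ℤ) * (x.2 - b0) := by
        linear_combination hx2 - e0
      obtain ⟨t, ht⟩ := (Int.isCoprime_iff_nat_coprime.2 (by simpa using hco)).dvd_of_dvd_mul_left
        (⟨x.2 - b0, hd⟩ : (u : ℤ) ∣ (v : ℤ) * ((x.1 : ℤ) - a0))
      have hb : x.2 - b0 = v * t :=
        mul_left_cancel₀ huI (by rw [← hd, ht]; ring)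
      have hlt : (x.1 : ℤ) < g * u := by rw [← Nat.cast_mul, hqu]; exact_mod_cast hxa
      have ht0 : 0 ≤ t := by
        by_contra hneg
        have := mul_le_mul_of_nonneg_left (show t ≤ -1 by omega) (by omega : (0 : ℤ) ≤ u)
        omega
      have ht1 : t < g := by
        by_contra hbig
        have := mul_le_mul_of_nonneg_left (show (g : ℤ) ≤ t by omega) (by omega : (0 : ℤ) ≤ u)
        rw [mul_comm (g : ℤ)] at hlt
        omega
      exact ⟨t.toNat, by omega, by rw [Int.toNat_of_nonneg ht0]; linarith,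
        by rw [Int.toNat_of_nonneg ht0]; linarith⟩
    choose! t ht1 ht2 ht3 using hmem
    calc ∑ x ∈ F, wt A B q x.1 * wt A B r x.2
        = ∑ j ∈ F.image t, wt A B q (a0 + u * j) * wt A B r (b0 + v * j) := by
          rw [sum_image fun x hx y hy h => ?_]
          · exact sum_congr rfl fun x hx => by rw [← ht2 x hx, ← ht3 x hx]
          · have h1 : (x.1 : ℤ) = y.1 := by rw [ht2 x hx, ht2 y hy, h]
            exact Sigma.ext (by exact_mod_cast h1) (heq_of_eq (by rw [ht3 x hx, ht3 y hy, h]))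
      _ ≤ _ := sum_le_sum_of_subset_of_nonneg
          (fun j hj => by
            obtain ⟨x, hx, rfl⟩ := mem_image.1 hj
            exact mem_range.2 (ht1 x hx))
          fun j _ _ => mul_nonneg (wt_mem _ _ _ _).1 (wt_mem _ _ _ _).1
  refine (mul_le_mul_of_nonneg_left (sum_le_sum hfib) hc0).trans_eq ?_
  rw [← mul_sum, hc, mu, mu]
  field_simp

/-- The overlap formula (BLUEPRINT 2). -/
theorem overlap_le (γ : ℝ) (ψ : ℕ → ℝ) (A : ℤ) (B q r : ℕ)
    (hcop : IsCoprime A (B : ℤ)) (_hB : 0 < B) (hq : 0 < q) (hr : 0 < r) (hne : q ≠ r)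
    (hq0 : 0 < ψ q) (hq1 : ψ q ≤ 1 / 2) (hr0 : 0 < ψ r) (hr1 : ψ r ≤ 1 / 2) :
    ∫ x in Set.Ico (0 : ℝ) 1, fq γ ψ A B q x * fq γ ψ A B r x
      ≤ 4 * mu ψ q * mu ψ r / etaP ψ q r
          * ∑ n ∈ nWin γ (etaP ψ q r) q r, Wn A B q r n :=
  overlap_le' γ ψ A B q r hcop hq hr hne hq0 hq1 hr0 hr1

/-- Pairs from distant cells are quasi-independent, whatever the two exclusion rationals are. -/
theorem cross_bound :
    ∃ (C : ℝ) (q0 : ℕ), ∀ (γ : ℝ) (ψ : ℕ → ℝ) (A A' : ℤ) (B B' q r : ℕ),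
      IsCoprime A (B : ℤ) → IsCoprime A' (B' : ℤ) → q0 ≤ q → 0 < q → q ^ 8 ≤ r →
      ((q : ℝ) ^ 2)⁻¹ ≤ ψ q → ψ q ≤ 1 / 2 → 0 ≤ ψ r → ψ r ≤ 1 / 2 →
      ∫ x in Set.Ico (0 : ℝ) 1, fq γ ψ A B q x * fq γ ψ A' B' r x ≤ C * mu ψ q * mu ψ r := by
  obtain ⟨C1, hC1⟩ := card_divisors_le (1 / 4) (by norm_num)
  refine ⟨4 + 6 * C1 ^ 2, 0, fun γ ψ A A' B B' q r _ _ _ hq hqr hq2 hq1 hr0 hr1 => ?_⟩
  have hr : 0 < r := lt_of_lt_of_le (pow_pos hq 8) hqr
  have hqR : (1 : ℝ) ≤ q := by exact_mod_cast hq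
  have hq0 : 0 < ψ q := lt_of_lt_of_le (by positivity) hq2
  rw [int_mul_eq γ ψ A A' B B' q r hq hq0.le hq1]
  set τ := (r.divisors.card : ℝ) with hτ
  set K := 2 * ψ q / q * (2 * mu ψ r) + 6 * ψ r * τ / r with hK
  have hle : ∀ a ∈ range q, wt A B q a *
      ∫ x in (((a : ℝ) + γ - ψ q) / q)..(((a : ℝ) + γ + ψ q) / q), fq γ ψ A' B' r x
      ≤ wt A B q a * K := fun a _ => by
    refine mul_le_mul_of_nonneg_left ?_ (wt_mem A B q a).1
    have h := (abs_le.1 (int_fq_approx γ ψ A' B' r hr hr0 hr1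
      (a := ((a : ℝ) + γ - ψ q) / q) (b := ((a : ℝ) + γ + ψ q) / q) (by gcongr; linarith))).2
    rw [show ((a : ℝ) + γ + ψ q) / q - ((a : ℝ) + γ - ψ q) / q = 2 * ψ q / q by ring] at h
    rw [hK]; linarith
  refine (sum_le_sum hle).trans ?_
  rw [← sum_mul, sum_wt_period A B q hq, hK]
  have hth : 0 ≤ th q := div_nonneg (Nat.cast_nonneg _) (Nat.cast_nonneg _)
  -- `τ q ^ 3 ≤ C1 ^ 2 φ(r)`
  have hτr : τ ≤ C1 * (r : ℝ) ^ (1 / 4 : ℝ) := hC1 r hr
  have hphi : 1 / τ ≤ th r := by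
    rw [th_prod hr]
    have h2 : (2 : ℝ) ^ r.primeFactors.card ≤ τ := by
      rw [hτ]; exact_mod_cast two_pow_omega_le_divisors r hr
    refine (one_div_le_one_div_of_le (by positivity) h2).trans ?_
    rw [one_div, ← inv_pow, ← prod_const]
    refine Finset.prod_le_prod (fun p _ => by norm_num) fun p hp => ?_
    have h2p : (2 : ℝ) ≤ p := by exact_mod_cast (Nat.prime_of_mem_primeFactors hp).two_le
    have := one_div_le_one_div_of_le (by norm_num) h2p
    linarith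
  have hτ0 : 0 < τ := by
    rw [hτ]; exact_mod_cast Finset.card_pos.2 ⟨1, Nat.one_mem_divisors.2 hr.ne'⟩
  have hrR : (0 : ℝ) < r := by exact_mod_cast hr
  have hq3 : (q : ℝ) ^ 3 ≤ (r : ℝ) ^ (1 / 2 : ℝ) := by
    have h8 : (q : ℝ) ^ 8 ≤ r := by exact_mod_cast hqr
    rw [show (q : ℝ) ^ 3 = ((q : ℝ) ^ 6) ^ (1 / 2 : ℝ) by
      rw [show (q : ℝ) ^ 6 = ((q : ℝ) ^ 3) ^ 2 by ring, ← Real.sqrt_eq_rpow,
        Real.sqrt_sq (by positivity)]]
    refine Real.rpow_le_rpow (by positivity) (le_trans ?_ h8) (by norm_num)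
    exact pow_le_pow_right₀ hqR (by norm_num)
  have hpow : (r : ℝ) ^ (1 / 4 : ℝ) * (r : ℝ) ^ (1 / 4 : ℝ) * (r : ℝ) ^ (1 / 2 : ℝ) = r := by
    rw [← Real.rpow_add hrR, ← Real.rpow_add hrR]; norm_num
  have h1 : τ * τ * (q : ℝ) ^ 3 ≤ C1 ^ 2 * r := by
    calc τ * τ * (q : ℝ) ^ 3
        ≤ (C1 * (r : ℝ) ^ (1 / 4 : ℝ)) * (C1 * (r : ℝ) ^ (1 / 4 : ℝ)) * (r : ℝ) ^ (1 / 2 : ℝ) :=
          mul_le_mul (mul_le_mul hτr hτr hτ0.le (le_trans hτ0.le hτr)) hq3 (by positivity)
            (mul_nonneg (le_trans hτ0.le hτr) (le_trans hτ0.le hτr))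
      _ = _ := by linear_combination C1 ^ 2 * hpow
  have hkey : τ * q / r ≤ C1 ^ 2 * (ψ q * th r) := by
    have h3 : ((q : ℝ) ^ 2)⁻¹ * (1 / τ) ≤ ψ q * th r :=
      mul_le_mul hq2 hphi (by positivity) hq0.le
    refine le_trans ?_ (mul_le_mul_of_nonneg_left h3 (sq_nonneg C1))
    rw [show C1 ^ 2 * (((q : ℝ) ^ 2)⁻¹ * (1 / τ)) = C1 ^ 2 / ((q : ℝ) ^ 2 * τ) by field_simp,
      div_le_div_iff₀ hrR (by positivity)]
    linarith
  have h6 := mul_le_mul_of_nonneg_left hkey (mul_nonneg (mul_nonneg (by norm_num : (0:ℝ) ≤ 6) hth) hr0)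
  have e : (q : ℝ) * th q * (2 * ψ q / q * (2 * mu ψ r) + 6 * ψ r * τ / r)
      = 4 * mu ψ q * mu ψ r + 6 * th q * ψ r * (τ * q / r) := by
    rw [mu, mu]; field_simp; ring
  rw [e]
  simp only [mu] at h6 ⊢
  linarith

end Vale.Agent.P028
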